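import Vale.Agent.P032.H892.Dir
import Vale.Agent.P032.H913.Geo
import Vale.Agent.P032.H820.Hull

/-!
# P032: cells at a point: sectors and zones of rays

Ticks `a : ℕ → ℝ` of two direction classes (`H913.Tick 2 a`), ray `j` at `x` = the direction `ra a j = a j + 3 / 2`
(units of 60 degrees).  For a set `S` of points

* `DS S x` : the limit directions of `S` at `x`,
* `Cl S x a 0 j` : a limit direction strictly between the rays `j` and `j + 1`,
* `Cl S x a k j`, `k = 1, 2, 3` : points of `S` accumulate at `x` along the ray `j` in the zone `k`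
  (`1` inside the circle about `x + dir (a j)`, `3` inside the circle about `x - dir (a j)`, `2` outside both),
* `In S x c`, `Ou S x c` : points of `S` accumulate at `x` inside, outside the unit circle about `c`.

`exists_cell`, `cell`, `in_of_cl`, `ou_of_cl`, `ds_eq_dr`.
-/

open Set Filter Topology Metric

noncomputable section

namespace Vale.Agent.P032.H357

open Vale.Agent.P032.Six Vale.Agent.P032.H892 Vale.Agent.P032.H913 Vale.Agent.P032.S5.H767

variable {U : Fin 6 → Set ℂ} {T : ℂ → Set (Fin 6)}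

/-- the points of `S` in polar coordinates about `x` -/
def PS (S : Set ℂ) (x : ℂ) : Set (ℝ × ℝ) := {p | 0 < p.1 ∧ po x p ∈ S}

/-- the limit directions of `S` at `x` -/
def DS (S : Set ℂ) (x : ℂ) : Set ℝ := {θ | ∃ᶠ p in 𝓝 ((0 : ℝ), θ), p ∈ PS S x}

/-- the zone `k` of the ray orthogonal to `u` -/
def Zn (x u : ℂ) (k : ℕ) (w : ℂ) : Prop :=
  if k = 1 then dist w (x + u) < 1 else if k = 3 then dist w (x - u) < 1
  else 1 ≤ dist w (x + u) ∧ 1 ≤ dist w (x - u)

/-- the angle of the ray `j` -/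
def ra (a : ℕ → ℝ) (j : ℕ) : ℝ := a j + 3 / 2

/-- cells -/
def Cl (S : Set ℂ) (x : ℂ) (a : ℕ → ℝ) (k j : ℕ) : Prop :=
  if k = 0 then ∃ θ ∈ Ioo (ra a j) (ra a (j + 1)), θ ∈ DS S x
  else ∃ᶠ p in 𝓝 ((0 : ℝ), ra a j), p ∈ PS S x ∧ Zn x (dir (a j)) k (po x p)

/-- points of `S` accumulate at `x` inside `S(c)` -/
def In (S : Set ℂ) (x c : ℂ) : Prop := ∃ᶠ w in 𝓝 x, w ∈ S ∧ dist w c < 1

/-- points of `S` accumulate at `x` outside `S(c)` -/
def Ou (S : Set ℂ) (x c : ℂ) : Prop := ∃ᶠ w in 𝓝 x, w ∈ S ∧ 1 ≤ dist w c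

/-- the points with the only colour `q` -/
def Sq (T : ℂ → Set (Fin 6)) (q : Fin 6) : Set ℂ := {w | T w = {q}}

theorem tendsto_po (x : ℂ) (θ : ℝ) : Tendsto (po x) (𝓝 ((0 : ℝ), θ)) (𝓝 x) := by
  have := (continuous_po x).tendsto ((0 : ℝ), θ)
  rwa [po_zero] at this

theorem freq_po {x : ℂ} {θ : ℝ} {P : ℂ → Prop} (h : ∃ᶠ p in 𝓝 ((0 : ℝ), θ), P (po x p)) :
    ∃ᶠ w in 𝓝 x, P w := (tendsto_po x θ).frequently h

theorem cl_zero {S : Set ℂ} {x : ℂ} {a : ℕ → ℝ} {j : ℕ} :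
    Cl S x a 0 j ↔ ∃ θ ∈ Ioo (ra a j) (ra a (j + 1)), θ ∈ DS S x := by
  unfold Cl; simp

theorem cl_pos {S : Set ℂ} {x : ℂ} {a : ℕ → ℝ} {k j : ℕ} (hk : k ≠ 0) :
    Cl S x a k j ↔ ∃ᶠ p in 𝓝 ((0 : ℝ), ra a j), p ∈ PS S x ∧ Zn x (dir (a j)) k (po x p) := by
  unfold Cl; rw [if_neg hk]

theorem cl_ray {S : Set ℂ} {x : ℂ} {a : ℕ → ℝ} {k j : ℕ} (hk : k ≠ 0) (h : Cl S x a k j) : ra a j ∈ DS S x :=
  ((cl_pos hk).1 h).mono fun _ hp => hp.1

/-- a limit direction on a ray is in one of the three zones -/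
theorem exists_zone {S : Set ℂ} {x : ℂ} {a : ℕ → ℝ} {j : ℕ} (h : ra a j ∈ DS S x) :
    ∃ k, 1 ≤ k ∧ k ≤ 3 ∧ Cl S x a k j := by
  by_contra hcon
  push Not at hcon
  have h1 := hcon 1 le_rfl (by norm_num)
  have h2 := hcon 2 (by norm_num) (by norm_num)
  have h3 := hcon 3 (by norm_num) le_rfl
  rw [cl_pos (by norm_num), not_frequently] at h1 h2 h3
  obtain ⟨p, hp, h1, h2, h3⟩ := (Frequently.and_eventually (show ∃ᶠ p in 𝓝 ((0 : ℝ), ra a j), p ∈ PS S x from h)
    (h1.and (h2.and h3))).exists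
  simp only [Zn, not_and, if_true] at h1 h2 h3
  norm_num at h1 h2 h3
  have k1 := h1 hp
  have k3 := h3 hp
  have k2 := h2 hp k1
  linarith

theorem ds_iff_cl {S : Set ℂ} {x : ℂ} {a : ℕ → ℝ} {j : ℕ} :
    ra a j ∈ DS S x ↔ ∃ k, 1 ≤ k ∧ k ≤ 3 ∧ Cl S x a k j :=
  ⟨exists_zone, fun ⟨_, h1, _, h⟩ => cl_ray (by omega) h⟩

/-! ### periods -/

theorem tendsto_shift (θ : ℝ) (c : ℝ) : Tendsto (fun p : ℝ × ℝ => (p.1, p.2 + c)) (𝓝 ((0 : ℝ), θ))
    (𝓝 ((0 : ℝ), θ + c)) := by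
  have : Continuous fun p : ℝ × ℝ => (p.1, p.2 + c) := by fun_prop
  exact this.tendsto ((0 : ℝ), θ)

theorem freq_six {x : ℂ} {θ : ℝ} {P : ℝ → ℂ → Prop} :
    (∃ᶠ p in 𝓝 ((0 : ℝ), θ + 6), P p.1 (po x p)) ↔ ∃ᶠ p in 𝓝 ((0 : ℝ), θ), P p.1 (po x p) := by
  have e : ∀ p : ℝ × ℝ, po x (p.1, p.2 + 6) = po x p := fun p => po_six x p.1 p.2
  constructor
  · intro h
    have h1 := tendsto_shift (θ + 6) (-6)
    rw [show θ + 6 + -6 = θ by ring] at h1
    refine h1.frequently (h.mono fun p hp => ?_)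
    have := e (p.1, p.2 + -6)
    rw [show ((p.1, p.2 + -6) : ℝ × ℝ).2 + 6 = p.2 by simp] at this
    rw [← this]; exact hp
  · intro h
    refine (tendsto_shift θ 6).frequently (h.mono fun p hp => ?_)
    show P p.1 (po x (p.1, p.2 + 6))
    rw [e]; exact hp

theorem ds_six {S : Set ℂ} {x : ℂ} {θ : ℝ} : θ + 6 ∈ DS S x ↔ θ ∈ DS S x :=
  freq_six (P := fun r w => 0 < r ∧ w ∈ S)

theorem ds_six_int {S : Set ℂ} {x : ℂ} {θ : ℝ} (n : ℤ) : θ + 6 * n ∈ DS S x ↔ θ ∈ DS S x := by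
  induction n using Int.induction_on with
  | zero => simp
  | succ n ih =>
    rw [← ih, ← ds_six (θ := θ + 6 * (n : ℤ))]
    have e : θ + 6 * (((n : ℤ) + 1 : ℤ) : ℝ) = θ + 6 * ((n : ℤ) : ℝ) + 6 := by push_cast; ring
    rw [e]
  | pred n ih =>
    rw [← ih, ← ds_six (θ := θ + 6 * ((-(n : ℤ) - 1 : ℤ) : ℝ))]
    have e : θ + 6 * ((-(n : ℤ) - 1 : ℤ) : ℝ) + 6 = θ + 6 * ((-(n : ℤ) : ℤ) : ℝ) := by push_cast; ring
    rw [e]

section
variable {a : ℕ → ℝ} (A : Tick 2 a)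
include A

theorem a_add (t q : ℕ) : a (t + 2 * q) = a t + q := by
  have := A.per_mul t q
  rwa [mul_comm] at this

theorem a_six (t : ℕ) : a (t + 6) = a t + 3 := by
  have := a_add A t 3
  norm_num at this
  exact this

theorem a_twelve (t : ℕ) : a (t + 12) = a t + 6 := by
  have := a_add A t 6
  norm_num at this
  exact this

theorem ra_six (t : ℕ) : ra a (t + 6) = ra a t + 3 := by unfold ra; rw [a_six A]; ring

theorem ra_twelve (t : ℕ) : ra a (t + 12) = ra a t + 6 := by unfold ra; rw [a_twelve A]; ring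

omit A in
theorem ra_lt (A : Tick 2 a) {s t : ℕ} (h : s < t) : ra a s < ra a t := by
  unfold ra
  have := A.mono h
  linarith

theorem dir_six (t : ℕ) : dir (a (t + 6)) = -dir (a t) := by
  rw [a_six A, dir_add_three]

theorem dir_twelve (t : ℕ) : dir (a (t + 12)) = dir (a t) := by
  rw [a_twelve A, dir_add_six]

theorem cl_twelve {S : Set ℂ} {x : ℂ} {k j : ℕ} : Cl S x a k (j + 12) ↔ Cl S x a k j := by
  by_cases hk : k = 0
  · subst hk
    rw [cl_zero, cl_zero, ra_twelve A, show j + 12 + 1 = j + 1 + 12 by ring, ra_twelve A]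
    constructor
    · rintro ⟨θ, h1, h2⟩
      refine ⟨θ - 6, ⟨by linarith [h1.1], by linarith [h1.2]⟩, ?_⟩
      rw [← ds_six, sub_add_cancel]; exact h2
    · rintro ⟨θ, h1, h2⟩
      exact ⟨θ + 6, ⟨by linarith [h1.1], by linarith [h1.2]⟩, ds_six.2 h2⟩
  · rw [cl_pos hk, cl_pos hk, ra_twelve A, dir_twelve A]
    exact freq_six (P := fun r w => (0 < r ∧ w ∈ S) ∧ Zn x (dir (a j)) k w)

theorem cl_mod {S : Set ℂ} {x : ℂ} {k j : ℕ} : Cl S x a k (j % 12) ↔ Cl S x a k j := by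
  have h : ∀ q, Cl S x a k (j % 12 + 12 * q) ↔ Cl S x a k (j % 12) := by
    intro q
    induction q with
    | zero => simp
    | succ q ih => rw [← ih, show j % 12 + 12 * (q + 1) = j % 12 + 12 * q + 12 by ring, cl_twelve A]
  have := h (j / 12)
  rw [Nat.mod_add_div] at this
  exact this.symm

end

/-! ### the local inverse of the polar coordinates -/

theorem norm_cis' (t : ℝ) : ‖cis t‖ = 1 := norm_cis _

/-- points near `po x p`, `0 < p.1`, have polar coordinates near `p` -/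
theorem freq_lift {x : ℂ} {p : ℝ × ℝ} (hp : 0 < p.1) {P : ℂ → Prop} (h : ∃ᶠ w in 𝓝 (po x p), P w) :
    ∃ᶠ p' in 𝓝 p, P (po x p') := by
  have hpi := Real.pi_pos
  set φ := p.2 * (Real.pi / 3) with hφ
  have hc : cis φ ≠ 0 := fun h0 => by
    have := norm_cis' φ
    rw [h0, norm_zero] at this
    exact zero_ne_one this
  let g : ℂ → ℝ × ℝ := fun w => (‖w - x‖, p.2 + Complex.arg ((w - x) / cis φ) * (3 / Real.pi))
  have hw0 : (po x p - x) / cis φ = (p.1 : ℂ) := by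
    show (x + p.1 * cis (p.2 * (Real.pi / 3)) - x) / cis φ = _
    rw [add_sub_cancel_left, ← hφ, mul_div_assoc, div_self hc, mul_one]
  have hg0 : g (po x p) = p := by
    show (‖po x p - x‖, p.2 + Complex.arg ((po x p - x) / cis φ) * (3 / Real.pi)) = p
    have h1 : ‖po x p - x‖ = p.1 := by
      have : po x p - x = (p.1 : ℂ) * cis φ := by
        rw [← hw0]; field_simp
      rw [this, norm_mul, norm_cis', mul_one, Complex.norm_real, Real.norm_of_nonneg hp.le]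
    rw [h1, hw0, Complex.arg_ofReal_of_nonneg hp.le, zero_mul, add_zero]
  have hgc : ContinuousAt g (po x p) := by
    refine ContinuousAt.prodMk (by fun_prop) ?_
    refine continuousAt_const.add (ContinuousAt.mul ?_ continuousAt_const)
    refine ContinuousAt.comp (g := Complex.arg) (f := fun w => (w - x) / cis φ) ?_ (by fun_prop)
    rw [hw0]
    refine Complex.continuousAt_arg ?_
    left
    rw [Complex.ofReal_re]; exact hp
  have hgp : ∀ w, po x (g w) = w := by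
    intro w
    show x + (‖w - x‖ : ℂ) * cis ((p.2 + Complex.arg ((w - x) / cis φ) * (3 / Real.pi)) * (Real.pi / 3)) = w
    have e : (p.2 + Complex.arg ((w - x) / cis φ) * (3 / Real.pi)) * (Real.pi / 3) =
        φ + Complex.arg ((w - x) / cis φ) := by
      rw [hφ]; field_simp
    rw [e, Six.cis_add]
    have h1 : (‖(w - x) / cis φ‖ : ℂ) * cis (Complex.arg ((w - x) / cis φ)) = (w - x) / cis φ := by
      have := Complex.norm_mul_exp_arg_mul_I ((w - x) / cis φ)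
      rw [← this]
      congr 1
      · rw [this]
      · rw [this]
        apply Complex.ext
        · rw [cis_re, Complex.exp_ofReal_mul_I_re]
        · rw [cis_im, Complex.exp_ofReal_mul_I_im]
    rw [norm_div, norm_cis', div_one] at h1
    have : (‖w - x‖ : ℂ) * (cis φ * cis (Complex.arg ((w - x) / cis φ))) = w - x := by
      calc (‖w - x‖ : ℂ) * (cis φ * cis (Complex.arg ((w - x) / cis φ)))
          = cis φ * ((‖w - x‖ : ℂ) * cis (Complex.arg ((w - x) / cis φ))) := by ring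
        _ = cis φ * ((w - x) / cis φ) := by rw [h1]
        _ = w - x := by field_simp
    rw [this]; ring
  have ht : Tendsto g (𝓝 (po x p)) (𝓝 p) := by
    have := hgc.tendsto
    rwa [hg0] at this
  refine ht.frequently (h.mono fun w hw => ?_)
  rw [hgp]; exact hw

/-- some colour is pure near a point of an open set of polar coordinates -/
theorem exists_pure (h : Irr U T) {x : ℂ} {θ : ℝ} {Z : Set (ℝ × ℝ)} (hZ : IsOpen Z)
    (hc : ∃ᶠ p in 𝓝 ((0 : ℝ), θ), p ∈ Z ∧ 0 < p.1) :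
    ∃ q, ∃ᶠ p in 𝓝 ((0 : ℝ), θ), p ∈ PS (Sq T q) x ∧ p ∈ Z := by
  by_contra hcon
  push Not at hcon
  have h1 : ∀ᶠ p in 𝓝 ((0 : ℝ), θ), ∀ q, ¬ (p ∈ PS (Sq T q) x ∧ p ∈ Z) := by
    rw [eventually_all]
    intro q
    exact (hcon q).mono fun p hp h1 => hp h1.1 h1.2
  obtain ⟨p, ⟨hpZ, hp0⟩, hp⟩ := (hc.and_eventually (eventually_eventually_nhds.2 h1)).exists
  obtain ⟨i, hi⟩ := h.ne (po x p)
  have h2 := freq_lift (P := fun w => T w = {i}) hp0 (h.pure _ i hi)
  have h3 : ∀ᶠ p' in 𝓝 p, p' ∈ Z ∧ 0 < p'.1 :=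
    Filter.Eventually.and (hZ.mem_nhds hpZ) (continuous_fst.continuousAt.eventually_const_lt hp0)
  obtain ⟨p', h4, h5, h6⟩ := (h2.and_eventually (h3.and hp)).exists
  exact h6 i ⟨⟨h5.2, h4⟩, h5.1⟩

end Vale.Agent.P032.H357
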