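import Vale.Agent.P032.H357.Cell

/-!
# P032: rules for the cells

* `cell` : every cell has a pure colour,
* `exists_cell` : a set which accumulates at `x` has a cell,
* `in_cl` : cells inside a unit circle through `x`; `ou_of_in`, `ou_of_two`, `ou_of_two'` : outside,
* `link_in`, `link_out` : pairs of points at distance one,
* `hull` : the directions of a colour are in a closed half plane.
-/

open Set Filter Topology Metric

noncomputable section

namespace Vale.Agent.P032.H357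

open Vale.Agent.P032.Six Vale.Agent.P032.H892 Vale.Agent.P032.H913 Vale.Agent.P032.S5.H767

variable {U : Fin 6 → Set ℂ} {T : ℂ → Set (Fin 6)}

/-! ### every cell has a colour -/

theorem zn_one {x u w : ℂ} : Zn x u 1 w ↔ dist w (x + u) < 1 := by simp [Zn]
theorem zn_three {x u w : ℂ} : Zn x u 3 w ↔ dist w (x - u) < 1 := by simp [Zn]
theorem zn_two {x u w : ℂ} : Zn x u 2 w ↔ 1 ≤ dist w (x + u) ∧ 1 ≤ dist w (x - u) := by simp [Zn]

theorem freq_curve {θ : ℝ} {Z : Set (ℝ × ℝ)} {γ : ℝ → ℝ × ℝ} (ht : Tendsto γ (𝓝[>] 0) (𝓝 ((0 : ℝ), θ)))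
    (h : ∀ᶠ r in 𝓝[>] (0 : ℝ), γ r ∈ Z ∧ 0 < (γ r).1) : ∃ᶠ p in 𝓝 ((0 : ℝ), θ), p ∈ Z ∧ 0 < p.1 :=
  ht.frequently h.frequently

theorem sub_dir (x : ℂ) (u : ℝ) : x - dir u = pt x (u + 3) := by
  rw [pt_eq, dir_add_three]; ring

theorem add_dir (x : ℂ) (u : ℝ) : x + dir u = pt x u := rfl

theorem lt_one_of_sq {d : ℝ} (hd : 0 ≤ d) (h : d ^ 2 < 1) : d < 1 := by nlinarith

theorem one_lt_of_sq {d : ℝ} (hd : 0 ≤ d) (h : 1 < d ^ 2) : 1 < d := by nlinarith

theorem cell (h : Irr U T) (x : ℂ) {a : ℕ → ℝ} (A : Tick 2 a) (k j : ℕ) (hk : k ≤ 3) :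
    ∃ q, Cl (Sq T q) x a k j := by
  have hpi := Real.pi_pos
  have hlt : ra a j < ra a (j + 1) := ra_lt A (Nat.lt_succ_self j)
  by_cases hk0 : k = 0
  · subst hk0
    set θ := (ra a j + ra a (j + 1)) / 2 with hθ
    obtain ⟨q, hq⟩ := exists_pure h (x := x) (θ := θ) (Z := univ) isOpen_univ
      (freq_curve (γ := fun r => (r, θ)) (((by fun_prop : Continuous fun r : ℝ => (r, θ)).tendsto 0).mono_left
        nhdsWithin_le_nhds) (by
          filter_upwards [self_mem_nhdsWithin] with r hr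
          exact ⟨trivial, hr⟩))
    refine ⟨q, cl_zero.2 ⟨θ, ⟨by linarith, by linarith⟩, hq.mono fun p hp => hp.1⟩⟩
  by_cases hk2 : k = 2
  · subst hk2
    obtain ⟨q, hq⟩ := exists_pure h (x := x) (θ := ra a j)
      (Z := {p | 1 < dist (po x p) (x + dir (a j)) ∧ 1 < dist (po x p) (x - dir (a j))})
      ((isOpen_lt continuous_const ((continuous_po x).dist continuous_const)).inter
        (isOpen_lt continuous_const ((continuous_po x).dist continuous_const)))
      (freq_curve (γ := fun r => (r, ra a j)) (((by fun_prop : Continuous fun r : ℝ => (r, ra a j)).tendsto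
        0).mono_left nhdsWithin_le_nhds) (by
          filter_upwards [self_mem_nhdsWithin] with r hr
          have hr : 0 < r := hr
          refine ⟨⟨?_, ?_⟩, hr⟩
          · rw [add_dir]
            have h1 := sq_dist_po x r (ra a j) (a j)
            have e : (ra a j - a j) * (Real.pi / 3) = Real.pi / 2 := by unfold ra; ring
            rw [e, Real.cos_pi_div_two] at h1
            refine one_lt_of_sq dist_nonneg ?_
            rw [h1]; nlinarith
          · rw [sub_dir]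
            have h1 := sq_dist_po x r (ra a j) (a j + 3)
            have e : (ra a j - (a j + 3)) * (Real.pi / 3) = -(Real.pi / 2) := by unfold ra; ring
            rw [e, Real.cos_neg, Real.cos_pi_div_two] at h1
            refine one_lt_of_sq dist_nonneg ?_
            rw [h1]; nlinarith))
    refine ⟨q, (cl_pos (by norm_num)).2 (hq.mono fun p hp => ⟨hp.1, zn_two.2 ⟨hp.2.1.le, hp.2.2.le⟩⟩)⟩
  have hsin : ∀ᶠ δ in 𝓝[>] (0 : ℝ), 0 < Real.sin (δ * (Real.pi / 3)) := by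
    have h1 : ∀ᶠ δ in 𝓝[>] (0 : ℝ), δ < 1 := mem_nhdsWithin_of_mem_nhds (Iio_mem_nhds one_pos)
    filter_upwards [self_mem_nhdsWithin, h1] with δ hδ h1
    have hδ : 0 < δ := hδ
    refine Real.sin_pos_of_pos_of_lt_pi (by positivity) ?_
    nlinarith
  by_cases hk1 : k = 1
  · subst hk1
    obtain ⟨q, hq⟩ := exists_pure h (x := x) (θ := ra a j)
      (Z := {p | dist (po x p) (x + dir (a j)) < 1})
      (isOpen_lt ((continuous_po x).dist continuous_const) continuous_const)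
      (freq_curve (γ := fun δ => (Real.sin (δ * (Real.pi / 3)), ra a j - δ)) (by
          have := ((by fun_prop : Continuous fun δ : ℝ => (Real.sin (δ * (Real.pi / 3)), ra a j - δ)).tendsto 0)
          simp only [zero_mul, Real.sin_zero, sub_zero] at this
          exact this.mono_left nhdsWithin_le_nhds) (by
          filter_upwards [hsin] with δ hδ
          refine ⟨?_, hδ⟩
          show dist (po x (Real.sin (δ * (Real.pi / 3)), ra a j - δ)) (x + dir (a j)) < 1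
          rw [add_dir]
          have h1 := sq_dist_po x (Real.sin (δ * (Real.pi / 3))) (ra a j - δ) (a j)
          have e : (ra a j - δ - a j) * (Real.pi / 3) = Real.pi / 2 - δ * (Real.pi / 3) := by unfold ra; ring
          rw [e, Real.cos_pi_div_two_sub] at h1
          refine lt_one_of_sq dist_nonneg ?_
          rw [h1]; nlinarith))
    exact ⟨q, (cl_pos (by norm_num)).2 (hq.mono fun p hp => ⟨hp.1, zn_one.2 hp.2⟩)⟩
  · have hk3 : k = 3 := by omega
    subst hk3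
    obtain ⟨q, hq⟩ := exists_pure h (x := x) (θ := ra a j)
      (Z := {p | dist (po x p) (x - dir (a j)) < 1})
      (isOpen_lt ((continuous_po x).dist continuous_const) continuous_const)
      (freq_curve (γ := fun δ => (Real.sin (δ * (Real.pi / 3)), ra a j + δ)) (by
          have := ((by fun_prop : Continuous fun δ : ℝ => (Real.sin (δ * (Real.pi / 3)), ra a j + δ)).tendsto 0)
          simp only [zero_mul, Real.sin_zero, add_zero] at this
          exact this.mono_left nhdsWithin_le_nhds) (by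
          filter_upwards [hsin] with δ hδ
          refine ⟨?_, hδ⟩
          show dist (po x (Real.sin (δ * (Real.pi / 3)), ra a j + δ)) (x - dir (a j)) < 1
          rw [sub_dir]
          have h1 := sq_dist_po x (Real.sin (δ * (Real.pi / 3))) (ra a j + δ) (a j + 3)
          have e : (ra a j + δ - (a j + 3)) * (Real.pi / 3) = -(Real.pi / 2 - δ * (Real.pi / 3)) := by
            unfold ra; ring
          rw [e, Real.cos_neg, Real.cos_pi_div_two_sub] at h1
          refine lt_one_of_sq dist_nonneg ?_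
          rw [h1]; nlinarith))
    exact ⟨q, (cl_pos (by norm_num)).2 (hq.mono fun p hp => ⟨hp.1, zn_three.2 hp.2⟩)⟩

/-! ### accumulation gives a cell -/

/-- a set which accumulates at `x` has a limit direction in a given period -/
theorem exists_dir {S : Set ℂ} {x : ℂ} (h : ∃ᶠ w in 𝓝 x, w ∈ S ∧ w ≠ x) (b : ℝ) :
    ∃ θ ∈ Ico b (b + 6), θ ∈ DS S x := by
  have key : ∃ θ, θ ∈ DS S x := by
    by_contra hcon
    push Not at hcon
    have h1 : ∀ θ ∈ Icc (0 : ℝ) 6, ∀ᶠ p : ℝ × ℝ in 𝓝 ((0 : ℝ), θ), ¬ (0 < p.1 ∧ po x (p.1, p.2) ∈ S) := by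
      intro θ _
      exact not_frequently.1 (hcon θ)
    have h2 : ∀ᶠ r : ℝ in 𝓝 0, ∀ θ ∈ Icc (0 : ℝ) 6, ¬ (0 < r ∧ po x (r, θ) ∈ S) :=
      isCompact_Icc.eventually_forall_of_forall_eventually
        (P := fun r θ => ¬ (0 < r ∧ po x (r, θ) ∈ S)) h1
    have h3 : Tendsto (fun w : ℂ => dist w x) (𝓝 x) (𝓝 0) := by
      have := (continuous_id.dist continuous_const : Continuous fun w : ℂ => dist w x).tendsto x
      simpa using this
    obtain ⟨w, hw, hw2⟩ := (h.and_eventually (h3.eventually h2)).exists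
    obtain ⟨θ, hθ, e⟩ := exists_po hw.2
    refine hw2 θ hθ ⟨dist_pos.2 hw.2, ?_⟩
    rw [← e]; exact hw.1
  obtain ⟨θ, hθ⟩ := key
  set n := ⌊(θ - b) / 6⌋ with hn
  have h1 := Int.floor_le ((θ - b) / 6)
  have h2 := Int.lt_floor_add_one ((θ - b) / 6)
  rw [← hn] at h1 h2
  refine ⟨θ + 6 * ((-n : ℤ) : ℝ), ⟨?_, ?_⟩, (ds_six_int _).2 hθ⟩
  · push_cast; linarith
  · push_cast; linarith

theorem exists_tick {a : ℕ → ℝ} (A : Tick 2 a) {s : ℕ} {θ : ℝ} (h : θ ∈ Ico (ra a s) (ra a s + 6)) :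
    ∃ j, s ≤ j ∧ j < s + 12 ∧ (θ = ra a j ∨ θ ∈ Ioo (ra a j) (ra a (j + 1))) := by
  have key : ∀ n : ℕ, ra a s ≤ θ → θ < ra a (s + n) →
      ∃ j, s ≤ j ∧ j < s + n ∧ (θ = ra a j ∨ θ ∈ Ioo (ra a j) (ra a (j + 1))) := by
    intro n
    induction n with
    | zero => intro h1 h2; exact absurd h2 (not_lt.2 h1)
    | succ n ih =>
      intro h1 h2
      rcases lt_or_ge θ (ra a (s + n)) with h3 | h3
      · obtain ⟨j, h4, h5, h6⟩ := ih h1 h3
        exact ⟨j, h4, by omega, h6⟩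
      · refine ⟨s + n, by omega, by omega, ?_⟩
        rcases h3.eq_or_lt with h4 | h4
        · exact Or.inl h4.symm
        · exact Or.inr ⟨h4, h2⟩
  exact key 12 h.1 (by rw [ra_twelve A]; exact h.2)

/-- **a set which accumulates at `x` has a cell** -/
theorem exists_cell {S : Set ℂ} {x : ℂ} {a : ℕ → ℝ} (A : Tick 2 a) (h : ∃ᶠ w in 𝓝 x, w ∈ S ∧ w ≠ x) (s : ℕ) :
    ∃ k j, k ≤ 3 ∧ s ≤ j ∧ j < s + 12 ∧ Cl S x a k j := by
  obtain ⟨θ, hθ, hd⟩ := exists_dir h (ra a s)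
  obtain ⟨j, h1, h2, h3 | h3⟩ := exists_tick A hθ
  · rw [h3] at hd
    obtain ⟨k, h4, h5, h6⟩ := exists_zone hd
    exact ⟨k, j, h5, h1, h2, h6⟩
  · exact ⟨0, j, by norm_num, h1, h2, cl_zero.2 ⟨θ, h3, hd⟩⟩

theorem cl_freq {S : Set ℂ} {x : ℂ} {a : ℕ → ℝ} {k j : ℕ} (h : Cl S x a k j) : ∃ᶠ w in 𝓝 x, w ∈ S := by
  by_cases hk : k = 0
  · subst hk
    obtain ⟨θ, -, h2⟩ := cl_zero.1 h
    exact freq_po (P := fun w => w ∈ S) (h2.mono fun p hp => hp.2)
  · exact freq_po (P := fun w => w ∈ S) (((cl_pos hk).1 h).mono fun p hp => hp.1.2)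

theorem cl_mono {S S' : Set ℂ} (hS : S ⊆ S') {x : ℂ} {a : ℕ → ℝ} {k j : ℕ} (h : Cl S x a k j) :
    Cl S' x a k j := by
  by_cases hk : k = 0
  · subst hk
    obtain ⟨θ, h1, h2⟩ := cl_zero.1 h
    exact cl_zero.2 ⟨θ, h1, h2.mono fun p hp => ⟨hp.1, hS hp.2⟩⟩
  · exact (cl_pos hk).2 (((cl_pos hk).1 h).mono fun p hp => ⟨⟨hp.1.1, hS hp.1.2⟩, hp.2⟩)

/-- pure points are in the open set -/
theorem sq_sub (h : Irr U T) (q : Fin 6) : Sq T q ⊆ U q := fun w hw => h.mem_of_single (by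
  have : T w = {q} := hw
  rw [this])

/-- [VT] -/
theorem mem_of_cl (h : Irr U T) {x : ℂ} {a : ℕ → ℝ} {k j : ℕ} {q : Fin 6} (hc : Cl (Sq T q) x a k j) :
    q ∈ T x := by
  refine (h.closed q).mem_of_frequently_of_tendsto ((cl_freq hc).mono fun w hw => ?_) tendsto_id
  have hw : T w = {q} := hw
  show q ∈ T w
  rw [hw]; rfl

/-- [PV -> P] -/
theorem pal_of_cl {x : ℂ} {a : ℕ → ℝ} {k j : ℕ} {q : Fin 6} (hc : Cl (U q) x a k j) : q ∈ Pal U x :=
  mem_closure_iff_frequently.2 (cl_freq hc)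

/-- pure points accumulate at every point with the colour -/
theorem freq_pure (h : Irr U T) {x : ℂ} {q : Fin 6} (hq : q ∈ T x) : ∃ᶠ w in 𝓝 x, w ∈ Sq T q ∧ w ≠ x := by
  by_cases hx : T x = {q}
  · have h1 : ∀ᶠ w in 𝓝 x, w ∈ Sq T q := by
      filter_upwards [h.nhd x] with w hw
      rw [hx] at hw
      obtain ⟨i, hi⟩ := h.ne w
      have e : i = q := by simpa using hw hi
      subst e
      exact Subset.antisymm hw (singleton_subset_iff.2 hi)
    have h2 : ∃ᶠ w in 𝓝 x, w ≠ x := by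
      have : (𝓝[≠] x).NeBot := inferInstance
      exact (eventually_mem_nhdsWithin (s := {x}ᶜ) (a := x)).frequently.filter_mono nhdsWithin_le_nhds
    exact (h2.and_eventually h1).mono fun w hw => ⟨hw.2, hw.1⟩
  · refine (h.pure x q hq).mono fun w hw => ⟨hw, ?_⟩
    rintro rfl
    exact hx hw

/-- points of the open set accumulate at every point of the closure -/
theorem freq_open (h : Irr U T) {x : ℂ} {q : Fin 6} (hq : q ∈ Pal U x) : ∃ᶠ w in 𝓝 x, w ∈ U q ∧ w ≠ x := by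
  by_cases hx : x ∈ U q
  · have h1 : ∀ᶠ w in 𝓝 x, w ∈ U q := (h.mx.isOpen q).mem_nhds hx
    have h2 : ∃ᶠ w in 𝓝 x, w ≠ x := by
      have : (𝓝[≠] x).NeBot := inferInstance
      exact (eventually_mem_nhdsWithin (s := {x}ᶜ) (a := x)).frequently.filter_mono nhdsWithin_le_nhds
    exact (h2.and_eventually h1).mono fun w hw => ⟨hw.2, hw.1⟩
  · refine (mem_closure_iff_frequently.1 hq).mono fun w hw => ⟨hw, ?_⟩
    rintro rfl
    exact hx hw

/-! ### inside and outside -/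

/-- limit directions into the disc -/
theorem in_of_ds {S : Set ℂ} {x : ℂ} {θ u : ℝ} (h : θ ∈ DS S x)
    (hc : 0 < Real.cos ((θ - u) * (Real.pi / 3))) : In S x (x + dir u) := by
  refine freq_po (P := fun w => w ∈ S ∧ dist w (x + dir u) < 1) (θ := θ) ?_
  set C := Real.cos ((θ - u) * (Real.pi / 3)) with hC
  have h2 : ∀ᶠ p : ℝ × ℝ in 𝓝 ((0 : ℝ), θ), C / 2 < Real.cos ((p.2 - u) * (Real.pi / 3)) :=
    (cosc u).continuousAt.eventually_const_lt (by show C / 2 < C; linarith)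
  have h3 : ∀ᶠ p : ℝ × ℝ in 𝓝 ((0 : ℝ), θ), p.1 < C :=
    continuous_fst.continuousAt.eventually_lt_const hc
  refine ((show ∃ᶠ p in 𝓝 ((0 : ℝ), θ), p ∈ PS S x from h).and_eventually (h2.and h3)).mono fun p hp => ?_
  obtain ⟨hp, hp2, hp3⟩ := hp
  refine ⟨hp.2, ?_⟩
  rw [add_dir]
  refine lt_one_of_sq dist_nonneg ?_
  have h4 := sq_dist_po x p.1 p.2 u
  rw [show (p.1, p.2) = p from rfl] at h4
  have h6 := hp.1
  rw [h4]; nlinarith

theorem in_or_ou {S : Set ℂ} {x c : ℂ} (h : ∃ᶠ w in 𝓝 x, w ∈ S) : In S x c ∨ Ou S x c := by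
  rcases frequently_or_distrib.1 (h.mono fun w hw => (lt_or_ge (dist w c) 1).imp
    (fun h1 => (⟨hw, h1⟩ : w ∈ S ∧ dist w c < 1)) (fun h1 => (⟨hw, h1⟩ : w ∈ S ∧ 1 ≤ dist w c))) with h1 | h1
  · exact Or.inl h1
  · exact Or.inr h1

/-- cells inside the circle about `x + dir (a s)`: the sectors `s + 6, ..., s + 11` -/
theorem in_sector {S : Set ℂ} {x : ℂ} {a : ℕ → ℝ} (A : Tick 2 a) {s d : ℕ} (hd : d ≤ 5)
    (h : Cl S x a 0 (s + 6 + d)) : In S x (x + dir (a s)) := by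
  have hpi := Real.pi_pos
  obtain ⟨θ, hθ, h2⟩ := cl_zero.1 h
  have h3 : ra a (s + 6) ≤ ra a (s + 6 + d) := by
    rcases Nat.eq_zero_or_pos d with rfl | h0
    · exact le_rfl
    · exact (ra_lt A (by omega)).le
  have h4 : ra a (s + 6 + d + 1) ≤ ra a (s + 12) := by
    rcases (show s + 6 + d + 1 ≤ s + 12 by omega).eq_or_lt with h0 | h0
    · rw [h0]
    · exact (ra_lt A h0).le
  rw [ra_six A] at h3
  rw [ra_twelve A] at h4
  have h5 : ra a s = a s + 3 / 2 := rfl
  refine in_of_ds h2 ?_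
  have e : (θ - a s) * (Real.pi / 3) = (θ - a s - 6) * (Real.pi / 3) + 2 * Real.pi := by ring
  rw [e, Real.cos_add_two_pi]
  refine Real.cos_pos_of_mem_Ioo ⟨?_, ?_⟩
  · nlinarith [hθ.1]
  · nlinarith [hθ.2]

/-- the rays `s + 7, ..., s + 11` -/
theorem in_ray {S : Set ℂ} {x : ℂ} {a : ℕ → ℝ} (A : Tick 2 a) {s d k : ℕ} (hd : d ≤ 5) (hd1 : 1 ≤ d)
    (hk : k ≠ 0) (h : Cl S x a k (s + 6 + d)) : In S x (x + dir (a s)) := by
  have hpi := Real.pi_pos
  have h2 := cl_ray hk h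
  have h3 := ra_lt A (show s + 6 < s + 6 + d by omega)
  have h4 := ra_lt A (show s + 6 + d < s + 12 by omega)
  rw [ra_six A] at h3
  rw [ra_twelve A] at h4
  have h5 : ra a s = a s + 3 / 2 := rfl
  refine in_of_ds h2 ?_
  have e : (ra a (s + 6 + d) - a s) * (Real.pi / 3) = (ra a (s + 6 + d) - a s - 6) * (Real.pi / 3) +
      2 * Real.pi := by ring
  rw [e, Real.cos_add_two_pi]
  refine Real.cos_pos_of_mem_Ioo ⟨?_, ?_⟩
  · nlinarith
  · nlinarith

/-- zone 1 of the ray `s` -/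
theorem in_one {S : Set ℂ} {x : ℂ} {a : ℕ → ℝ} {s : ℕ} (h : Cl S x a 1 s) : In S x (x + dir (a s)) :=
  freq_po (P := fun w => w ∈ S ∧ dist w (x + dir (a s)) < 1)
    (((cl_pos one_ne_zero).1 h).mono fun _ hp => ⟨hp.1.2, zn_one.1 hp.2⟩)

/-- zone 3 of the ray `s + 6` -/
theorem in_three {S : Set ℂ} {x : ℂ} {a : ℕ → ℝ} (A : Tick 2 a) {s : ℕ} (h : Cl S x a 3 (s + 6)) :
    In S x (x + dir (a s)) := by
  refine freq_po (P := fun w => w ∈ S ∧ dist w (x + dir (a s)) < 1)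
    (((cl_pos (by norm_num)).1 h).mono fun p hp => ⟨hp.1.2, ?_⟩)
  have := zn_three.1 hp.2
  rwa [dir_six A, sub_neg_eq_add] at this

/-- inside the opposite circle is outside -/
theorem ou_of_in {S : Set ℂ} {x u : ℂ} (hu : ‖u‖ = 1) (h : In S x (x - u)) : Ou S x (x + u) := by
  refine h.mono fun w hw => ⟨hw.1, ?_⟩
  have h1 := dist_triangle (x + u) w (x - u)
  have h2 : dist (x + u) (x - u) = 2 := by
    rw [dist_eq_norm]
    have : x + u - (x - u) = 2 * u := by ring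
    rw [this, norm_mul, hu]; norm_num
  rw [h2, dist_comm (x + u) w] at h1
  linarith [hw.2]

/-- zone 2 of the ray `s` -/
theorem ou_two {S : Set ℂ} {x : ℂ} {a : ℕ → ℝ} {s : ℕ} (h : Cl S x a 2 s) :
    Ou S x (x + dir (a s)) ∧ Ou S x (x - dir (a s)) := by
  have h1 := (cl_pos (by norm_num)).1 h
  exact ⟨freq_po (P := fun w => w ∈ S ∧ 1 ≤ dist w (x + dir (a s)))
      (h1.mono fun _ hp => ⟨hp.1.2, (zn_two.1 hp.2).1⟩),
    freq_po (P := fun w => w ∈ S ∧ 1 ≤ dist w (x - dir (a s)))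
      (h1.mono fun _ hp => ⟨hp.1.2, (zn_two.1 hp.2).2⟩)⟩

/-- zone 2 of the ray `s + 6` -/
theorem ou_two_six {S : Set ℂ} {x : ℂ} {a : ℕ → ℝ} (A : Tick 2 a) {s : ℕ} (h : Cl S x a 2 (s + 6)) :
    Ou S x (x + dir (a s)) ∧ Ou S x (x - dir (a s)) := by
  have h1 := ou_two h
  rw [dir_six A, sub_neg_eq_add, ← sub_eq_add_neg] at h1
  exact ⟨h1.2, h1.1⟩

/-! ### pairs at distance one -/

/-- pure points at `x` inside `S(y)` exclude points of the open set at `y` outside `S(x)` -/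
theorem link_in (h : Irr U T) {x y : ℂ} {q : Fin 6} (hct : Ctn U T x)
    (h1 : In (Sq T q) x y) (h2 : Ou (U q) y x) : False := by
  obtain ⟨w, ⟨hw, hwy⟩, hw2⟩ := (h1.and_eventually hct).exists
  have hq : q ∈ T w := by
    have : T w = {q} := hw
    rw [this]; rfl
  obtain ⟨Q, hQF, hQ, hx, hwQ⟩ := hw2 q hq
  have hev : ∀ᶠ y' in 𝓝 y, dist w y' < 1 :=
    (continuous_const.dist continuous_id).continuousAt.eventually_lt_const hwy
  obtain ⟨y', ⟨hy', hyx⟩, hwy'⟩ := (h2.and_eventually hev).exists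
  have hne : dist y' x ≠ 1 := h.mx.free q y' hy' x (hQF hx)
  have hgt : 1 < dist x y' := by rw [dist_comm]; exact lt_of_le_of_ne hyx (Ne.symm hne)
  exact h.mx.wlemma hQ hQF hwQ hx hwy' hgt (subset_closure hy')

/-- pure points at `x` outside `S(y)` exclude points of the open set at `y` inside `S(x)` -/
theorem link_out (h : Irr U T) {x y : ℂ} {q : Fin 6} (hct : Ctn U T x)
    (h1 : Ou (Sq T q) x y) (h2 : In (U q) y x) : False := by
  obtain ⟨w, ⟨hw, hwy⟩, hw2⟩ := (h1.and_eventually hct).exists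
  have hT : T w = {q} := hw
  have hq : q ∈ T w := by rw [hT]; rfl
  have hy : y ∈ closure (U q) := mem_closure_iff_frequently.2 (h2.mono fun _ hp => hp.1)
  have hne : dist w y ≠ 1 := h.mx.free q w (sq_sub h q hw) y hy
  have hgt : 1 < dist w y := lt_of_le_of_ne hwy (Ne.symm hne)
  obtain ⟨Q, hQF, hQ, hx, hwQ⟩ := hw2 q hq
  have hev : ∀ᶠ y' in 𝓝 y, 1 < dist w y' :=
    (continuous_const.dist continuous_id).continuousAt.eventually_const_lt hgt
  obtain ⟨y', ⟨hy', hyx⟩, hwy'⟩ := (h2.and_eventually hev).exists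
  exact h.mx.wlemma hQ hQF hx hwQ (by rw [dist_comm]; exact hyx) hwy' (subset_closure hy')

/-! ### the closed half plane -/

/-- the directions of a colour at a point of `XX` are in a closed half plane -/
theorem exists_half (h : Irr U T) {x : ℂ} (hx : x ∈ XX U) (hct : Ctn U T x) {q : Fin 6} (hq : q ∈ T x) :
    ∃ φ : ℝ, ∀ θ ∈ DS (Sq T q) x, 0 ≤ Real.cos ((θ - φ) * (Real.pi / 3)) := by
  have hpi := Real.pi_pos
  obtain ⟨V, hxV, hV⟩ : ∃ V, dist x V = 1 ∧ q ∈ Pal U V := by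
    first
      | exact h.partner_XX hx q
      | exact h.partner_XX hx hq
  have hn : ‖V - x‖ = 1 := by rw [← dist_eq_norm, dist_comm]; exact hxV
  obtain ⟨α, hα⟩ := exists_cis hn
  set φ := α * (3 / Real.pi) with hφ
  have e1 : V = x + dir φ := by
    unfold dir
    have : φ * (Real.pi / 3) = α := by rw [hφ]; field_simp
    rw [this, ← hα]; ring
  have e2 : x + dir (φ + 3) = x - dir φ := by rw [dir_add_three]; ring
  rcases h.one_side hct hV with h1 | h1
  · refine ⟨φ, fun θ hθ => ?_⟩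
    by_contra hcon
    push Not at hcon
    have h2 : 0 < Real.cos ((θ - (φ + 3)) * (Real.pi / 3)) := by
      have : (θ - (φ + 3)) * (Real.pi / 3) = (θ - φ) * (Real.pi / 3) - Real.pi := by ring
      rw [this, Real.cos_sub_pi]; linarith
    have h3 := in_of_ds hθ h2
    rw [e2] at h3
    have h4 : ∃ᶠ w in 𝓝 x, w ∈ Sq T q ∧ 1 < dist w V := by
      refine h3.mono fun w hw => ⟨hw.1, ?_⟩
      rw [e1]
      have h5 := dist_triangle (x + dir φ) w (x - dir φ)
      have h6 : dist (x + dir φ) (x - dir φ) = 2 := by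
        rw [dist_eq_norm]
        have : x + dir φ - (x - dir φ) = 2 * dir φ := by ring
        rw [this, norm_mul, norm_dir]; norm_num
      rw [h6, dist_comm (x + dir φ) w] at h5
      linarith [hw.2]
    obtain ⟨w, hw, hw2⟩ := (h4.and_eventually h1).exists
    have hT : T w = {q} := hw.1
    have := hw2 (by rw [hT]; rfl)
    linarith [hw.2]
  · refine ⟨φ + 3, fun θ hθ => ?_⟩
    by_contra hcon
    push Not at hcon
    have h2 : 0 < Real.cos ((θ - φ) * (Real.pi / 3)) := by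
      have : (θ - (φ + 3)) * (Real.pi / 3) = (θ - φ) * (Real.pi / 3) - Real.pi := by ring
      rw [this, Real.cos_sub_pi] at hcon; linarith
    have h3 := in_of_ds hθ h2
    rw [← e1] at h3
    obtain ⟨w, hw, hw2⟩ := (h3.and_eventually h1).exists
    have hT : T w = {q} := hw.1
    have := hw2 (by rw [hT]; rfl)
    linarith [hw.2]

theorem cos_neg_of {x : ℝ} (h1 : 3 / 2 < x) (h2 : x < 9 / 2) : Real.cos (x * (Real.pi / 3)) < 0 := by
  have hpi := Real.pi_pos
  refine Real.cos_neg_of_pi_div_two_lt_of_lt (by nlinarith) (by nlinarith)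

/-- **[hull]**: for some `s` either the sectors `s, ..., s + 5` and the rays `s + 1, ..., s + 5` are free of `q`, or
the sectors `s + 1, ..., s + 5` and the rays `s + 1, ..., s + 6` are free of `q` -/
theorem hull (h : Irr U T) {x : ℂ} (hx : x ∈ XX U) (hct : Ctn U T x) {q : Fin 6} (hq : q ∈ T x)
    {a : ℕ → ℝ} (A : Tick 2 a) : ∃ s < 12,
      ((∀ d ≤ 5, ¬ Cl (Sq T q) x a 0 (s + d)) ∧ ∀ d, 1 ≤ d → d ≤ 5 → ∀ k, k ≠ 0 → ¬ Cl (Sq T q) x a k (s + d)) ∨
      ((∀ d, 1 ≤ d → d ≤ 5 → ¬ Cl (Sq T q) x a 0 (s + d)) ∧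
        ∀ d, 1 ≤ d → d ≤ 6 → ∀ k, k ≠ 0 → ¬ Cl (Sq T q) x a k (s + d)) := by
  obtain ⟨φ, hφ⟩ := exists_half h hx hct hq
  -- the start of the forbidden open half plane in the period of the ray 0
  set n := ⌊(φ + 3 / 2 - ra a 0) / 6⌋ with hn
  have h1 := Int.floor_le ((φ + 3 / 2 - ra a 0) / 6)
  have h2 := Int.lt_floor_add_one ((φ + 3 / 2 - ra a 0) / 6)
  rw [← hn] at h1 h2
  set ψ := φ + 3 / 2 - 6 * n with hψ
  have hψm : ψ ∈ Ico (ra a 0) (ra a 0 + 6) := ⟨by linarith, by linarith⟩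
  have key : ∀ θ ∈ Ioo ψ (ψ + 3), θ ∉ DS (Sq T q) x := by
    intro θ hθ hd
    have h3 := (ds_six_int (S := Sq T q) (x := x) (θ := θ) n).2 hd
    have h4 := hφ _ h3
    have h5 : Real.cos ((θ + 6 * n - φ) * (Real.pi / 3)) < 0 := by
      refine cos_neg_of ?_ ?_
      · have := hθ.1; linarith
      · have := hθ.2; linarith
    linarith
  obtain ⟨s, -, hs, h3⟩ := exists_tick A hψm
  have hmono : ∀ {i j : ℕ}, i ≤ j → ra a i ≤ ra a j := by
    intro i j hij
    rcases hij.eq_or_lt with rfl | h0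
    · exact le_rfl
    · exact (ra_lt A h0).le
  refine ⟨s, by omega, ?_⟩
  rcases h3 with h3 | h3
  · left
    refine ⟨fun d hd hc => ?_, fun d hd1 hd hk hk0 hc => ?_⟩
    · obtain ⟨θ, hθ, hd2⟩ := cl_zero.1 hc
      refine key θ ⟨?_, ?_⟩ hd2
      · have := hmono (show s ≤ s + d by omega); have := hθ.1; linarith
      · have := hmono (show s + d + 1 ≤ s + 6 by omega); rw [ra_six A] at this; have := hθ.2; linarith
    · refine key _ ⟨?_, ?_⟩ (cl_ray hk0 hc)
      · have := ra_lt A (show s < s + d by omega); linarith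
      · have := ra_lt A (show s + d < s + 6 by omega); rw [ra_six A] at this; linarith
  · right
    refine ⟨fun d hd1 hd hc => ?_, fun d hd1 hd hk hk0 hc => ?_⟩
    · obtain ⟨θ, hθ, hd2⟩ := cl_zero.1 hc
      refine key θ ⟨?_, ?_⟩ hd2
      · have := hmono (show s + 1 ≤ s + d by omega); have := hθ.1; linarith [h3.2]
      · have := hmono (show s + d + 1 ≤ s + 6 by omega); rw [ra_six A] at this; have := hθ.2; linarith [h3.1]
    · refine key _ ⟨?_, ?_⟩ (cl_ray hk0 hc)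
      · have := hmono (show s + 1 ≤ s + d by omega); linarith [h3.2]
      · have := hmono (show s + d ≤ s + 6 by omega); rw [ra_six A] at this; linarith [h3.1]

/-! ### bits -/

/-- the limit directions of the pure points are those of the colour -/
theorem ds_eq_dr (h : Irr U T) (x : ℂ) (q : Fin 6) : DS (Sq T q) x = Dr T x q := by
  ext θ
  rw [mem_dr]
  constructor
  · intro h1
    refine Frequently.mono h1 fun p hp => ⟨hp.1, ?_⟩
    have : T (po x p) = {q} := hp.2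
    rw [this]; rfl
  · intro h1 hcon
    obtain ⟨p, hp, h2⟩ := (h1.and_eventually (eventually_eventually_nhds.2 hcon)).exists
    have h3 := freq_lift (P := fun w => T w = {q}) hp.1 (h.pure _ q hp.2)
    have h4 : ∀ᶠ p' in 𝓝 p, 0 < p'.1 := continuous_fst.continuousAt.eventually_const_lt hp.1
    obtain ⟨p', h5, h6, h7⟩ := (h3.and_eventually (h4.and h2)).exists
    exact h7 ⟨h6, h5⟩

/-- sectors and limit directions -/
theorem cl_zero_dr (h : Irr U T) {x : ℂ} {q : Fin 6} {a : ℕ → ℝ} {j : ℕ} :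
    Cl (Sq T q) x a 0 j ↔ ∃ θ ∈ Ioo (ra a j) (ra a (j + 1)), θ ∈ Dr T x q := by
  rw [cl_zero, ds_eq_dr h]

/-- rays and limit directions -/
theorem ray_dr (h : Irr U T) {x : ℂ} {q : Fin 6} {a : ℕ → ℝ} {j : ℕ} :
    ra a j ∈ Dr T x q ↔ ∃ k, 1 ≤ k ∧ k ≤ 3 ∧ Cl (Sq T q) x a k j := by
  rw [← ds_eq_dr h, ds_iff_cl]

end Vale.Agent.P032.H357
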