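import Vale.Agent.P032.H357.Cell2

/-!
# P032: the rules for cells in index form

Indices of ticks and rays modulo 12.  `HI S p a s` : points of `S` accumulate at `p` inside `S(p + dir (a s))`.
-/

open Set Filter Topology Metric

noncomputable section

namespace Vale.Agent.P032.H357

open Vale.Agent.P032.Six Vale.Agent.P032.H892 Vale.Agent.P032.H913 Vale.Agent.P032.S5.H767

variable {U : Fin 6 → Set ℂ} {T : ℂ → Set (Fin 6)}

/-- points of `S` accumulate at `p` inside `S(p + dir (a s))` -/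
def HI (S : Set ℂ) (p : ℂ) (a : ℕ → ℝ) (s : ℕ) : Prop := In S p (p + dir (a s))

theorem in_mono {S S' : Set ℂ} (hS : S ⊆ S') {x c : ℂ} (h : In S x c) : In S' x c :=
  h.mono fun _ hw => ⟨hS hw.1, hw.2⟩

theorem ou_mono {S S' : Set ℂ} (hS : S ⊆ S') {x c : ℂ} (h : Ou S x c) : Ou S' x c :=
  h.mono fun _ hw => ⟨hS hw.1, hw.2⟩

section
variable {a : ℕ → ℝ} (A : Tick 2 a) {S : Set ℂ} {p : ℂ}
include A

theorem dir_mod (t : ℕ) : dir (a (t % 12)) = dir (a t) := A.dir_mod t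

theorem hi_mod {s : ℕ} : HI S p a (s % 12) ↔ HI S p a s := by unfold HI; rw [dir_mod A]

theorem hi_six {s : ℕ} : HI S p a (s + 6) ↔ In S p (p - dir (a s)) := by
  unfold HI; rw [dir_six A, ← sub_eq_add_neg]

/-! #### [H] -/

theorem hi_sector {s d : ℕ} (hd : d ≤ 5) (h : Cl S p a 0 ((s + 6 + d) % 12)) : HI S p a s :=
  in_sector A hd ((cl_mod A).1 h)

theorem hi_ray {s d k : ℕ} (hd1 : 1 ≤ d) (hd : d ≤ 5) (hk : k ≠ 0) (h : Cl S p a k ((s + 6 + d) % 12)) :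
    HI S p a s := in_ray A hd hd1 hk ((cl_mod A).1 h)

omit A in
theorem hi_one {s : ℕ} (h : Cl S p a 1 s) : HI S p a s := in_one h

theorem hi_three {s : ℕ} (h : Cl S p a 3 ((s + 6) % 12)) : HI S p a s := in_three A ((cl_mod A).1 h)

/-! #### [link] -/

section
variable {x y : ℂ} {s : ℕ} (h : Irr U T) (e : y = x + dir (a s)) {q : Fin 6}
include h e

omit h A in
theorem e_back : x = y - dir (a s) := by rw [e]; ring

omit h A in
theorem ou_back (h1 : HI S y a s) : Ou S y x := by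
  have := e_back e
  rw [this]
  have h2 : In S y (y - -dir (a s)) := by rw [sub_neg_eq_add]; exact h1
  have h3 := ou_of_in (by rw [norm_neg, norm_dir]) h2
  rwa [← sub_eq_add_neg] at h3

omit h in
theorem ou_six (h1 : HI S x a ((s + 6) % 12)) : Ou S x y := by
  rw [hi_mod A, hi_six A] at h1
  rw [e]
  exact ou_of_in (norm_dir _) h1

omit h in
theorem in_six (h1 : HI S y a ((s + 6) % 12)) : In S y x := by
  rw [hi_mod A, hi_six A] at h1
  rw [e_back e]; exact h1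

omit h A in
theorem in_fwd (h1 : HI S x a s) : In S x y := by rw [e]; exact h1

omit h A in
theorem ou2_y (h1 : Cl S y a 2 s) : Ou S y x := by rw [e_back e]; exact (ou_two h1).2

omit h in
theorem ou2_y6 (h1 : Cl S y a 2 ((s + 6) % 12)) : Ou S y x := by
  rw [e_back e]; exact (ou_two_six A ((cl_mod A).1 h1)).2

omit h A in
theorem ou2_x (h1 : Cl S x a 2 s) : Ou S x y := by rw [e]; exact (ou_two h1).1

omit h in
theorem ou2_x6 (h1 : Cl S x a 2 ((s + 6) % 12)) : Ou S x y := by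
  rw [e]; exact (ou_two_six A ((cl_mod A).1 h1)).1

/-! pure at `x`, open at `y` -/

omit A in
theorem link1 (hx : Ctn U T x) (h1 : HI (Sq T q) x a s) (h2 : HI (U q) y a s) : False :=
  link_in h hx (in_fwd e h1) (ou_back e h2)

theorem link2 (hx : Ctn U T x) (h1 : HI (Sq T q) x a ((s + 6) % 12)) (h2 : HI (U q) y a ((s + 6) % 12)) :
    False := link_out h hx (ou_six A e h1) (in_six A e h2)

omit A in
theorem link3 (hx : Ctn U T x) (h1 : HI (Sq T q) x a s) (h2 : Cl (U q) y a 2 s) : False :=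
  link_in h hx (in_fwd e h1) (ou2_y e h2)

theorem link4 (hx : Ctn U T x) (h1 : HI (Sq T q) x a s) (h2 : Cl (U q) y a 2 ((s + 6) % 12)) : False :=
  link_in h hx (in_fwd e h1) (ou2_y6 A e h2)

theorem link5 (hx : Ctn U T x) (h1 : Cl (Sq T q) x a 2 s) (h2 : HI (U q) y a ((s + 6) % 12)) : False :=
  link_out h hx (ou2_x e h1) (in_six A e h2)

theorem link6 (hx : Ctn U T x) (h1 : Cl (Sq T q) x a 2 ((s + 6) % 12)) (h2 : HI (U q) y a ((s + 6) % 12)) :
    False := link_out h hx (ou2_x6 A e h1) (in_six A e h2)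

/-! open at `x`, pure at `y` -/

omit A in
theorem link1' (hy : Ctn U T y) (h1 : HI (U q) x a s) (h2 : HI (Sq T q) y a s) : False :=
  link_out h hy (ou_back e h2) (in_fwd e h1)

theorem link2' (hy : Ctn U T y) (h1 : HI (U q) x a ((s + 6) % 12)) (h2 : HI (Sq T q) y a ((s + 6) % 12)) :
    False := link_in h hy (in_six A e h2) (ou_six A e h1)

omit A in
theorem link3' (hy : Ctn U T y) (h1 : HI (U q) x a s) (h2 : Cl (Sq T q) y a 2 s) : False :=
  link_out h hy (ou2_y e h2) (in_fwd e h1)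

theorem link4' (hy : Ctn U T y) (h1 : HI (U q) x a s) (h2 : Cl (Sq T q) y a 2 ((s + 6) % 12)) : False :=
  link_out h hy (ou2_y6 A e h2) (in_fwd e h1)

theorem link5' (hy : Ctn U T y) (h1 : Cl (U q) x a 2 s) (h2 : HI (Sq T q) y a ((s + 6) % 12)) : False :=
  link_in h hy (in_six A e h2) (ou2_x e h1)

theorem link6' (hy : Ctn U T y) (h1 : Cl (U q) x a 2 ((s + 6) % 12)) (h2 : HI (Sq T q) y a ((s + 6) % 12)) :
    False := link_in h hy (in_six A e h2) (ou2_x6 A e h1)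

end

/-! #### [cell], [TV], [P], [hull] -/

omit A in
theorem tv {x : ℂ} (A : Tick 2 a) (h : Irr U T) {q : Fin 6} (hq : q ∈ T x) :
    ∃ k ≤ 3, ∃ j < 12, Cl (Sq T q) x a k j := by
  obtain ⟨k, j, h1, -, h2, h3⟩ := exists_cell A (freq_pure h hq) 0
  exact ⟨k, h1, j, by omega, h3⟩

omit A in
theorem ppv {x : ℂ} (A : Tick 2 a) (h : Irr U T) {q : Fin 6} (hq : q ∈ Pal U x) :
    ∃ k ≤ 3, ∃ j < 12, Cl (U q) x a k j := by
  obtain ⟨k, j, h1, -, h2, h3⟩ := exists_cell A (freq_open h hq) 0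
  exact ⟨k, h1, j, by omega, h3⟩

omit A in
/-- [V -> PV] -/
theorem v_pv (h : Irr U T) {x : ℂ} {q : Fin 6} {k j : ℕ} (hc : Cl (Sq T q) x a k j) : Cl (U q) x a k j :=
  cl_mono (sq_sub h q) hc

/-- [hull], indices modulo 12 -/
theorem hull_mod (h : Irr U T) {x : ℂ} (hx : x ∈ XX U) (hct : Ctn U T x) {q : Fin 6} (hq : q ∈ T x) :
    ∃ s < 12,
      ((∀ d ≤ 5, ¬ Cl (Sq T q) x a 0 ((s + d) % 12)) ∧
        ∀ d, 1 ≤ d → d ≤ 5 → ∀ k, k ≠ 0 → ¬ Cl (Sq T q) x a k ((s + d) % 12)) ∨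
      ((∀ d, 1 ≤ d → d ≤ 5 → ¬ Cl (Sq T q) x a 0 ((s + d) % 12)) ∧
        ∀ d, 1 ≤ d → d ≤ 6 → ∀ k, k ≠ 0 → ¬ Cl (Sq T q) x a k ((s + d) % 12)) := by
  obtain ⟨s, hs, h1⟩ := hull h hx hct hq A
  refine ⟨s, hs, ?_⟩
  rcases h1 with ⟨h1, h2⟩ | ⟨h1, h2⟩
  · exact Or.inl ⟨fun d hd => by rw [cl_mod A]; exact h1 d hd,
      fun d hd1 hd k hk => by rw [cl_mod A]; exact h2 d hd1 hd k hk⟩
  · exact Or.inr ⟨fun d hd1 hd => by rw [cl_mod A]; exact h1 d hd1 hd,
      fun d hd1 hd k hk => by rw [cl_mod A]; exact h2 d hd1 hd k hk⟩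

end

/-- [XXp] -/
theorem xxp (h : Irr U T) {x y : ℂ} (hxy : dist x y = 1) {q : Fin 6} (hq : q ∈ T x) (hq' : q ∈ Pal U y) :
    x ∈ XX U := h.mem_XX hxy hq hq'

end Vale.Agent.P032.H357
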