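import Vale.Agent.P032.H61.Word
import Vale.Agent.P032.H357.CellK

/-!
# P032: pair rules in the frame `Irr U T`

`Ci U q x y` : a connected set in the closure of `U q` contains `x` and a point inside `S(y)`; `Co` : outside.

* `Ci.ou`, `Co.inn` : `U q` does not accumulate at `y` outside (inside) `S(x)` ; `Ci.co` : both: `q` is not in `Pal y`,
* `solid_curve`, `ci_sector`, `co_sector`, `ci_ray`, `co_ray`, `ci_one`, `ci_three`, `co_zone` : cells of one colour as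
  sources,
* `thin_left`, `thin_right` : the colours along the two branches of `S(y)` at `x` (`|x - y| = 1`).
-/

open Set Filter Topology Metric

noncomputable section

namespace Vale.Agent.P032.H357

open Vale.Agent.P032.Six Vale.Agent.P032.H892 Vale.Agent.P032.H913 Vale.Agent.P032.S5.H767

variable {U : Fin 6 → Set ℂ} {T : ℂ → Set (Fin 6)}

/-- source inside -/
def Ci (U : Fin 6 → Set ℂ) (q : Fin 6) (x y : ℂ) : Prop :=
  ∃ Q, IsPreconnected Q ∧ Q ⊆ closure (U q) ∧ x ∈ Q ∧ ∃ p ∈ Q, dist p y < 1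

/-- source outside -/
def Co (U : Fin 6 → Set ℂ) (q : Fin 6) (x y : ℂ) : Prop :=
  ∃ Q, IsPreconnected Q ∧ Q ⊆ closure (U q) ∧ x ∈ Q ∧ ∃ p ∈ Q, 1 < dist p y

/-- points of an open set outside the open disc: also outside the closed disc -/
theorem ou_strict' {S : Set ℂ} (hS : IsOpen S) {x c : ℂ} (h : Ou S x c) :
    ∃ᶠ w in 𝓝 x, w ∈ S ∧ 1 < dist w c := by
  rw [frequently_iff]
  intro N hN
  obtain ⟨O, hON, hO, hxO⟩ := _root_.mem_nhds_iff.1 hN
  obtain ⟨w, ⟨hwS, hwc⟩, hwO⟩ := (h.and_eventually (hO.mem_nhds hxO)).exists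
  rcases eq_or_lt_of_le hwc with h1 | h1
  · have h2 : ∃ᶠ y in 𝓝 w, 1 < dist y c := H61.freq_out h1.symm
    obtain ⟨y, h3, h4, h5⟩ := (h2.and_eventually (Filter.Eventually.and (hS.mem_nhds hwS)
      (hO.mem_nhds hwO))).exists
    exact ⟨y, hON h5, h4, h3⟩
  · exact ⟨w, hON hwO, hwS, h1⟩

/-- **[SRC], inside** -/
theorem Ci.ou (h : Irr U T) {q : Fin 6} {x y : ℂ} (c : Ci U q x y) : ¬ Ou (U q) y x := by
  intro h1
  obtain ⟨Q, hQ, hQF, hx, p, hp, hpy⟩ := c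
  have h2 : ∀ᶠ w in 𝓝 y, dist p w < 1 :=
    (continuous_const.dist continuous_id).continuousAt.eventually_lt_const hpy
  obtain ⟨w, ⟨hw, h3⟩, h4⟩ := ((ou_strict' (h.mx.isOpen q) h1).and_eventually h2).exists
  exact h.mx.wlemma hQ hQF hp hx h4 (by rw [dist_comm]; exact h3) (subset_closure hw)

/-- **[SRC], outside** -/
theorem Co.inn (h : Irr U T) {q : Fin 6} {x y : ℂ} (c : Co U q x y) : ¬ In (U q) y x := by
  intro h1
  obtain ⟨Q, hQ, hQF, hx, p, hp, hpy⟩ := c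
  have h2 : ∀ᶠ w in 𝓝 y, 1 < dist p w :=
    (continuous_const.dist continuous_id).continuousAt.eventually_const_lt hpy
  obtain ⟨w, ⟨hw, h3⟩, h4⟩ := (Filter.Frequently.and_eventually h1 h2).exists
  exact h.mx.wlemma hQ hQF hx hp (by rw [dist_comm]; exact h3) h4 (subset_closure hw)

/-- a source on both sides -/
theorem Ci.co (h : Irr U T) {q : Fin 6} {x y : ℂ} (c : Ci U q x y) (c' : Co U q x y) : q ∉ Pal U y := by
  obtain ⟨Q, hQ, hQF, hx, p, hp, hpy⟩ := c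
  obtain ⟨Q', hQ', hQF', hx', p', hp', hpy'⟩ := c'
  exact h.mx.wlemma (hQ.union x hx hx' hQ') (union_subset hQF hQF') (Or.inl hp) (Or.inr hp') hpy hpy'

/-! ### index forms -/

section
variable {K : ℕ} {a : ℕ → ℝ} (A : Tick K a) {x y : ℂ} {s : ℕ} {q : Fin 6}

/-- three kills of an inner source -/
theorem Ci.kill (h : Irr U T) (e : y = x + dir (a s)) (c : Ci U q x y) :
    ¬ HI (U q) y a s ∧ ¬ Cl (U q) y a 2 s :=
  ⟨fun h1 => c.ou h (ou_back e h1), fun h1 => c.ou h (ou2_y e h1)⟩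

include A in
theorem Ci.kill' (h : Irr U T) (e : y = x + dir (a s)) (c : Ci U q x y) : ¬ Cl (U q) y a 2 (s + 3 * K) :=
  fun h1 => c.ou h (by rw [e_back e]; exact (CK.ou_two_half A h1).2)

include A in
/-- the kill of an outer source -/
theorem Co.kill (h : Irr U T) (e : y = x + dir (a s)) (c : Co U q x y) : ¬ HI (U q) y a (s + 3 * K) :=
  fun h1 => c.inn h (by rw [e_back e]; exact (CK.hi_half A).1 h1)

end

/-! ### curves in a cell of one colour -/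

/-- a curve inside a region in which only the colour `q` accumulates -/
theorem solid_curve (h : Irr U T) {x : ℂ} {θ : ℝ} {q : Fin 6} {Z : Set ℂ} (hZ : IsOpen Z) {γ : ℝ → ℝ × ℝ}
    (hγ : Continuous γ) (h0 : γ 0 = (0, θ)) (hZγ : ∀ᶠ δ in 𝓝[>] (0 : ℝ), 0 < (γ δ).1 ∧ po x (γ δ) ∈ Z)
    (hq : ∀ r, r ≠ q → ¬ ∃ᶠ p in 𝓝 ((0 : ℝ), θ), p ∈ PS (Sq T r) x ∧ po x p ∈ Z) {P : ℂ → Prop}
    (hP : ∀ᶠ δ in 𝓝[>] (0 : ℝ), P (po x (γ δ))) :
    ∃ Q, IsPreconnected Q ∧ Q ⊆ closure (U q) ∧ x ∈ Q ∧ ∃ p ∈ Q, P p := by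
  have h1 : ∀ᶠ p in 𝓝 ((0 : ℝ), θ), ∀ r, r ≠ q → ¬ (p ∈ PS (Sq T r) x ∧ po x p ∈ Z) := by
    rw [eventually_all]
    intro r
    by_cases hr : r = q
    · exact Eventually.of_forall fun p h2 => absurd hr h2
    · exact (not_frequently.1 (hq r hr)).mono fun p hp _ => hp
  have h2 : Tendsto γ (𝓝[>] 0) (𝓝 ((0 : ℝ), θ)) := by
    have := hγ.tendsto 0
    rw [h0] at this
    exact this.mono_left nhdsWithin_le_nhds
  have h3 : ∀ᶠ δ in 𝓝[>] (0 : ℝ), T (po x (γ δ)) = {q} := by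
    filter_upwards [h2.eventually (eventually_eventually_nhds.2 h1), hZγ] with δ h4 h5
    refine Set.eq_singleton_iff_nonempty_unique_mem.2 ⟨h.ne _, fun r hr => ?_⟩
    by_contra hrq
    have h6 := freq_lift (P := fun w => T w = {r}) h5.1 (h.pure _ r hr)
    have h7 : ∀ᶠ p' in 𝓝 (γ δ), 0 < p'.1 := continuous_fst.continuousAt.eventually_const_lt h5.1
    have h8 : ∀ᶠ p' in 𝓝 (γ δ), po x p' ∈ Z :=
      (continuous_po x).continuousAt.eventually (hZ.mem_nhds h5.2)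
    obtain ⟨p', h9, h10, h11, h12⟩ := (h6.and_eventually (h4.and (h7.and h8))).exists
    exact h10 r hrq ⟨⟨h11, h9⟩, h12⟩
  obtain ⟨ε, hε, hs⟩ := (mem_nhdsGT_iff_exists_Ioo_subset (a := (0 : ℝ))).1 (h3.and hP)
  have hε : 0 < ε := hε
  have h4 : (fun δ => po x (γ δ)) '' Ioo 0 ε ⊆ U q := by
    rintro _ ⟨δ, hδ, rfl⟩
    exact h.mem_of_single (hs hδ).1.le
  have hcont : Continuous fun δ => po x (γ δ) := (continuous_po x).comp hγ
  refine ⟨(fun δ => po x (γ δ)) '' Ico 0 ε, isPreconnected_Ico.image _ hcont.continuousOn, ?_,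
    ⟨0, ⟨le_rfl, hε⟩, by show po x (γ 0) = x; rw [h0, po_zero]⟩,
    po x (γ (ε / 2)), ⟨ε / 2, ⟨by linarith, by linarith⟩, rfl⟩, (hs ⟨by linarith, by linarith⟩).2⟩
  rintro _ ⟨δ, hδ, rfl⟩
  rcases hδ.1.eq_or_lt with h5 | h5
  · subst h5
    have h6 : Tendsto (fun δ => po x (γ δ)) (𝓝[>] 0) (𝓝 (po x (γ 0))) :=
      (hcont.tendsto 0).mono_left nhdsWithin_le_nhds
    refine mem_closure_of_tendsto h6 ?_
    filter_upwards [Ioo_mem_nhdsGT hε] with δ hδ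
    exact h4 ⟨δ, hδ, rfl⟩
  · exact subset_closure (h4 ⟨δ, ⟨h5, hδ.2⟩, rfl⟩)

/-! #### rays and sectors -/

/-- the straight ray with angle `θ` -/
theorem solid_ray (h : Irr U T) {x : ℂ} {θ : ℝ} {q : Fin 6} (hq : ∀ r, r ≠ q → θ ∉ DS (Sq T r) x) {P : ℂ → Prop}
    (hP : ∀ᶠ δ in 𝓝[>] (0 : ℝ), P (po x (δ, θ))) :
    ∃ Q, IsPreconnected Q ∧ Q ⊆ closure (U q) ∧ x ∈ Q ∧ ∃ p ∈ Q, P p :=
  solid_curve h (Z := univ) isOpen_univ (γ := fun δ => (δ, θ)) (by fun_prop) rfl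
    (by filter_upwards [self_mem_nhdsWithin] with δ hδ; exact ⟨hδ, trivial⟩)
    (fun r hr hf => hq r hr (hf.mono fun p hp => hp.1)) hP

theorem po_in {x : ℂ} {θ u : ℝ} (hc : 0 < Real.cos ((θ - u) * (Real.pi / 3))) :
    ∀ᶠ δ in 𝓝[>] (0 : ℝ), dist (po x (δ, θ)) (x + dir u) < 1 := by
  filter_upwards [Ioo_mem_nhdsGT hc] with δ hδ
  refine lt_one_of_sq dist_nonneg ?_
  have := sq_dist_po x δ θ u
  rw [show x + dir u = pt x u from rfl, this]
  nlinarith [hδ.1, hδ.2]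

theorem po_out {x : ℂ} {θ u : ℝ} (hc : Real.cos ((θ - u) * (Real.pi / 3)) < 0) :
    ∀ᶠ δ in 𝓝[>] (0 : ℝ), 1 < dist (po x (δ, θ)) (x + dir u) := by
  filter_upwards [self_mem_nhdsWithin] with δ hδ
  have hδ : 0 < δ := hδ
  refine one_lt_of_sq dist_nonneg ?_
  have := sq_dist_po x δ θ u
  rw [show x + dir u = pt x u from rfl, this]
  nlinarith

theorem ev_in {x : ℂ} {θ u : ℝ} (hc : 0 < Real.cos ((θ - u) * (Real.pi / 3))) :
    ∀ᶠ p in 𝓝 ((0 : ℝ), θ), 0 < p.1 → dist (po x p) (x + dir u) < 1 := by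
  set C := Real.cos ((θ - u) * (Real.pi / 3)) with hC
  have h2 : ∀ᶠ a : ℝ × ℝ in 𝓝 ((0 : ℝ), θ), C / 2 < Real.cos ((a.2 - u) * (Real.pi / 3)) :=
    (cosc u).continuousAt.eventually_const_lt (by show C / 2 < C; linarith)
  have h3 : ∀ᶠ a : ℝ × ℝ in 𝓝 ((0 : ℝ), θ), a.1 < C :=
    continuous_fst.continuousAt.eventually_lt_const hc
  filter_upwards [h2, h3] with p h4 h5 h6
  refine lt_one_of_sq dist_nonneg ?_
  have := sq_dist_po x p.1 p.2 u
  rw [show x + dir u = pt x u from rfl, this]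
  nlinarith

theorem ev_out {x : ℂ} {θ u : ℝ} (hc : Real.cos ((θ - u) * (Real.pi / 3)) < 0) :
    ∀ᶠ p in 𝓝 ((0 : ℝ), θ), 0 < p.1 → 1 < dist (po x p) (x + dir u) := by
  have h2 : ∀ᶠ a : ℝ × ℝ in 𝓝 ((0 : ℝ), θ), Real.cos ((a.2 - u) * (Real.pi / 3)) < 0 :=
    (cosc u).continuousAt.eventually_lt_const hc
  filter_upwards [h2] with p h4 h6
  refine one_lt_of_sq dist_nonneg ?_
  have := sq_dist_po x p.1 p.2 u
  rw [show x + dir u = pt x u from rfl, this]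
  nlinarith

/-- only the colour `q` in the cell -/
def So (T : ℂ → Set (Fin 6)) (x : ℂ) (a : ℕ → ℝ) (k j : ℕ) (q : Fin 6) : Prop :=
  ∀ r, r ≠ q → ¬ Cl (Sq T r) x a k j

/-- the open zone -/
def ZO (x u : ℂ) (k : ℕ) : Set ℂ :=
  if k = 1 then {w | dist w (x + u) < 1} else if k = 3 then {w | dist w (x - u) < 1}
  else {w | 1 < dist w (x + u) ∧ 1 < dist w (x - u)}

theorem isOpen_zo (x u : ℂ) (k : ℕ) : IsOpen (ZO x u k) := by
  unfold ZO
  split_ifs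
  · exact isOpen_lt (by fun_prop) (by fun_prop)
  · exact isOpen_lt (by fun_prop) (by fun_prop)
  · have h1 : IsOpen {w : ℂ | 1 < dist w (x + u)} := isOpen_lt (by fun_prop) (by fun_prop)
    have h2 : IsOpen {w : ℂ | 1 < dist w (x - u)} := isOpen_lt (by fun_prop) (by fun_prop)
    exact h1.inter h2

theorem zn_of_zo {x u w : ℂ} {k : ℕ} (h : w ∈ ZO x u k) : Zn x u k w := by
  unfold ZO at h
  unfold Zn
  split_ifs with h1 h2
  · rw [if_pos h1] at h; exact h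
  · rw [if_neg h1, if_pos h2] at h; exact h
  · rw [if_neg h1, if_neg h2] at h; exact ⟨h.1.le, h.2.le⟩

/-- the curves -/
def gam (θ : ℝ) (k : ℕ) (δ : ℝ) : ℝ × ℝ :=
  if k = 1 then (Real.sin (δ * (Real.pi / 3)), θ - δ) else
  if k = 3 then (Real.sin (δ * (Real.pi / 3)), θ + δ) else (δ, θ)

theorem continuous_gam (θ : ℝ) (k : ℕ) : Continuous (gam θ k) := by
  unfold gam
  split_ifs <;> fun_prop

theorem gam_zero (θ : ℝ) (k : ℕ) : gam θ k 0 = (0, θ) := by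
  unfold gam
  split_ifs <;> simp

theorem gam_zo (x : ℂ) (t : ℝ) (k : ℕ) :
    ∀ᶠ δ in 𝓝[>] (0 : ℝ), 0 < (gam (t + 3 / 2) k δ).1 ∧ po x (gam (t + 3 / 2) k δ) ∈ ZO x (dir t) k := by
  have hpi := Real.pi_pos
  filter_upwards [Ioo_mem_nhdsGT (one_pos : (0 : ℝ) < 1)] with δ hδ
  have hs : 0 < Real.sin (δ * (Real.pi / 3)) :=
    Real.sin_pos_of_pos_of_lt_pi (by have := hδ.1; positivity) (by nlinarith [hδ.2])
  unfold gam ZO
  by_cases h1 : k = 1
  · simp only [if_pos h1]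
    refine ⟨hs, lt_one_of_sq dist_nonneg ?_⟩
    have := sq_dist_po x (Real.sin (δ * (Real.pi / 3))) (t + 3 / 2 - δ) t
    rw [show x + dir t = pt x t from rfl, this,
      show (t + 3 / 2 - δ - t) * (Real.pi / 3) = Real.pi / 2 - δ * (Real.pi / 3) by ring,
      Real.cos_pi_div_two_sub]
    nlinarith
  · by_cases h3 : k = 3
    · simp only [if_neg h1, if_pos h3]
      refine ⟨hs, lt_one_of_sq dist_nonneg ?_⟩
      have := sq_dist_po x (Real.sin (δ * (Real.pi / 3))) (t + 3 / 2 + δ) (t + 3)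
      rw [sub_dir, this,
        show (t + 3 / 2 + δ - (t + 3)) * (Real.pi / 3) = -(Real.pi / 2 - δ * (Real.pi / 3)) by ring,
        Real.cos_neg, Real.cos_pi_div_two_sub]
      nlinarith
    · simp only [if_neg h1, if_neg h3]
      refine ⟨hδ.1, one_lt_of_sq dist_nonneg ?_, one_lt_of_sq dist_nonneg ?_⟩
      · have := sq_dist_po x δ (t + 3 / 2) t
        rw [show x + dir t = pt x t from rfl, this,
          show (t + 3 / 2 - t) * (Real.pi / 3) = Real.pi / 2 by ring, Real.cos_pi_div_two]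
        nlinarith [hδ.1]
      · have := sq_dist_po x δ (t + 3 / 2) (t + 3)
        rw [sub_dir, this,
          show (t + 3 / 2 - (t + 3)) * (Real.pi / 3) = -(Real.pi / 2) by ring, Real.cos_neg,
          Real.cos_pi_div_two]
        nlinarith [hδ.1]

section
variable {K : ℕ} {a : ℕ → ℝ} {x : ℂ} {q : Fin 6}

/-- a zone of one colour -/
theorem solid_zone (h : Irr U T) {k j : ℕ} (hk : k ≠ 0) (hs : So T x a k j q) {P : ℂ → Prop}
    (hP : ∀ᶠ p in 𝓝 ((0 : ℝ), ra a j), 0 < p.1 → po x p ∈ ZO x (dir (a j)) k → P (po x p)) :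
    ∃ Q, IsPreconnected Q ∧ Q ⊆ closure (U q) ∧ x ∈ Q ∧ ∃ p ∈ Q, P p := by
  have h1 := gam_zo x (a j) k
  have h2 : Tendsto (gam (ra a j) k) (𝓝[>] 0) (𝓝 ((0 : ℝ), ra a j)) := by
    have := (continuous_gam (ra a j) k).tendsto 0
    rw [gam_zero] at this
    exact this.mono_left nhdsWithin_le_nhds
  refine solid_curve h (isOpen_zo x (dir (a j)) k) (continuous_gam (ra a j) k) (gam_zero _ _) h1 ?_ ?_
  · intro r hr hf
    exact hs r hr ((cl_pos hk).2 (hf.mono fun p hp => ⟨hp.1, zn_of_zo hp.2⟩))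
  · filter_upwards [h1, h2.eventually hP] with δ h3 h4
    exact h4 h3.1 h3.2

/-- a sector of one colour -/
theorem solid_sector (h : Irr U T) {j : ℕ} {θ : ℝ} (hθ : θ ∈ Ioo (ra a j) (ra a (j + 1)))
    (hs : So T x a 0 j q) {P : ℂ → Prop} (hP : ∀ᶠ δ in 𝓝[>] (0 : ℝ), P (po x (δ, θ))) :
    ∃ Q, IsPreconnected Q ∧ Q ⊆ closure (U q) ∧ x ∈ Q ∧ ∃ p ∈ Q, P p :=
  solid_ray h (fun r hr hf => hs r hr (cl_zero.2 ⟨θ, hθ, hf⟩)) hP

theorem ci_ray (h : Irr U T) {k j : ℕ} (hk : k ≠ 0) (hs : So T x a k j q) {u : ℝ}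
    (hc : 0 < Real.cos ((ra a j - u) * (Real.pi / 3))) : Ci U q x (x + dir u) :=
  solid_zone h hk hs ((ev_in hc).mono fun _ hp h0 _ => hp h0)

theorem co_ray (h : Irr U T) {k j : ℕ} (hk : k ≠ 0) (hs : So T x a k j q) {u : ℝ}
    (hc : Real.cos ((ra a j - u) * (Real.pi / 3)) < 0) : Co U q x (x + dir u) :=
  solid_zone h hk hs ((ev_out hc).mono fun _ hp h0 _ => hp h0)

theorem ci_one (h : Irr U T) {j : ℕ} (hs : So T x a 1 j q) : Ci U q x (x + dir (a j)) :=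
  solid_zone h (by norm_num) hs (Eventually.of_forall fun p _ hp => by simpa [ZO] using hp)

theorem ci_three (h : Irr U T) {j : ℕ} (hs : So T x a 3 j q) : Ci U q x (x - dir (a j)) :=
  solid_zone h (by norm_num) hs (Eventually.of_forall fun p _ hp => by simpa [ZO] using hp)

theorem co_two (h : Irr U T) {j : ℕ} (hs : So T x a 2 j q) : Co U q x (x + dir (a j)) :=
  solid_zone h (by norm_num) hs (Eventually.of_forall fun p _ hp => by
    have h1 : 1 < dist (po x p) (x + dir (a j)) ∧ 1 < dist (po x p) (x - dir (a j)) := by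
      simpa [ZO] using hp
    exact h1.1)

theorem co_two' (h : Irr U T) {j : ℕ} (hs : So T x a 2 j q) : Co U q x (x - dir (a j)) :=
  solid_zone h (by norm_num) hs (Eventually.of_forall fun p _ hp => by
    have h1 : 1 < dist (po x p) (x + dir (a j)) ∧ 1 < dist (po x p) (x - dir (a j)) := by
      simpa [ZO] using hp
    exact h1.2)

/-- the other side of the parallelogram -/
theorem far_of_near {x u w : ℂ} (hu : ‖u‖ = 1) (hne : w ≠ x) (h : dist w (x - u) < 1) :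
    1 < dist w (x + u) := by
  have key : ‖(w - x) + u‖ ^ 2 + ‖(w - x) - u‖ ^ 2 = 2 * (‖w - x‖ ^ 2 + ‖u‖ ^ 2) := by
    have := parallelogram_law_with_norm ℝ (w - x) u
    nlinarith
  have h1 : dist w (x - u) = ‖(w - x) + u‖ := by rw [dist_eq_norm]; congr 1; ring
  have h2 : dist w (x + u) = ‖(w - x) - u‖ := by rw [dist_eq_norm]; congr 1; ring
  have h3 : 0 < ‖w - x‖ := norm_pos_iff.2 (sub_ne_zero.2 hne)
  rw [h1] at h
  rw [h2]
  refine one_lt_of_sq (norm_nonneg _) ?_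
  have h4 : ‖(w - x) + u‖ ^ 2 < 1 := by nlinarith [norm_nonneg ((w - x) + u)]
  rw [hu] at key
  nlinarith [sq_pos_of_pos h3]

theorem po_ne {x : ℂ} {p : ℝ × ℝ} (hp : 0 < p.1) : po x p ≠ x := by
  intro e
  have h1 : (p.1 : ℂ) * cis (p.2 * (Real.pi / 3)) = 0 := by
    have : x + (p.1 : ℂ) * cis (p.2 * (Real.pi / 3)) = x := e
    simpa using this
  have h2 := congrArg norm h1
  rw [norm_mul, norm_cis', norm_zero, mul_one, Complex.norm_real, Real.norm_of_nonneg hp.le] at h2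
  exact hp.ne' h2

theorem co_three (h : Irr U T) {j : ℕ} (hs : So T x a 3 j q) : Co U q x (x + dir (a j)) :=
  solid_zone h (by norm_num) hs (Eventually.of_forall fun p h0 hp =>
    far_of_near (norm_dir _) (po_ne h0) (by simpa [ZO] using hp))

theorem co_one (h : Irr U T) {j : ℕ} (hs : So T x a 1 j q) : Co U q x (x - dir (a j)) :=
  solid_zone h (by norm_num) hs (Eventually.of_forall fun p h0 hp => by
    have h1 : dist (po x p) (x - -dir (a j)) < 1 := by rw [sub_neg_eq_add]; simpa [ZO] using hp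
    have := far_of_near (by rw [norm_neg, norm_dir]) (po_ne h0) h1
    rwa [← sub_eq_add_neg] at this)

/-! ### all cells, index form -/

/-- the cell `(k, j)` is inside the circle about `x + dir (a s)`, where `d = j - s` modulo `6 K` -/
def InC (K k d : ℕ) : Prop := (k = 0 ∧ 3 * K ≤ d) ∨ (k ≠ 0 ∧ (3 * K + 1 ≤ d ∨ (k = 1 ∧ d = 0) ∨ (k = 3 ∧ d = 3 * K)))

variable (A : Tick K a)
include A

theorem cos_neg_K {s d : ℕ} (hd : d + 1 ≤ 3 * K) {θ : ℝ} (hθ : θ ∈ Ioo (ra a (s + d)) (ra a (s + d + 1))) :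
    Real.cos ((θ - a s) * (Real.pi / 3)) < 0 := by
  have h3 := CK.ra_le A (show s ≤ s + d by omega)
  have h4 := CK.ra_le A (show s + d + 1 ≤ s + 3 * K by omega)
  rw [CK.ra_half A] at h4
  have h5 : ra a s = a s + 3 / 2 := rfl
  exact cos_neg_of (by linarith [hθ.1]) (by linarith [hθ.2])

theorem cos_neg_ray {s d : ℕ} (hd1 : 1 ≤ d) (hd : d + 1 ≤ 3 * K) :
    Real.cos ((ra a (s + d) - a s) * (Real.pi / 3)) < 0 := by
  have h3 := CK.ra_lt A (show s < s + d by omega)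
  have h4 := CK.ra_lt A (show s + d < s + 3 * K by omega)
  rw [CK.ra_half A] at h4
  have h5 : ra a s = a s + 3 / 2 := rfl
  exact cos_neg_of (by linarith) (by linarith)

omit A in
theorem mid_mem {s t : ℝ} (h : s < t) : (s + t) / 2 ∈ Ioo s t := ⟨by linarith, by linarith⟩

/-- **[SOL] a cell of one colour inside `S(x + dir (a s))` is a source** -/
theorem ci_cell (h : Irr U T) {k s d : ℕ} (hk : k ≤ 3) (hd : d < 6 * K) (hin : InC K k d)
    (hs : So T x a k (s + d) q) : Ci U q x (x + dir (a s)) := by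
  rcases hin with ⟨rfl, h1⟩ | ⟨h0, h1⟩
  · obtain ⟨e, rfl⟩ := Nat.exists_eq_add_of_le h1
    have e1 : s + (3 * K + e) = s + 3 * K + e := by ring
    rw [e1] at hs
    have h2 := mid_mem (CK.ra_lt A (Nat.lt_succ_self (s + 3 * K + e)))
    exact solid_sector h h2 hs (po_in (CK.sector_angle A (by omega) h2))
  · rcases h1 with h1 | ⟨rfl, rfl⟩ | ⟨rfl, rfl⟩
    · obtain ⟨e, rfl⟩ := Nat.exists_eq_add_of_le h1
      have e1 : s + (3 * K + 1 + e) = s + 3 * K + (1 + e) := by ring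
      rw [e1] at hs
      exact ci_ray h h0 hs (CK.ray_angle A (by omega) (by omega))
    · exact ci_one h hs
    · have := ci_three h hs
      rwa [CK.dir_half A, sub_neg_eq_add] at this

/-- **[SOL] a cell of one colour outside `S(x + dir (a s))` is an outer source** -/
theorem co_cell (h : Irr U T) {k s d : ℕ} (hk : k ≤ 3) (hd : d < 6 * K) (hout : ¬ InC K k d)
    (hs : So T x a k (s + d) q) : Co U q x (x + dir (a s)) := by
  have hK : 0 < K := by omega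
  by_cases h0 : k = 0
  · subst h0
    have h1 : d + 1 ≤ 3 * K := by
      by_contra hcon
      exact hout (Or.inl ⟨rfl, by omega⟩)
    have h2 := mid_mem (CK.ra_lt A (Nat.lt_succ_self (s + d)))
    exact solid_sector h h2 hs (po_out (cos_neg_K A h1 h2))
  · have h1 : ¬ (3 * K + 1 ≤ d ∨ (k = 1 ∧ d = 0) ∨ (k = 3 ∧ d = 3 * K)) := fun h2 => hout (Or.inr ⟨h0, h2⟩)
    push Not at h1
    obtain ⟨h2, h3, h4⟩ := h1
    rcases Nat.eq_zero_or_pos d with hd0 | hd0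
    · subst hd0
      have hk23 : k = 2 ∨ k = 3 := by
        have : k ≠ 1 := fun h5 => h3 h5 rfl
        omega
      rw [add_zero] at hs
      rcases hk23 with rfl | rfl
      · exact co_two h hs
      · exact co_three h hs
    · by_cases hd1 : d = 3 * K
      · subst hd1
        have hk12 : k = 1 ∨ k = 2 := by
          have : k ≠ 3 := fun h5 => h4 h5 rfl
          omega
        rcases hk12 with rfl | rfl
        · have := co_one h hs
          rwa [CK.dir_half A, sub_neg_eq_add] at this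
        · have := co_two' h hs
          rwa [CK.dir_half A, sub_neg_eq_add] at this
      · exact co_ray h h0 hs (cos_neg_ray A hd0 (by omega))

end

/-! ### solid arcs as sources -/

/-- `q` is in the palettes of the closed arc from `pt x t0` to `pt x t1` -/
def Fa (T : ℂ → Set (Fin 6)) (x : ℂ) (t0 t1 : ℝ) (q : Fin 6) : Prop := ∀ v ∈ Icc t0 t1, q ∈ T (pt x v)

section
variable {x : ℂ} {t0 t1 : ℝ} {q : Fin 6}

theorem fa_set (h : Irr U T) (hF : Fa T x t0 t1 q) {s : ℝ} (hs : s ∈ Icc t0 t1) {P : ℂ → Prop}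
    (hP : ∃ v ∈ Icc t0 t1, P (pt x v)) :
    ∃ Q, IsPreconnected Q ∧ Q ⊆ closure (U q) ∧ pt x s ∈ Q ∧ ∃ p ∈ Q, P p := by
  refine ⟨pt x '' Icc t0 t1, isPreconnected_Icc.image _ (continuous_pt x).continuousOn, ?_, ⟨s, hs, rfl⟩, ?_⟩
  · rintro _ ⟨v, hv, rfl⟩
    exact h.sub _ (hF v hv)
  · obtain ⟨v, hv, h1⟩ := hP
    exact ⟨_, ⟨v, hv, rfl⟩, h1⟩

/-- the solid arc starts at `pt x t0` in the direction `t0 + 3 / 2`: inner source -/
theorem fa_ci_start (h : Irr U T) (ht : t0 < t1) (hF : Fa T x t0 t1 q) {u : ℝ}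
    (hc : 0 < Real.cos ((t0 + 3 / 2 - u) * (Real.pi / 3))) : Ci U q (pt x t0) (pt x t0 + dir u) := by
  refine fa_set h hF ⟨le_rfl, ht.le⟩ (P := fun w => dist w (pt x t0 + dir u) < 1) ?_
  have h1 := ((H61.lim_R t0).eventually (ev_in (x := pt x t0) hc)).and
    (H61.pos_R.and (Ioo_mem_nhdsGT (sub_pos.2 ht)))
  obtain ⟨τ, h2, h3, h4⟩ := h1.exists
  refine ⟨t0 + τ, ⟨by linarith [h4.1], by linarith [h4.2]⟩, ?_⟩
  rw [H61.chord_right]
  exact h2 h3

theorem fa_co_start (h : Irr U T) (ht : t0 < t1) (hF : Fa T x t0 t1 q) {u : ℝ}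
    (hc : Real.cos ((t0 + 3 / 2 - u) * (Real.pi / 3)) < 0) : Co U q (pt x t0) (pt x t0 + dir u) := by
  refine fa_set h hF ⟨le_rfl, ht.le⟩ (P := fun w => 1 < dist w (pt x t0 + dir u)) ?_
  have h1 := ((H61.lim_R t0).eventually (ev_out (x := pt x t0) hc)).and
    (H61.pos_R.and (Ioo_mem_nhdsGT (sub_pos.2 ht)))
  obtain ⟨τ, h2, h3, h4⟩ := h1.exists
  refine ⟨t0 + τ, ⟨by linarith [h4.1], by linarith [h4.2]⟩, ?_⟩
  rw [H61.chord_right]
  exact h2 h3

/-- the solid arc ends at `pt x t1`, seen backwards in the direction `t1 - 3 / 2` -/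
theorem fa_ci_end (h : Irr U T) (ht : t0 < t1) (hF : Fa T x t0 t1 q) {u : ℝ}
    (hc : 0 < Real.cos ((t1 - 3 / 2 - u) * (Real.pi / 3))) : Ci U q (pt x t1) (pt x t1 + dir u) := by
  refine fa_set h hF ⟨ht.le, le_rfl⟩ (P := fun w => dist w (pt x t1 + dir u) < 1) ?_
  have h1 := ((H61.lim_L t1).eventually (ev_in (x := pt x t1) hc)).and
    (H61.pos_L.and (Ioo_mem_nhdsLT (sub_neg.2 ht)))
  obtain ⟨τ, h2, h3, h4⟩ := h1.exists
  refine ⟨t1 + τ, ⟨by linarith [h4.1], by linarith [h4.2]⟩, ?_⟩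
  rw [H61.chord_left]
  exact h2 h3

theorem fa_co_end (h : Irr U T) (ht : t0 < t1) (hF : Fa T x t0 t1 q) {u : ℝ}
    (hc : Real.cos ((t1 - 3 / 2 - u) * (Real.pi / 3)) < 0) : Co U q (pt x t1) (pt x t1 + dir u) := by
  refine fa_set h hF ⟨ht.le, le_rfl⟩ (P := fun w => 1 < dist w (pt x t1 + dir u)) ?_
  have h1 := ((H61.lim_L t1).eventually (ev_out (x := pt x t1) hc)).and
    (H61.pos_L.and (Ioo_mem_nhdsLT (sub_neg.2 ht)))
  obtain ⟨τ, h2, h3, h4⟩ := h1.exists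
  refine ⟨t1 + τ, ⟨by linarith [h4.1], by linarith [h4.2]⟩, ?_⟩
  rw [H61.chord_left]
  exact h2 h3

/-- the tangent case: the mirror point of `x` -/
theorem fa_co_mirror_start (h : Irr U T) (ht : t0 < t1) (hF : Fa T x t0 t1 q) :
    Co U q (pt x t0) (pt x t0 + dir t0) := by
  refine fa_set h hF ⟨le_rfl, ht.le⟩ (P := fun w => 1 < dist w (pt x t0 + dir t0)) ?_
  set τ := min (1 / 2) ((t1 - t0) / 2) with hτ
  have h1 : 0 < τ := lt_min (by norm_num) (by linarith)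
  have h2 : τ ≤ 1 / 2 := min_le_left _ _
  have h3 : τ ≤ (t1 - t0) / 2 := min_le_right _ _
  refine ⟨t0 + τ, ⟨by linarith, by linarith⟩, ?_⟩
  have h4 := H61.far_mirror (x := x) (t := t0) (τ := τ) h1.ne' (by rw [abs_of_pos h1]; linarith)
  have e : pt x t0 + dir t0 = 2 * pt x t0 - x := by
    show x + dir t0 + dir t0 = 2 * (x + dir t0) - x
    ring
  rw [e]; exact h4

theorem fa_co_mirror_end (h : Irr U T) (ht : t0 < t1) (hF : Fa T x t0 t1 q) :
    Co U q (pt x t1) (pt x t1 + dir t1) := by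
  refine fa_set h hF ⟨ht.le, le_rfl⟩ (P := fun w => 1 < dist w (pt x t1 + dir t1)) ?_
  set τ := min (1 / 2) ((t1 - t0) / 2) with hτ
  have h1 : 0 < τ := lt_min (by norm_num) (by linarith)
  have h2 : τ ≤ 1 / 2 := min_le_left _ _
  have h3 : τ ≤ (t1 - t0) / 2 := min_le_right _ _
  refine ⟨t1 + -τ, ⟨by linarith, by linarith⟩, ?_⟩
  have h4 := H61.far_mirror (x := x) (t := t1) (τ := -τ) (by linarith : -τ < 0).ne (by
    rw [abs_neg, abs_of_pos h1]; linarith)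
  have e : pt x t1 + dir t1 = 2 * pt x t1 - x := by
    show x + dir t1 + dir t1 = 2 * (x + dir t1) - x
    ring
  rw [e]; exact h4

end

/-! ### the two branches of the circle about a neighbour -/

/-- points of `S(y)` near `x` carry only palettes different from `{q}` if `q` is in the palette of `y` -/
theorem thin_aux (h : Irr U T) {y : ℂ} {q : Fin 6} (hq : q ∈ Pal U y) {w : ℂ} (hw : dist w y = 1) :
    ∃ r, r ≠ q ∧ r ∈ T w := by
  by_contra hcon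
  push Not at hcon
  have h1 : T w ⊆ {q} := fun r hr => by
    by_contra hrq
    exact hcon r hrq hr
  exact h.mx.notMem' (h.mem_of_single h1) hw hq

theorem thin_left (h : Irr U T) {x y : ℂ} {t : ℝ} (e : x = pt y t) {q : Fin 6} (hq : q ∈ Pal U y) :
    ∃ r, r ≠ q ∧ ((∃ᶠ p in 𝓝 ((0 : ℝ), t - 3 / 2), p ∈ PS (Sq T r) x ∧ dist (po x p) y < 1) ∨
      ∃ᶠ p in 𝓝 ((0 : ℝ), t - 3 / 2), p ∈ PS (Sq T r) x ∧ 1 ≤ dist (po x p) y ∧
        1 ≤ dist (po x p) (2 * x - y)) := by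
  have h1 : ∀ᶠ τ : ℝ in 𝓝[<] 0, ∃ r, r ≠ q ∧
      ((∃ᶠ w in 𝓝 (pt y (t + τ)), T w = {r} ∧ dist w y < 1) ∨
        ∃ᶠ w in 𝓝 (pt y (t + τ)), T w = {r} ∧ 1 ≤ dist w y ∧ 1 ≤ dist w (2 * x - y)) := by
    have h2 : ∀ᶠ τ : ℝ in 𝓝[<] 0, -1 < τ ∧ τ < 0 := by
      filter_upwards [Ioo_mem_nhdsLT (by norm_num : (-1 : ℝ) < 0)] with τ hτ
      exact ⟨hτ.1, hτ.2⟩
    filter_upwards [h2] with τ hτ
    obtain ⟨r, hr, hrT⟩ := thin_aux h hq (dist_pt y (t + τ))
    refine ⟨r, hr, ?_⟩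
    have h3 := h.pure _ r hrT
    have h4 : 1 < dist (pt y (t + τ)) (2 * pt y t - y) :=
      H61.far_mirror hτ.2.ne (by rw [abs_of_neg hτ.2]; linarith [hτ.1])
    rw [← e] at h4
    have h5 : ∀ᶠ w in 𝓝 (pt y (t + τ)), 1 < dist w (2 * x - y) :=
      (continuous_id.dist continuous_const).continuousAt.eventually_const_lt h4
    rcases (Filter.frequently_or_distrib.1 ((h3.and_eventually h5).mono fun w hw =>
      (lt_or_ge (dist w y) 1).imp (fun h6 => (⟨hw.1, h6⟩ : T w = {r} ∧ dist w y < 1))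
        (fun h6 => (⟨hw.1, h6, hw.2.le⟩ : T w = {r} ∧ 1 ≤ dist w y ∧ 1 ≤ dist w (2 * x - y))))) with h6 | h6
    · exact Or.inl h6
    · exact Or.inr h6
  obtain ⟨r, h2⟩ := H61.freq_exists (l := 𝓝[<] (0 : ℝ)) h1.frequently
  have h3 : r ≠ q := by
    obtain ⟨τ, h4, -⟩ := h2.exists
    exact h4
  refine ⟨r, h3, ?_⟩
  have key : ∀ P : ℂ → Prop, (∃ᶠ τ : ℝ in 𝓝[<] 0, ∃ᶠ w in 𝓝 (pt y (t + τ)), P w) →
      ∃ᶠ p in 𝓝 ((0 : ℝ), t - 3 / 2), 0 < p.1 ∧ P (po x p) := by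
    intro P hP
    rw [e]
    exact H61.freq_lim (H61.lim_L t) ((hP.and_eventually H61.pos_L).mono fun τ hτ =>
      H61.freq_po hτ.2 (H61.chord_left y t τ) hτ.1)
  rcases Filter.frequently_or_distrib.1 (h2.mono fun τ hτ => hτ.2) with h4 | h4
  · exact Or.inl ((key _ h4).mono fun p hp => ⟨⟨hp.1, hp.2.1⟩, hp.2.2⟩)
  · exact Or.inr ((key _ h4).mono fun p hp => ⟨⟨hp.1, hp.2.1⟩, hp.2.2⟩)

theorem thin_right (h : Irr U T) {x y : ℂ} {t : ℝ} (e : x = pt y t) {q : Fin 6} (hq : q ∈ Pal U y) :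
    ∃ r, r ≠ q ∧ ((∃ᶠ p in 𝓝 ((0 : ℝ), t + 3 / 2), p ∈ PS (Sq T r) x ∧ dist (po x p) y < 1) ∨
      ∃ᶠ p in 𝓝 ((0 : ℝ), t + 3 / 2), p ∈ PS (Sq T r) x ∧ 1 ≤ dist (po x p) y ∧
        1 ≤ dist (po x p) (2 * x - y)) := by
  have h1 : ∀ᶠ τ : ℝ in 𝓝[>] 0, ∃ r, r ≠ q ∧
      ((∃ᶠ w in 𝓝 (pt y (t + τ)), T w = {r} ∧ dist w y < 1) ∨
        ∃ᶠ w in 𝓝 (pt y (t + τ)), T w = {r} ∧ 1 ≤ dist w y ∧ 1 ≤ dist w (2 * x - y)) := by
    have h2 : ∀ᶠ τ : ℝ in 𝓝[>] 0, 0 < τ ∧ τ < 1 := by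
      filter_upwards [Ioo_mem_nhdsGT (one_pos : (0 : ℝ) < 1)] with τ hτ
      exact ⟨hτ.1, hτ.2⟩
    filter_upwards [h2] with τ hτ
    obtain ⟨r, hr, hrT⟩ := thin_aux h hq (dist_pt y (t + τ))
    refine ⟨r, hr, ?_⟩
    have h3 := h.pure _ r hrT
    have h4 : 1 < dist (pt y (t + τ)) (2 * pt y t - y) :=
      H61.far_mirror hτ.1.ne' (by rw [abs_of_pos hτ.1]; exact hτ.2)
    rw [← e] at h4
    have h5 : ∀ᶠ w in 𝓝 (pt y (t + τ)), 1 < dist w (2 * x - y) :=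
      (continuous_id.dist continuous_const).continuousAt.eventually_const_lt h4
    rcases (Filter.frequently_or_distrib.1 ((h3.and_eventually h5).mono fun w hw =>
      (lt_or_ge (dist w y) 1).imp (fun h6 => (⟨hw.1, h6⟩ : T w = {r} ∧ dist w y < 1))
        (fun h6 => (⟨hw.1, h6, hw.2.le⟩ : T w = {r} ∧ 1 ≤ dist w y ∧ 1 ≤ dist w (2 * x - y))))) with h6 | h6
    · exact Or.inl h6
    · exact Or.inr h6
  obtain ⟨r, h2⟩ := H61.freq_exists (l := 𝓝[>] (0 : ℝ)) h1.frequently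
  have h3 : r ≠ q := by
    obtain ⟨τ, h4, -⟩ := h2.exists
    exact h4
  refine ⟨r, h3, ?_⟩
  have key : ∀ P : ℂ → Prop, (∃ᶠ τ : ℝ in 𝓝[>] 0, ∃ᶠ w in 𝓝 (pt y (t + τ)), P w) →
      ∃ᶠ p in 𝓝 ((0 : ℝ), t + 3 / 2), 0 < p.1 ∧ P (po x p) := by
    intro P hP
    rw [e]
    exact H61.freq_lim (H61.lim_R t) ((hP.and_eventually H61.pos_R).mono fun τ hτ =>
      H61.freq_po hτ.2 (H61.chord_right y t τ) hτ.1)
  rcases Filter.frequently_or_distrib.1 (h2.mono fun τ hτ => hτ.2) with h4 | h4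
  · exact Or.inl ((key _ h4).mono fun p hp => ⟨⟨hp.1, hp.2.1⟩, hp.2.2⟩)
  · exact Or.inr ((key _ h4).mono fun p hp => ⟨⟨hp.1, hp.2.1⟩, hp.2.2⟩)

section
variable {K : ℕ} {a : ℕ → ℝ} (A : Tick K a) {x y : ℂ} {s : ℕ} {q : Fin 6}
include A

omit A in
/-- **[R1'], the branch of `S(y)` at the ray `s`** -/
theorem thin_one (h : Irr U T) (e : y = x + dir (a s)) (hq : q ∈ Pal U y) :
    ∃ r, r ≠ q ∧ (Cl (Sq T r) x a 1 s ∨ Cl (Sq T r) x a 2 s) := by
  have e1 : x = pt y (a s + 3) := by rw [← sub_dir, e]; ring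
  obtain ⟨r, hr, h1⟩ := thin_left h e1 hq
  refine ⟨r, hr, ?_⟩
  have e2 : a s + 3 - 3 / 2 = ra a s := by unfold ra; ring
  rw [e2] at h1
  rcases h1 with h1 | h1
  · exact Or.inl ((cl_pos (by norm_num)).2 (h1.mono fun p hp => ⟨hp.1, zn_one.2 (by rw [← e]; exact hp.2)⟩))
  · refine Or.inr ((cl_pos (by norm_num)).2 (h1.mono fun p hp => ⟨hp.1, zn_two.2 ⟨?_, ?_⟩⟩))
    · rw [← e]; exact hp.2.1
    · have e3 : x - dir (a s) = 2 * x - y := by rw [e]; ring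
      rw [e3]; exact hp.2.2

/-- **[R1'], the branch of `S(y)` at the opposite ray** -/
theorem thin_two (h : Irr U T) (e : y = x + dir (a s)) (hq : q ∈ Pal U y) :
    ∃ r, r ≠ q ∧ (Cl (Sq T r) x a 3 (s + 3 * K) ∨ Cl (Sq T r) x a 2 (s + 3 * K)) := by
  have e1 : x = pt y (a s + 3) := by rw [← sub_dir, e]; ring
  obtain ⟨r, hr, h1⟩ := thin_right h e1 hq
  refine ⟨r, hr, ?_⟩
  have e2 : a s + 3 + 3 / 2 = ra a (s + 3 * K) := by rw [CK.ra_half A]; unfold ra; ring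
  rw [e2] at h1
  have e4 : x - dir (a (s + 3 * K)) = y := by rw [CK.dir_half A, sub_neg_eq_add, e]
  have e5 : x + dir (a (s + 3 * K)) = 2 * x - y := by rw [CK.dir_half A, e]; ring
  rcases h1 with h1 | h1
  · exact Or.inl ((cl_pos (by norm_num)).2 (h1.mono fun p hp => ⟨hp.1, zn_three.2 (by rw [e4]; exact hp.2)⟩))
  · exact Or.inr ((cl_pos (by norm_num)).2 (h1.mono fun p hp => ⟨hp.1, zn_two.2
      ⟨by rw [e5]; exact hp.2.2, by rw [e4]; exact hp.2.1⟩⟩))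

end

end Vale.Agent.P032.H357
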