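import Vale.Agent.P032.H357.RunP
import Vale.Agent.P032.H357.Tab3
import Vale.Agent.P032.H892.Fam

/-!
# P032: pair lemmas with the tables of 73 and 163 points

* `fbc`, `famE` : a family of clauses of the two-class models together with the laws of the monitors of events,
  code `2 c` : the clause `c` of the family, code `2 c + 1` : `RunP.evC`,
* `CrtE` : certified pattern with monitors of events, `dead_crtE`, `trE` : **such patterns are dead**,
* `pl73` : **a pair lemma from a query of three classes (163 points).**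
-/

open Set Filter Topology Metric

noncomputable section

namespace Vale.Agent.P032.H357.PairP

open Vale.Agent.P032.Six Vale.Agent.P032.Words Vale.Agent.P032.S5.H767
  Vale.Agent.P032.H913 Vale.Agent.P032.H357 Vale.Agent.P032.H61 Vale.Agent.P032.BlkE Vale.Agent.P032.H357.RunP
open Vale.Agent.P032.H357.MK (cf al al_spec Tb nbeq alL alL_spec xT xT_av PatH)
open Vale.Agent.P032.H820.K (a0 a1 a2 a3 a4 En en_eq dec Md av lv Ho ps ng lv_ps lv_ng nbf lb lb_iff trv ho_trv nthC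
  nthC_ho)
open Vale.Agent.P032.H61.TF (tb g73 gp_zero gp_one kap_zero kap_one PX TG)

/-! ### clauses of the two-class models -/

/-- the clause, made true if it has a literal about a free atom -/
def fbc (NP : ℕ) (c : List ℕ) : List ℕ :=
  @List.rec ℕ (fun _ => List ℕ) [] (fun l _ ih => bif lb (a1 (Nat.div l 2)) NP then l :: ih else List.append trv ih) c

section
variable {NP NW TB TC : ℕ} {B : Tb NP NW TB TC} {F : Fr} {M : Md 2 NP NW (nbf 2 TB)} {C : Fr → Prop}

theorem fbc_ho {X : ℕ → ℕ → Prop} {c : List ℕ} (h : Ho M c) : Ho (xT M X) (fbc NP c) := by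
  obtain ⟨l, hl, h1⟩ := h
  induction c with
  | nil => exact absurd hl List.not_mem_nil
  | cons y c ih =>
    show Ho (xT M X) (bif lb (a1 (Nat.div y 2)) NP then y :: fbc NP c else trv ++ fbc NP c)
    rcases List.mem_cons.1 hl with rfl | hl
    · cases h2 : lb (a1 (Nat.div l 2)) NP
      · rw [cond_false]
        obtain ⟨a, ha, h3⟩ := ho_trv (xT M X)
        exact ⟨a, List.mem_append_left _ ha, h3⟩
      · rw [cond_true]
        exact ⟨l, List.mem_cons_self, (lv_xT (lb_iff.1 h2)).2 h1⟩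
    · obtain ⟨a, ha, h3⟩ := ih hl
      cases lb (a1 (Nat.div y 2)) NP
      · rw [cond_false]
        exact ⟨a, List.mem_append_right _ ha, h3⟩
      · rw [cond_true]
        exact ⟨a, List.mem_cons_of_mem _ ha, h3⟩

/-- the clauses of the family (even numbers) and the laws of the monitors of events (odd numbers) -/
def famE (NP nm : ℕ) (Es Ls : List (List ℕ)) (fam : ℕ → List ℕ) (c : ℕ) : List ℕ :=
  bif Nat.beq (Nat.mod c 2) 0 then fbc NP (fam (Nat.div c 2)) else evC NP nm Es Ls (Nat.div c 2)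

theorem famE_ho (hNP : NP ≤ 4095) {nm : ℕ} {Es Ls : List (List ℕ)} {fam : ℕ → List ℕ}
    (hM : MdlX B (XE B nm Es) F M) (hF : C F) (hfam : ∀ M0, Mdl B F M0 → ∀ c, Ho M0 (fam c))
    (hL : ∀ i E2, (i :: E2) ∈ Ls → PL B C (nthD Es i) E2) (c : ℕ) : Ho M (famE NP nm Es Ls fam c) := by
  unfold famE
  cases Nat.beq (Nat.mod c 2) 0
  · rw [cond_false]
    exact evC_ho hNP hM hF hL _
  · rw [cond_true]
    obtain ⟨M0, X, h1, rfl⟩ := hM.base
    exact fbc_ho (hfam M0 h1 _)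

/-- certified pattern with monitors of the events `Es` and pair lemmas `Ls` -/
def CrtE (NP NW TB TC nm : ℕ) (Es Ls : List (List ℕ)) (fam : ℕ → List ℕ) (P : List ℕ) : Prop :=
  ∃ (cs : List ℕ) (I : List (List ℕ)), PatH NP NW TB TC nm (cs.map (famE NP nm Es Ls fam)) P I

/-- **patterns which are certified with monitors of events are dead**; the pair lemmas and the family may use the
pattern -/
theorem dead_crtE (B : Tb NP NW TB TC) (hNP : NP ≤ 4095) (hC : ∀ F, C F → FOk (kap TC) (cxv NW TC) F) {nm : ℕ}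
    {Es Ls : List (List ℕ)} {fam : ℕ → List ℕ} {P : List ℕ} (hv : Vl (Gp NP TC) (Ce NW TC) P)
    (hfam : ∀ F M, CP TC C P F → Mdl B F M → ∀ c, Ho M (fam c))
    (hL : ∀ i E2, (i :: E2) ∈ Ls → PL B (CP TC C P) (nthD Es i) E2) (H : CrtE NP NW TB TC nm Es Ls fam P) :
    Dead (kap TC) C P := by
  obtain ⟨cs, I, hI⟩ := H
  refine dead_of_ev (B := B) (Es := Es) hC hNP (fun F M hF hM c hc => ?_) hv hI
  obtain ⟨i, -, rfl⟩ := List.mem_map.1 hc
  exact famE_ho hNP hM hF (fun M0 h0 => hfam F M0 hF h0) hL i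

end

/-! ### three classes, 163 points -/

section
variable {C : Fr → Prop}

/-- the clauses of a pair lemma, code `k + 4 i` (`RunP.e3F`), `k = 3` : `n55K` -/
def e73 (fam : ℕ → List ℕ) (E1 E2 : List ℕ) : ℕ → List ℕ :=
  e3F 73 73 163 TF.TC MK.T3.f1 MK.T3.f2 fam (n55K 3 163 MK.T3.TB) E1 E2

/-- **A pair lemma from a query of three classes (163 points).** -/
theorem pl73 {fam : ℕ → List ℕ} {E1 E2 : List ℕ}
    (hfam : ∀ F M, C F → Mdl (tb (le_refl 73)) F M → ∀ c, Ho M (fam c)) (h55 : ∀ F, C F → N55 F.T)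
    (ok1 : okc 1 73 73 163 TF.TC MK.T3.f1 E1 = true) (ok2 : okc 2 73 73 163 TF.TC MK.T3.f2 E2 = true) {cs : List ℕ}
    (hq : Qy3 163 163 MK.T3.TB (cs.map (e73 fam E1 E2))) : PL (tb (le_refl 73)) C E1 E2 :=
  pl_of_3 (MK.T3.tb 163 le_rfl) MK.T3.e1 MK.T3.e2 MK.T3.e12 hfam (fun F M hF hM c => by
    obtain ⟨Y, a, hR⟩ := rd3 hM
    exact n55K_ho hR (h55 F hF) c) ok1 ok2 hq

/-- a word of the block (5, 4), `fam` = all clauses of two classes (`EXw xs ++ uns P`, images, `n55C`) -/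
theorem word_E {nm : ℕ} {Es Ls : List (List ℕ)} {fam : ℕ → List ℕ} {P : List ℕ}
    (hv : Vl (Gp 73 TF.TC) (Ce 73 TF.TC) P)
    (hfam : ∀ F M, CP TF.TC (CW N55 5 4 73 TF.TC) P F → Mdl (tb (le_refl 73)) F M → ∀ c, Ho M (fam c))
    (hL : ∀ i E2, (i :: E2) ∈ Ls → PL (tb (le_refl 73)) (CP TF.TC (CW N55 5 4 73 TF.TC) P) (nthD Es i) E2)
    (H : CrtE 73 73 TF.TB TF.TC nm Es Ls fam P) : Dead (kap TF.TC) (CW N55 5 4 73 TF.TC) P :=
  dead_crtE (tb (le_refl 73)) (by norm_num) (fun _ hF => hF.cq.cn.ok) hv hfam hL H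

/-- all clauses of two classes for a word of the block (5, 4) : base clauses and units, images of `t1`, the function
`f` -/
def famW (xs P : List ℕ) (t1 : PTr) (f : ℕ → List ℕ) : ℕ → List ℕ := mX2 (Fam.EXw xs) P t1 PX 120 TG f

theorem famW_ho {xs P : List ℕ} {t1 : PTr} {f : ℕ → List ℕ} (ht1 : Fam.DQ N55 t1) (hx : ∀ x ∈ xs, Gp 73 TF.TC x)
    (hf : ∀ F (M : Md 2 73 73 (nbf 2 TF.TB)), CW N55 5 4 73 TF.TC F → Mdl (tb (le_refl 73)) F M → ∀ c, Ho M (f c))
    (hv : Vl (Gp 73 TF.TC) (Ce 73 TF.TC) P) (F : Fr) (M : Md 2 73 73 (nbf 2 TF.TB))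
    (hF : CP TF.TC (CW N55 5 4 73 TF.TC) P F) (hM : Mdl (tb (le_refl 73)) F M) (c : ℕ) :
    Ho M (famW xs P t1 f c) := by
  obtain ⟨hF, hP⟩ := hF
  exact sel4_ho (bsC_ho (Fam.ho_EXw hx hF hM) fun l hl => (hM.lv (hv l hl)).2 (hP l hl))
    (imT_ho BlkS.tabs73 hM hF.cq (gA_ok BlkS.tabs73 (fun _ h => h.rot BlkS.tabs73 le_rfl)
      fun _ h => h.mir inv_n55 BlkS.tabs73 le_rfl) (okPTQ_of BlkS.okN5) ht1) (hf F M hF hM) (fun _ => ho_trv M) c

end

end Vale.Agent.P032.H357.PairP
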