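import Vale.Agent.P032.H357.Ray
import Vale.Agent.P032.H892.SixEv

/-!
# P032: the exact ray rules in angles of 60 degrees

`rd θ` : the unit vector at the angle `θ` (unit 60 degrees), `co t = cos (t * 60 degrees)`.

* `r1_rd`, `r1_par_rd` : R1 between `p` and `p + rd φ`,
* `r1_dr` : R1 for a limit direction at `z`,
* `arc_rd`, `two_rd`, `tan_rd` : R2 for the half arcs of `S(z)` at `pt z τ`,
* `outF_rd`, `inF_rd` : one sided colours at `pt z τ`.
-/

open Set Filter Topology Metric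

noncomputable section

namespace Vale.Agent.P032.H357

open Vale.Agent.P032.Six Vale.Agent.P032.Words Vale.Agent.P032.S5.H767 Vale.Agent.P032.H892

variable {U : Fin 6 → Set ℂ} {T : ℂ → Set (Fin 6)} {z : ℂ}

/-- unit vector at the angle `θ` in units of 60 degrees -/
def rd (θ : ℝ) : ℂ := cis (θ * (Real.pi / 3))

/-- cosine in units of 60 degrees -/
def co (t : ℝ) : ℝ := Real.cos (t * (Real.pi / 3))

theorem co_neg (t : ℝ) : co (-t) = co t := by
  unfold co; rw [neg_mul, Real.cos_neg]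

theorem ip_cis (α β : ℝ) : ip (cis α) (cis β) = Real.cos (α - β) := by
  unfold ip; rw [cis_re, cis_im, cis_re, cis_im, Real.cos_sub]

theorem ip_rd (θ φ : ℝ) : ip (rd θ) (rd φ) = co (θ - φ) := by
  unfold rd co; rw [ip_cis]; congr 1; ring

theorem ip_neg_right (a b : ℂ) : ip a (-b) = -ip a b := by
  unfold ip; simp; ring

theorem rd_ne (θ : ℝ) : rd θ ≠ 0 := by
  intro h
  have h1 := norm_cis (θ * (Real.pi / 3))
  unfold rd at h
  rw [h, norm_zero] at h1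
  exact zero_ne_one h1

theorem norm_rd (θ : ℝ) : ‖rd θ‖ = 1 := norm_cis _

theorem dist_add_rd (p : ℂ) (φ : ℝ) : dist (p + rd φ) p = 1 := by
  rw [dist_eq_norm, add_sub_cancel_left, norm_rd]

theorem dist_rd (p : ℂ) (φ : ℝ) : dist p (p + rd φ) = 1 := by rw [dist_comm, dist_add_rd]

theorem outR_near {p : ℂ} {θ φ : ℝ} (h : co (θ - φ) ≤ 0) : OutR p (rd θ) (p + rd φ) := by
  refine OutR.of_nonneg (dist_rd p φ) ?_ (rd_ne θ)
  have e : p - (p + rd φ) = -rd φ := by ring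
  rw [e, ip_neg_right, ip_rd]; linarith

theorem inR_near {p : ℂ} {θ φ : ℝ} (h : 0 < co (θ - φ)) : InR p (rd θ) (p + rd φ) := by
  refine InR.of_neg (dist_rd p φ) ?_
  have e : p - (p + rd φ) = -rd φ := by ring
  rw [e, ip_neg_right, ip_rd]; linarith

theorem outR_far {p : ℂ} {θ φ : ℝ} (h : 0 ≤ co (θ - φ)) : OutR (p + rd φ) (rd θ) p := by
  refine OutR.of_nonneg (dist_add_rd p φ) ?_ (rd_ne θ)
  rw [add_sub_cancel_left, ip_rd]; exact h

theorem inR_far {p : ℂ} {θ φ : ℝ} (h : co (θ - φ) < 0) : InR (p + rd φ) (rd θ) p := by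
  refine InR.of_neg (dist_add_rd p φ) ?_
  rw [add_sub_cancel_left, ip_rd]; exact h

/-- **R1** between `p` and `p + rd φ` -/
theorem r1_rd (h : Irr U T) {p : ℂ} {θ θ' φ : ℝ} {c : Fin 6}
    (hs : (co (θ - φ) ≤ 0 ∧ co (θ' - φ) < 0) ∨ (0 < co (θ - φ) ∧ 0 ≤ co (θ' - φ)))
    (hd : Dx T (p + rd φ) (rd θ') c) : ∃ c', c' ≠ c ∧ Dx T p (rd θ) c' := by
  refine h.dx_ray ?_ hd
  rcases hs with ⟨a, b⟩ | ⟨a, b⟩
  · exact Or.inl ⟨outR_near a, inR_far b⟩
  · exact Or.inr ⟨inR_near a, outR_far b⟩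

theorem r1_par_rd (h : Irr U T) {p : ℂ} {θ φ : ℝ} {c : Fin 6}
    (hd : Dx T (p + rd φ) (rd θ) c) : ∃ c', c' ≠ c ∧ Dx T p (rd θ) c' :=
  h.dx_par (dist_rd p φ) hd

/-- polar directions near `θ` are on the side given by the sign of the cosine -/
theorem side_po {θ φ : ℝ} (z : ℂ) (hne : co (θ - φ) ≠ 0) :
    ∀ᶠ q : ℝ × ℝ in 𝓝 ((0 : ℝ), θ), 0 < q.1 →
      (dist (po z q) (z + rd φ) - 1) * co (θ - φ) < 0 := by
  set A := co (θ - φ) with hA
  have hc : Continuous fun q : ℝ × ℝ => A * (2 * co (q.2 - φ) - q.1) := by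
    unfold co; fun_prop
  have h0 : 0 < A * (2 * co (((0 : ℝ), θ).2 - φ) - ((0 : ℝ), θ).1) := by
    simp only [sub_zero]
    rw [← hA]
    have := mul_self_pos.2 hne
    nlinarith
  filter_upwards [hc.continuousAt.eventually (Ioi_mem_nhds h0)] with q hq hq1
  have hq : 0 < A * (2 * co (q.2 - φ) - q.1) := hq
  have e1 : dist (po z q) (z + rd φ) ^ 2 = 1 - q.1 * (2 * co (q.2 - φ) - q.1) := by
    have h3 := sq_line z (rd q.2) (z + rd φ) q.1
    have e2 : po z q = z + q.1 * rd q.2 := rfl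
    rw [e2, h3, dist_rd, add_sub_cancel_left, ip_rd, ip_rd, sub_self]
    unfold co
    rw [zero_mul, Real.cos_zero]
    ring
  have h4 := dist_nonneg (x := po z q) (y := z + rd φ)
  set D := dist (po z q) (z + rd φ) with hD
  have h5 : (D - 1) * (D + 1) = -(q.1 * (2 * co (q.2 - φ) - q.1)) := by nlinarith
  have h6 : (D - 1) * A * (D + 1) < 0 := by
    have : (D - 1) * A * (D + 1) = -(q.1 * (A * (2 * co (q.2 - φ) - q.1))) := by
      calc (D - 1) * A * (D + 1) = A * ((D - 1) * (D + 1)) := by ring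
        _ = _ := by rw [h5]; ring
    rw [this]
    have := mul_pos hq1 hq
    linarith
  by_contra hcon
  push Not at hcon
  nlinarith

/-- **R1** for a limit direction at `z` and an exact ray at `z + rd φ` -/
theorem r1_dr (h : Irr U T) {θ θ' φ : ℝ} {c : Fin 6} (hθ : θ ∈ Dr T z c)
    (hs : (0 < co (θ - φ) ∧ 0 ≤ co (θ' - φ)) ∨ (co (θ - φ) < 0 ∧ co (θ' - φ) < 0)) :
    ∃ c', c' ≠ c ∧ Dx T (z + rd φ) (rd θ') c' := by
  set p := z + rd φ with hp
  have hne : co (θ - φ) ≠ 0 := by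
    rcases hs with ⟨a, _⟩ | ⟨a, _⟩
    · exact a.ne'
    · exact a.ne
  have hfreq := (mem_dr.1 hθ).and_eventually (side_po z hne)
  apply exists_dx_of
  rw [freq_gt_iff]
  intro ε hε
  obtain ⟨ε1, hε1, h1⟩ : ∃ ε1 > 0, ∀ r : ℝ, 0 < r → r < ε1 →
      ((1 < dist (p + r * rd θ') z ∧ 0 < co (θ - φ)) ∨
        (dist (p + r * rd θ') z < 1 ∧ co (θ - φ) < 0)) := by
    rcases hs with ⟨a, b⟩ | ⟨a, b⟩
    · obtain ⟨e, he, h2⟩ := ev_gt_iff.1 (outR_far (p := z) (φ := φ) b)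
      exact ⟨e, he, fun r hr1 hr2 => Or.inl ⟨h2 r hr1 hr2, a⟩⟩
    · obtain ⟨e, he, h2⟩ := ev_gt_iff.1 (inR_far (p := z) (φ := φ) b)
      exact ⟨e, he, fun r hr1 hr2 => Or.inr ⟨h2 r hr1 hr2, a⟩⟩
  set ρ2 := min ε ε1 / 2 with hρ2
  have hρ0 : 0 < ρ2 := by have := lt_min hε hε1; linarith
  have hρε : ρ2 < ε := by have := min_le_left ε ε1; have := lt_min hε hε1; linarith
  have hρε1 : ρ2 < ε1 := by have := min_le_right ε ε1; have := lt_min hε hε1; linarith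
  have h2 := h1 ρ2 hρ0 hρε1
  have hc : Tendsto (fun q : ℝ × ℝ => dist (p + ρ2 * rd θ') (po z q)) (𝓝 ((0 : ℝ), θ))
      (𝓝 (dist (p + ρ2 * rd θ') z)) := by
    have h3 := (continuous_const.dist (continuous_po z) :
      Continuous fun q : ℝ × ℝ => dist (p + ρ2 * rd θ') (po z q)).tendsto ((0 : ℝ), θ)
    rw [po_zero] at h3
    exact h3
  obtain ⟨q, hcq, h5⟩ : ∃ q : ℝ × ℝ, c ∈ T (po z q) ∧
      ((1 < dist (p + ρ2 * rd θ') (po z q) ∧ dist p (po z q) < 1) ∨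
        (dist (p + ρ2 * rd θ') (po z q) < 1 ∧ 1 < dist p (po z q))) := by
    rcases h2 with ⟨a, b⟩ | ⟨a, b⟩
    · obtain ⟨q, ⟨h6, h7⟩, h8⟩ := (hfreq.and_eventually (hc.eventually (Ioi_mem_nhds a))).exists
      have h9 := h7 h6.1
      refine ⟨q, h6.2, Or.inl ⟨h8, ?_⟩⟩
      rw [dist_comm]
      by_contra hcon
      push Not at hcon
      nlinarith
    · obtain ⟨q, ⟨h6, h7⟩, h8⟩ := (hfreq.and_eventually (hc.eventually (Iio_mem_nhds a))).exists
      have h9 := h7 h6.1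
      refine ⟨q, h6.2, Or.inr ⟨h8, ?_⟩⟩
      rw [dist_comm]
      by_contra hcon
      push Not at hcon
      nlinarith
  have hcont : ContinuousOn (fun ρ : ℝ => dist (p + ρ * rd θ') (po z q)) (uIcc 0 ρ2) := by fun_prop
  have hmem : (1 : ℝ) ∈ uIcc (dist (p + ((0 : ℝ) : ℂ) * rd θ') (po z q))
      (dist (p + ρ2 * rd θ') (po z q)) := by
    rw [Complex.ofReal_zero, zero_mul, add_zero]
    rcases h5 with ⟨a, b⟩ | ⟨a, b⟩
    · rw [uIcc_of_le (by linarith)]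
      exact ⟨b.le, a.le⟩
    · rw [uIcc_of_ge (by linarith)]
      exact ⟨a.le, b.le⟩
  obtain ⟨ρ, hρ, hρ1⟩ := intermediate_value_uIcc hcont hmem
  rw [uIcc_of_le hρ0.le] at hρ
  have hρpos : 0 < ρ := by
    rcases hρ.1.lt_or_eq with h6 | h6
    · exact h6
    · exfalso
      rw [← h6] at hρ1
      simp only [Complex.ofReal_zero, zero_mul, add_zero] at hρ1
      rcases h5 with ⟨_, b⟩ | ⟨_, b⟩ <;> linarith
  refine ⟨ρ, hρpos, lt_of_le_of_lt hρ.2 hρε, ?_⟩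
  by_contra hcon
  push Not at hcon
  have hTp : T (p + ρ * rd θ') ⊆ {c} := fun m hm => by
    by_contra hmc
    exact hcon m hmc hm
  have hU : p + ρ * rd θ' ∈ U c := h.mem_of_single hTp
  exact h.mx.free c _ hU _ (h.sub _ hcq) hρ1

theorem rd_tan (z : ℂ) (τ : ℝ) {s : ℝ} (hs : s = 1 ∨ s = -1) :
    (s : ℂ) * (Complex.I * (pt z τ - z)) = rd (τ + s * (3 / 2)) := by
  have e0 : pt z τ - z = rd τ := by unfold pt rd; ring
  have e1 : rd (τ + s * (3 / 2)) = rd τ * cis (s * (Real.pi / 2)) := by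
    unfold rd; rw [← Six.cis_add]; congr 1; ring
  rw [e0, e1]
  have e2 : cis (s * (Real.pi / 2)) = (s : ℂ) * Complex.I := by
    apply Complex.ext
    · rw [cis_re]
      rcases hs with h | h <;> subst h <;> simp [Real.cos_neg]
    · rw [cis_im]
      rcases hs with h | h <;> subst h <;> simp [Real.sin_neg]
  rw [e2]; ring

theorem pt_sub (z : ℂ) (τ : ℝ) : pt z τ = z + rd τ := rfl

/-- **R2** for the half arc of `S(z)` at `pt z τ` and the point `pt z τ + rd φ` -/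
theorem arc_rd (h : Irr U T) {τ φ θ' s : ℝ} {i : Fin 6} (hs1 : s = 1 ∨ s = -1)
    (hs : (co (τ + s * (3 / 2) - φ) < 0 ∧ co (θ' - φ) < 0) ∨
      (0 < co (τ + s * (3 / 2) - φ) ∧ 0 ≤ co (θ' - φ)))
    (hc : Hc U z (pt z τ) s i) : ¬ Dx T (pt z τ + rd φ) (rd θ') i := by
  have hvy : dist (pt z τ) (pt z τ + rd φ) = 1 := dist_rd _ _
  have e : ip (s * (Complex.I * (pt z τ - z))) (pt z τ - (pt z τ + rd φ)) =
      -co (τ + s * (3 / 2) - φ) := by
    rw [rd_tan z τ hs1]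
    have e1 : pt z τ - (pt z τ + rd φ) = -rd φ := by ring
    rw [e1, ip_neg_right, ip_rd]
  refine h.not_dx_ray_arc ?_ hc
  rcases hs with ⟨a, b⟩ | ⟨a, b⟩
  · exact Or.inl ⟨OutA.of_pos hvy (by rw [e]; linarith), inR_far b⟩
  · exact Or.inr ⟨InA.of_neg hvy (by rw [e]; linarith), outR_far b⟩

/-- **R2** at the point `2 v - z`, `v = pt z τ` -/
theorem two_rd (h : Irr U T) {τ θ' s : ℝ} {i : Fin 6} (hs1 : s = 1 ∨ s = -1)
    (hs : co (θ' - τ) < 0) (hc : Hc U z (pt z τ) s i) : ¬ Dx T (pt z τ + rd τ) (rd θ') i := by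
  refine h.not_dx_ray_arc (Or.inl ⟨?_, inR_far hs⟩) hc
  have e : pt z τ + rd τ = 2 * pt z τ - z := by rw [pt_sub]; ring
  rw [e]
  exact OutA.of_two (dist_pt z τ) hs1

theorem co_three_half (s : ℝ) (hs1 : s = 1 ∨ s = -1) : co (s * (3 / 2)) = 0 := by
  unfold co
  have e : s * (3 / 2) * (Real.pi / 3) = s * (Real.pi / 2) := by ring
  rw [e]
  rcases hs1 with h | h <;> subst h
  · rw [one_mul, Real.cos_pi_div_two]
  · rw [neg_one_mul, Real.cos_neg, Real.cos_pi_div_two]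

/-- the exact tangent ray at `z` -/
theorem tan_rd (h : Irr U T) {τ s : ℝ} {i : Fin 6} (hs1 : s = 1 ∨ s = -1)
    (hc : Hc U z (pt z τ) s i) : ¬ Dx T z (rd (τ + s * (3 / 2))) i := by
  refine h.not_dx_ray_tan (dist_pt z τ) hs1 ?_ ?_ hc
  · have e : pt z τ - z = rd τ := by rw [pt_sub]; ring
    rw [e, ip_rd]
    have : τ + s * (3 / 2) - τ = s * (3 / 2) := by ring
    rw [this, co_three_half s hs1]
  · rw [rd_tan z τ hs1]
    exact ip_self_pos (rd_ne _)

/-- a colour absent outside `S(z)` near `pt z τ` is not present in the outer rays, tangent rays included -/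
theorem outF_rd (h : Irr U T) {τ θ : ℝ} {i : Fin 6} (hs : 0 ≤ co (θ - τ))
    (hc : OutF U z (pt z τ) i) : ¬ Dx T (pt z τ) (rd θ) i :=
  h.not_dx_outR hc (by rw [pt_sub]; exact outR_far hs)

/-- a colour absent inside `S(z)` near `pt z τ` is not present in the inner rays -/
theorem inF_rd (h : Irr U T) {τ θ : ℝ} {i : Fin 6} (hs : co (θ - τ) < 0)
    (hc : InF U z (pt z τ) i) : ¬ Dx T (pt z τ) (rd θ) i :=
  h.not_dx_inR hc (by rw [pt_sub]; exact inR_far hs)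

end Vale.Agent.P032.H357
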