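import Vale.Agent.P032.H357.MdT
import Vale.Agent.P032.H357.MdB
import Vale.Agent.P032.H61.GenW

/-!
# P032: the run of the states between two directions of a class

Frame: base point `z`, class 0 = the directions `u1 + m`, moving class = the directions `u + m`, `u ∈ (u1, u1 + 1)`,
points `Yt (t2 u1 u) 2 TC z x` (table `TC`), word points `x < NW`, fixed centres = word points of class 0
(`Cn NW TC`), right state `s0` at `u1`, left state `s1` at `u1 + 1` (letters of the fixed centres).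

* `Leg` : the models of all times `u` and all letters which extend `s0, s1`,
* `Rl P` : the class 0 literals `P` are true in such a model; `lv_transfer` : then in all,
* state literals with the four readings `rd 0` (start), `rd 1` (before), `rd 2` (after), `rd 3` (end),
* `pdr` : **a set of clauses of states which holds at the start, is kept by every transition and fails at the end
  shows that `P` is not realised.**
-/

open Set Filter Topology Metric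

noncomputable section

namespace Vale.Agent.P032.H357.MK

open Vale.Agent.P032.Six Vale.Agent.P032.H892 Vale.Agent.P032.H913 Vale.Agent.P032.S5.H767 Vale.Agent.P032.H61
  Vale.Agent.P032.H357
open Vale.Agent.P032.H820.K (nbf Md En a0 a1 a2 a3 a4 av lv ps ng Ho av0 av1 av2 av3 av4 av5 av6 av9 av10 av11 av12
  av13 av14 av15)

/-! ### the frame -/

/-- the hypotheses on the map -/
structure Hy (U : Fin 6 → Set ℂ) (T : ℂ → Set (Fin 6)) : Prop where
  h : Irr U T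
  ct : ∀ y, Ctn U T y
  h5 : ∀ y, ∃ i, i ∉ T y
  l3 : LF3 U T
  ln : Ln U T

/-- the point `x` is in class 0 -/
def fx0 (TC x : ℕ) : Bool := Nat.beq (cf 2 TC x 2) 8 && Nat.beq (cf 2 TC x 3) 8

/-- the checks of the tables -/
structure Tb (NP NW TB TC : ℕ) : Prop where
  hNP : NP ≤ 4096
  hNW : NW ≤ NP
  ht : tchk 2 NP TB TC = true

/-- the fixed centres: word points of class 0 -/
def Cn (NW TC : ℕ) : Type := {x : ℕ // x < NW ∧ fx0 TC x = true}

instance (NW TC : ℕ) : Finite (Cn NW TC) :=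
  Finite.of_injective (fun x : Cn NW TC => (⟨x.1, x.2.1⟩ : Fin NW)) fun x y h => by
    apply Subtype.ext
    exact congrArg Fin.val h

/-- the points of class 0 -/
def Yc (u1 : ℝ) (TC : ℕ) (z : ℂ) (x : ℕ) : ℂ :=
  z + (((cf 2 TC x 0 : ℂ) - 8) + ((cf 2 TC x 1 : ℂ) - 8) * dir 1) * dir u1

theorem t2_zero (u1 u : ℝ) : t2 u1 u 0 = u1 := by
  have := t2_even u1 u 0
  simpa using this

theorem t2_one (u1 u : ℝ) : t2 u1 u 1 = u := by
  have := t2_odd u1 u 0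
  simpa using this

theorem yt_yc {u1 u : ℝ} {TC x : ℕ} {z : ℂ} (h : fx0 TC x = true) : Yt (t2 u1 u) 2 TC z x = Yc u1 TC z x := by
  unfold fx0 at h
  rw [Bool.and_eq_true, nbeq, nbeq] at h
  unfold Yt Yc
  rw [Finset.sum_range_succ, Finset.sum_range_one, t2_zero]
  have e2 : cf 2 TC x (2 * 1) = 8 := h.1
  have e3 : cf 2 TC x (2 * 1 + 1) = 8 := h.2
  rw [e2, e3]
  push_cast
  simp

/-- the word points -/
def Yw (u1 u : ℝ) (TC : ℕ) (z : ℂ) (NW : ℕ) : Fin NW → ℂ := fun j => Yt (t2 u1 u) 2 TC z j.val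

/-- the fixed centres -/
def Zf (u1 : ℝ) (TC : ℕ) (z : ℂ) (NW : ℕ) : Cn NW TC → ℂ := fun c => Yc u1 TC z c.val

/-- four states of the word points -/
structure St4 (U : Fin 6 → Set ℂ) (T : ℂ → Set (Fin 6)) {J : Type*} (Y : J → ℂ) (u1 u : ℝ)
    (s0 s1 L R : J × Fin 6 → Fin 6 × Fin 6) : Prop where
  h0 : s0 ∈ RSt DO (IOs U T (nX Y) nO) u1
  h1 : s1 ∈ LSt DO (IOs U T (nX Y) nO) (u1 + 1)
  hL : L ∈ LSt DO (IOs U T (nX Y) nO) u
  hR : R ∈ RSt DO (IOs U T (nX Y) nO) u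

section
variable {U : Fin 6 → Set ℂ} {T : ℂ → Set (Fin 6)} {NP NW TB TC : ℕ}

/-- **the model of four states** -/
def mS (F : Hy U T) (B : Tb NP NW TB TC) (z : ℂ) (σ : Equiv.Perm (Fin 6)) {u1 u : ℝ} (hu : u ∈ Ioo u1 (u1 + 1))
    {s0 s1 L R : Fin NW × Fin 6 → Fin 6 × Fin 6} (S : St4 U T (Yw u1 u TC z NW) u1 u s0 s1 L R) :
    Md 2 NP NW (nbf 2 TB) :=
  mkMd F.h F.ct F.h5 F.ln (tick_t2 hu) σ (by norm_num) B.hNP B.hNW (Yt (t2 u1 u) 2 TC z)
    (hY_of_tchk (tick_t2 hu) z B.ht) (wd_wds S.h0 S.h1 S.hL S.hR)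

/-- the number of a fixed centre among the word points -/
def fc (c : Cn NW TC) : Fin NW := ⟨c.1, c.2.1⟩

/-- restriction to the fixed centres -/
def rs (TC : ℕ) (s : Fin NW × Fin 6 → Fin 6 × Fin 6) : Cn NW TC × Fin 6 → Fin 6 × Fin 6 :=
  fun i => s (fc i.1, i.2)

/-- the legal models for the start `s0` and the end `s1` -/
def Leg (F : Hy U T) (B : Tb NP NW TB TC) (z : ℂ) (σ : Equiv.Perm (Fin 6)) (u1 : ℝ)
    (s0 s1 : Cn NW TC × Fin 6 → Fin 6 × Fin 6) (M : Md 2 NP NW (nbf 2 TB)) : Prop :=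
  ∃ (u : ℝ) (hu : u ∈ Ioo u1 (u1 + 1)) (s0' s1' L R : Fin NW × Fin 6 → Fin 6 × Fin 6)
    (S : St4 U T (Yw u1 u TC z NW) u1 u s0' s1' L R), rs TC s0' = s0 ∧ rs TC s1' = s1 ∧ M = mS F B z σ hu S

/-- the literals `P` are realised -/
def Rl (F : Hy U T) (B : Tb NP NW TB TC) (z : ℂ) (σ : Equiv.Perm (Fin 6)) (u1 : ℝ)
    (s0 s1 : Cn NW TC × Fin 6 → Fin 6 × Fin 6) (P : List ℕ) : Prop :=
  ∃ M, Leg F B z σ u1 s0 s1 M ∧ ∀ l ∈ P, lv M l

/-! ### extension of states -/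

theorem yw_fc {u1 u : ℝ} {z : ℂ} (c : Cn NW TC) : Yw u1 u TC z NW (fc c) = Zf u1 TC z NW c := yt_yc c.2.2

/-- states of the fixed centres extend to the word points -/
theorem exists_st4 (F : Hy U T) {z : ℂ} {u1 u : ℝ}
    {s0 s1 L R : Cn NW TC × Fin 6 → Fin 6 × Fin 6} (S : St4 U T (Zf u1 TC z NW) u1 u s0 s1 L R) :
    ∃ s0' s1' L' R' : Fin NW × Fin 6 → Fin 6 × Fin 6, St4 U T (Yw u1 u TC z NW) u1 u s0' s1' L' R' ∧
      rs TC s0' = s0 ∧ rs TC s1' = s1 ∧ rs TC L' = L ∧ rs TC R' = R := by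
  let e : Fin NW → Option (Cn NW TC) := fun j =>
    if h : fx0 TC j.val = true then some ⟨j.val, j.isLt, h⟩ else none
  have he : ∀ j c, e j = some c → Yw u1 u TC z NW j = Zf u1 TC z NW c := by
    intro j c hj
    have hj : (if h : fx0 TC j.val = true then some (⟨j.val, j.isLt, h⟩ : Cn NW TC) else none) = some c := hj
    split_ifs at hj with h1
    have h2 : (⟨j.val, j.isLt, h1⟩ : Cn NW TC) = c := Option.some.inj hj
    rw [← h2]
    exact yw_fc ⟨j.val, j.isLt, h1⟩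
  have hfc : ∀ c, e (fc c) = some c := by
    intro c
    show (if h : fx0 TC c.val = true then some (⟨c.val, c.2.1, h⟩ : Cn NW TC) else none) = some c
    rw [dif_pos c.2.2]
    rfl
  obtain ⟨s0', s1', L', R', k0, k1, kL, kR, -, k⟩ := exists_wd_all F.h F.l3 he S.h0 S.h1 S.hL S.hR
  refine ⟨s0', s1', L', R', ⟨k0, k1, kL, kR⟩, ?_, ?_, ?_, ?_⟩
  · funext i; exact (k _ _ (hfc i.1) i.2).1
  · funext i; exact (k _ _ (hfc i.1) i.2).2.1
  · funext i; exact (k _ _ (hfc i.1) i.2).2.2.1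
  · funext i; exact (k _ _ (hfc i.1) i.2).2.2.2

theorem leg_of (F : Hy U T) (B : Tb NP NW TB TC) {z : ℂ} (σ : Equiv.Perm (Fin 6)) {u1 u : ℝ}
    (hu : u ∈ Ioo u1 (u1 + 1)) {s0' s1' L R : Fin NW × Fin 6 → Fin 6 × Fin 6}
    (S : St4 U T (Yw u1 u TC z NW) u1 u s0' s1' L R) :
    Leg F B z σ u1 (rs TC s0') (rs TC s1') (mS F B z σ hu S) := ⟨u, hu, s0', s1', L, R, S, rfl, rfl, rfl⟩

/-! ### literals of class 0 -/

/-- atoms of class 0 -/
def ok0 (NW TC n : ℕ) : Bool :=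
  fx0 TC (Nat.mod (Nat.div n 16) 4096) &&
  (bif Nat.ble (Nat.mod n 16) 1 then
      Nat.ble 1 (Nat.mod (Nat.div n 16777216) 8) && Nat.beq (Nat.mod (Nat.mod (Nat.div n 65536) 256) 2) 0
    else bif Nat.ble (Nat.mod n 16) 3 then Nat.beq (Nat.mod (Nat.mod (Nat.div n 65536) 256) 2) 0
    else bif Nat.ble (Nat.mod n 16) 6 then true
    else bif Nat.ble (Nat.mod n 16) 8 then false
    else bif Nat.ble (Nat.mod n 16) 10 then
      Nat.beq (Nat.mod (Nat.mod (Nat.div n 65536) 256) 2) 0 && Nat.ble (Nat.succ (Nat.mod (Nat.div n 16) 4096)) NW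
    else bif Nat.ble (Nat.mod n 16) 11 then Nat.ble (Nat.succ (Nat.mod (Nat.div n 65536) 256)) 6
    else bif Nat.ble (Nat.mod n 16) 13 then false
    else true)

theorem ok0_spec {NW TC n : ℕ} (h : ok0 NW TC n = true) : fx0 TC (a1 n) = true ∧
    (((a0 n = 0 ∨ a0 n = 1) ∧ a3 n ≠ 0 ∧ a2 n % 2 = 0) ∨ ((a0 n = 2 ∨ a0 n = 3) ∧ a2 n % 2 = 0) ∨
      (a0 n = 4 ∨ a0 n = 5 ∨ a0 n = 6) ∨ ((a0 n = 9 ∨ a0 n = 10) ∧ a2 n % 2 = 0 ∧ a1 n < NW) ∨
      (a0 n = 11 ∧ a2 n < 6) ∨ (a0 n = 14 ∨ a0 n = 15)) := by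
  unfold ok0 at h
  rw [Bool.and_eq_true] at h
  obtain ⟨h1, h2⟩ := h
  refine ⟨h1, ?_⟩
  have e0 : Nat.mod n 16 = a0 n := rfl
  have e1 : Nat.mod (Nat.div n 16) 4096 = a1 n := rfl
  have e2 : Nat.mod (Nat.div n 65536) 256 = a2 n := rfl
  have e3 : Nat.mod (Nat.div n 16777216) 8 = a3 n := rfl
  have e4 : Nat.mod (a2 n) 2 = a2 n % 2 := rfl
  rw [e0, e1, e2, e3, e4] at h2
  have h16 : a0 n < 16 := Nat.mod_lt _ (by norm_num)
  simp only [Bool.cond_eq_ite, Nat.ble_eq, Nat.succ_eq_add_one] at h2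
  split_ifs at h2 with k1 k2 k3 k4 k5 k6 k7
  · rw [Bool.and_eq_true, Nat.ble_eq, nbeq] at h2
    left; exact ⟨by omega, by omega, h2.2⟩
  · rw [nbeq] at h2
    right; left; exact ⟨by omega, h2⟩
  · right; right; left; omega
  · rw [Bool.and_eq_true, Nat.ble_eq, nbeq] at h2
    right; right; right; left; exact ⟨by omega, h2.1, h2.2⟩
  · rw [Nat.ble_eq] at h2
    right; right; right; right; left; exact ⟨by omega, h2⟩
  · right; right; right; right; right; omega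

/-! ### the values in the models -/

section
variable {F : Hy U T} {B : Tb NP NW TB TC} {z : ℂ} {σ : Equiv.Perm (Fin 6)} {u1 u : ℝ} {hu : u ∈ Ioo u1 (u1 + 1)}
  {s0 s1 L R : Fin NW × Fin 6 → Fin 6 × Fin 6} {S : St4 U T (Yw u1 u TC z NW) u1 u s0 s1 L R} {x t sd io : ℕ}

/-- the number of an inner or outer colour -/
def nio (σ : Equiv.Perm (Fin 6)) (p : Fin 6 × Fin 6) (io : ℕ) : ℕ := no σ (if io = 0 then p.1 else p.2)

theorem w_even (hx : x < NW) (hf : fx0 TC x = true) (ht : t % 2 = 0) : (mS F B z σ hu S).W x t sd io =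
    nio σ (if sd = 1 then rs TC s0 (⟨x, hx, hf⟩, f6 (t / 2)) else rs TC s1 (⟨x, hx, hf⟩, f6 (t / 2 + 5))) io := by
  show nC σ 2 NW (fun _ => wds s0 s1 L R) x t sd io = _
  rw [nC_eq hx]
  unfold wds
  simp only [if_pos ht]
  rfl

theorem w_odd (hx : x < NW) (hf : fx0 TC x = true) (ht : t % 2 ≠ 0) : (mS F B z σ hu S).W x t sd io =
    nio σ (if sd = 1 then rs TC R (⟨x, hx, hf⟩, f6 (t / 2)) else rs TC L (⟨x, hx, hf⟩, f6 (t / 2))) io := by
  show nC σ 2 NW (fun _ => wds s0 s1 L R) x t sd io = _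
  rw [nC_eq hx]
  unfold wds
  simp only [if_neg ht]
  rfl

end

theorem cl_tr {S : Set ℂ} {x : ℂ} {a a' : ℕ → ℝ} {k j : ℕ} (hk : k ≠ 0) (h : a j = a' j) :
    Cl S x a k j ↔ Cl S x a' k j := by
  unfold Cl ra
  rw [if_neg hk, if_neg hk, h]

theorem if_tr {p p' : Prop} {_ : Decidable p} {_ : Decidable p'} {w b : ℕ} (h : p ↔ p') :
    (if p then w else 6) = b ↔ (if p' then w else 6) = b := by simp only [h]

theorem t2_tr {u1 u v : ℝ} {j : ℕ} (h : j % 2 = 0) : t2 u1 u j = t2 u1 v j := by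
  unfold t2
  rw [if_pos h, if_pos h]

theorem tick0 {u1 u : ℝ} (hu : u ∈ Ioo u1 (u1 + 1)) (x m : ℕ) (hm : m < 6) (h : Irr U T) (z : ℂ) (TC : ℕ) (q : Fin 6) :
    (Cl (Sq T q) (Yt (t2 u1 u) 2 TC z x) (t2 u1 u) 0 (2 * m) ∨ Cl (Sq T q) (Yt (t2 u1 u) 2 TC z x) (t2 u1 u) 0 (2 * m + 1) ∨
      ∃ k < 3, Cl (Sq T q) (Yt (t2 u1 u) 2 TC z x) (t2 u1 u) (k + 1) (2 * m + 1)) ↔
    cS (shD T (Yt (t2 u1 u) 2 TC z)) u1 x ⟨m, hm⟩ q := by
  have h1 := cs_iff (Z := Yt (t2 u1 u) 2 TC z) (c := x) (q := q) (tick_t2 hu) (m := ⟨m, hm⟩) h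
  rw [t2_zero] at h1
  exact h1.symm

theorem cs_tr {J J' : Type} {Z : J → ℂ} {Z' : J' → ℂ} {j : J} {j' : J'} (h : Z j = Z' j') (u1 : ℝ) (m q : Fin 6) :
    cS (shD T Z) u1 j m q ↔ cS (shD T Z') u1 j' m q := by
  unfold cS shD
  rw [h]

section
variable {F : Hy U T} {B : Tb NP NW TB TC} {z : ℂ} {σ : Equiv.Perm (Fin 6)} {u1 u v : ℝ}
  {hu : u ∈ Ioo u1 (u1 + 1)} {hv : v ∈ Ioo u1 (u1 + 1)}
  {s0 s1 L R s0' s1' L' R' : Fin NW × Fin 6 → Fin 6 × Fin 6} {S : St4 U T (Yw u1 u TC z NW) u1 u s0 s1 L R}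
  {S' : St4 U T (Yw u1 v TC z NW) u1 v s0' s1' L' R'} {n : ℕ}

/-- **atoms of class 0 have the same value in all models** -/
theorem av_transfer (e0 : rs TC s0 = rs TC s0') (e1 : rs TC s1 = rs TC s1') (h : ok0 NW TC n = true) :
    av (mS F B z σ hu S) n ↔ av (mS F B z σ hv S') n := by
  obtain ⟨hf, h⟩ := ok0_spec h
  have eY : Yt (t2 u1 u) 2 TC z (a1 n) = Yt (t2 u1 v) 2 TC z (a1 n) := by rw [yt_yc hf, yt_yc hf]
  have eT : ∀ q, (mS F B z σ hu S).T (a1 n) q ↔ (mS F B z σ hv S').T (a1 n) q := fun q => by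
    show co σ q ∈ T (Yt (t2 u1 u) 2 TC z (a1 n)) ↔ co σ q ∈ T (Yt (t2 u1 v) 2 TC z (a1 n))
    rw [eY]
  have eW : a1 n < NW → a2 n % 2 = 0 → ∀ sd io, (mS F B z σ hu S).W (a1 n) (a2 n) sd io =
      (mS F B z σ hv S').W (a1 n) (a2 n) sd io := fun h1 h2 sd io => by
    rw [w_even h1 hf h2, w_even h1 hf h2, e0, e1]
  unfold av
  rcases h with ⟨h1 | h1, h2, h3⟩ | ⟨h1 | h1, h2⟩ | (h1 | h1 | h1) | ⟨h1 | h1, h2, h3⟩ | ⟨h1, h2⟩ | (h1 | h1)
  · rw [h1]
    simp only [if_true]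
    show Cl _ (Yt (t2 u1 u) 2 TC z (a1 n)) (t2 u1 u) (a3 n) (a2 n) ↔ Cl _ (Yt (t2 u1 v) 2 TC z (a1 n)) (t2 u1 v) (a3 n) (a2 n)
    rw [eY]; exact cl_tr h2 (t2_tr h3)
  · rw [h1]
    simp only [if_true, one_ne_zero, if_false]
    show Cl _ (Yt (t2 u1 u) 2 TC z (a1 n)) (t2 u1 u) (a3 n) (a2 n) ↔ Cl _ (Yt (t2 u1 v) 2 TC z (a1 n)) (t2 u1 v) (a3 n) (a2 n)
    rw [eY]; exact cl_tr h2 (t2_tr h3)
  · rw [h1]
    norm_num
    show HI _ (Yt (t2 u1 u) 2 TC z (a1 n)) (t2 u1 u) (a2 n) ↔ HI _ (Yt (t2 u1 v) 2 TC z (a1 n)) (t2 u1 v) (a2 n)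
    unfold HI
    rw [eY, t2_tr (v := v) h2]
  · rw [h1]
    norm_num
    show HI _ (Yt (t2 u1 u) 2 TC z (a1 n)) (t2 u1 u) (a2 n) ↔ HI _ (Yt (t2 u1 v) 2 TC z (a1 n)) (t2 u1 v) (a2 n)
    unfold HI
    rw [eY, t2_tr (v := v) h2]
  · rw [h1]
    norm_num
    exact eT _
  · rw [h1]
    norm_num
    show co σ _ ∈ Pal U (Yt (t2 u1 u) 2 TC z (a1 n)) ↔ co σ _ ∈ Pal U (Yt (t2 u1 v) 2 TC z (a1 n))
    rw [eY]
  · rw [h1]
    norm_num
    show Yt (t2 u1 u) 2 TC z (a1 n) ∈ XX U ↔ Yt (t2 u1 v) 2 TC z (a1 n) ∈ XX U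
    rw [eY]
  · rw [h1]
    norm_num
    rw [eW h3 h2]
  · rw [h1]
    norm_num
    unfold Md.L
    rw [eW h3 h2, eW h3 h2, eW h3 h2]
    exact if_tr (and_congr (eT _) (eT _))
  · rw [h1]
    norm_num
    refine (tick0 hu (a1 n) (a2 n) h2 F.h z TC (co σ (a4 n))).trans
      (Iff.trans ?_ (tick0 hv (a1 n) (a2 n) h2 F.h z TC (co σ (a4 n))).symm)
    exact cs_tr eY u1 _ _
  · rw [h1]
    norm_num
    show AccR (shD T (Yt (t2 u1 u) 2 TC z) (a1 n) (co σ (a4 n))) (t2 u1 u 0 + (a2 n : ℕ)) ↔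
      AccR (shD T (Yt (t2 u1 v) 2 TC z) (a1 n) (co σ (a4 n))) (t2 u1 v 0 + (a2 n : ℕ))
    rw [t2_zero, t2_zero]
    unfold shD
    rw [eY]
  · rw [h1]
    norm_num
    show AccL (shD T (Yt (t2 u1 u) 2 TC z) (a1 n) (co σ (a4 n))) (t2 u1 u 0 + (a2 n : ℕ) + 1) ↔
      AccL (shD T (Yt (t2 u1 v) 2 TC z) (a1 n) (co σ (a4 n))) (t2 u1 v 0 + (a2 n : ℕ) + 1)
    rw [t2_zero, t2_zero]
    unfold shD
    rw [eY]

/-- the literals of class 0 have the same value in all legal models -/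
theorem lv_transfer {M M' : Md 2 NP NW (nbf 2 TB)} {c0 c1 : Cn NW TC × Fin 6 → Fin 6 × Fin 6}
    (h : Leg F B z σ u1 c0 c1 M) (h' : Leg F B z σ u1 c0 c1 M') {l : ℕ}
    (hl : ok0 NW TC (Nat.div l 2) = true) : lv M l ↔ lv M' l := by
  obtain ⟨u, hu, s0, s1, L, R, S, e0, e1, rfl⟩ := h
  obtain ⟨v, hv, s0', s1', L', R', S', e0', e1', rfl⟩ := h'
  have h1 : av (mS F B z σ hu S) (l / 2) ↔ av (mS F B z σ hv S') (l / 2) :=
    av_transfer (e0.trans e0'.symm) (e1.trans e1'.symm) hl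
  unfold lv
  rw [h1]

end

/-! ### state literals -/

/-- the tick of the direction `m` in the reading `r` -/
def tk (r m : ℕ) : ℕ := bif Nat.beq r 0 then Nat.mul 2 m else
  bif Nat.beq r 3 then Nat.mod (Nat.add (Nat.mul 2 m) 2) 12 else Nat.succ (Nat.mul 2 m)

/-- the side in the reading `r` (times 2) -/
def sr (r : ℕ) : ℕ := bif Nat.beq (Nat.mod r 2) 0 then 2 else 0

/-- the reading of a state atom: `r = 0` start, `1` before, `2` after, `3` end -/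
def rA (r kd c m k q : ℕ) : ℕ :=
  bif Nat.beq kd 12 then
    (bif Nat.beq r 0 then En 14 c m 0 q else bif Nat.beq r 1 then En 0 c (Nat.mul 2 m) 0 q else
      bif Nat.beq r 2 then En 12 c m 0 q else En 11 c m 0 q) else
  bif Nat.beq kd 13 then
    (bif Nat.beq r 0 then En 11 c m 0 q else bif Nat.beq r 1 then En 13 c m 0 q else
      bif Nat.beq r 2 then En 0 c (Nat.succ (Nat.mul 2 m)) 0 q else En 15 c m 0 q) else
  En kd c (tk r m) (Nat.add (sr r) k) q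

/-- the reading of a state atom (number) -/
def rn (r n : ℕ) : ℕ :=
  rA r (Nat.mod n 16) (Nat.mod (Nat.div n 16) 4096) (Nat.mod (Nat.div n 65536) 256) (Nat.mod (Nat.div n 16777216) 8)
    (Nat.div n 134217728)

/-- the reading of a state literal -/
def rd (r l : ℕ) : ℕ := Nat.add (Nat.mul 2 (rn r (Nat.div l 2))) (Nat.mod l 2)

/-- the reading of a clause -/
def rc (r : ℕ) (c : List ℕ) : List ℕ := c.map (rd r)

/-- admissible state atoms -/
def okA (NW TC n : ℕ) : Bool :=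
  (Nat.ble (Nat.succ (Nat.mod (Nat.div n 16) 4096)) NW && fx0 TC (Nat.mod (Nat.div n 16) 4096)) && Nat.ble (Nat.succ (Nat.mod (Nat.div n 65536) 256)) 6 &&
  (bif Nat.beq (Nat.mod n 16) 12 then true else bif Nat.beq (Nat.mod n 16) 13 then true else
    (Nat.beq (Nat.mod n 16) 9 || Nat.beq (Nat.mod n 16) 10) && Nat.ble (Nat.mod (Nat.div n 16777216) 8) 1)

theorem okA_spec {NW TC n : ℕ} (h : okA NW TC n = true) : (a1 n < NW ∧ fx0 TC (a1 n) = true) ∧ a2 n < 6 ∧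
    (a0 n = 12 ∨ a0 n = 13 ∨ ((a0 n = 9 ∨ a0 n = 10) ∧ a3 n ≤ 1)) := by
  unfold okA at h
  have e0 : Nat.mod n 16 = a0 n := rfl
  have e1 : Nat.mod (Nat.div n 16) 4096 = a1 n := rfl
  have e2 : Nat.mod (Nat.div n 65536) 256 = a2 n := rfl
  have e3 : Nat.mod (Nat.div n 16777216) 8 = a3 n := rfl
  rw [e0, e1, e2, e3, Bool.and_eq_true, Bool.and_eq_true, Bool.and_eq_true, Nat.ble_eq, Nat.ble_eq] at h
  obtain ⟨⟨h1, h2⟩, h3⟩ := h
  refine ⟨h1, h2, ?_⟩
  rw [Bool.cond_eq_ite] at h3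
  split_ifs at h3 with k1
  · exact Or.inl (nbeq.1 k1)
  · rw [Bool.cond_eq_ite] at h3
    split_ifs at h3 with k2
    · exact Or.inr (Or.inl (nbeq.1 k2))
    · rw [Bool.and_eq_true, Bool.or_eq_true, nbeq, nbeq, Nat.ble_eq] at h3
      exact Or.inr (Or.inr h3)

open Classical in
/-- the value of a state atom -/
def sv (σ : Equiv.Perm (Fin 6)) (T : ℂ → Set (Fin 6)) (Z : Cn NW TC → ℂ) (s : Cn NW TC × Fin 6 → Fin 6 × Fin 6)
    (A D : GB (Cn NW TC)) (n : ℕ) : Prop :=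
  if h : (a1 n < NW ∧ fx0 TC (a1 n) = true) ∧ a2 n < 6 then
    if a0 n = 12 then A ⟨a1 n, h.1⟩ ⟨a2 n, h.2⟩ (co σ (a4 n)) else
    if a0 n = 13 then D ⟨a1 n, h.1⟩ ⟨a2 n, h.2⟩ (co σ (a4 n)) else
    if a0 n = 9 then nio σ (s (⟨a1 n, h.1⟩, ⟨a2 n, h.2⟩)) (a3 n) = a4 n else
      (if (s (⟨a1 n, h.1⟩, ⟨a2 n, h.2⟩)).1 ∈ T (Z ⟨a1 n, h.1⟩) ∧ (s (⟨a1 n, h.1⟩, ⟨a2 n, h.2⟩)).2 ∈ T (Z ⟨a1 n, h.1⟩)
        then nio σ (s (⟨a1 n, h.1⟩, ⟨a2 n, h.2⟩)) (a3 n) else 6) = a4 n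
  else False

/-- the value of a state literal -/
def sl (σ : Equiv.Perm (Fin 6)) (T : ℂ → Set (Fin 6)) (Z : Cn NW TC → ℂ) (s : Cn NW TC × Fin 6 → Fin 6 × Fin 6)
    (A D : GB (Cn NW TC)) (l : ℕ) : Prop :=
  if l % 2 = 0 then sv σ T Z s A D (l / 2) else ¬ sv σ T Z s A D (l / 2)


/-- the letters of the reading `r` -/
def stv (r : ℕ) (s0 L R s1 : Cn NW TC × Fin 6 → Fin 6 × Fin 6) : Cn NW TC × Fin 6 → Fin 6 × Fin 6 :=
  if r = 0 then s0 else if r = 1 then L else if r = 2 then R else s1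

/-- the bits `A` of the reading `r` -/
def bA (D : Cn NW TC → Fin 6 → Set ℝ) (r : ℕ) (u1 u : ℝ) : GB (Cn NW TC) :=
  if r = 0 then cR D u1 else if r = 1 then cAl D u1 u else if r = 2 then cAr D u1 u else cS D u1

/-- the bits `B` of the reading `r` -/
def bB (D : Cn NW TC → Fin 6 → Set ℝ) (r : ℕ) (u1 u : ℝ) : GB (Cn NW TC) :=
  if r = 0 then cS D u1 else if r = 1 then cBl D u1 u else if r = 2 then cBr D u1 u else cL D u1

section
variable {J J' : Type} {Z : J → ℂ} {Z' : J' → ℂ} {j : J} {j' : J'} (h : Z j = Z' j') (u1 u : ℝ) (m q : Fin 6)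
include h

theorem shd_tr : shD T Z j q = shD T Z' j' q := by unfold shD; rw [h]

theorem cr_tr : cR (shD T Z) u1 j m q ↔ cR (shD T Z') u1 j' m q := by unfold cR; rw [shd_tr h]
theorem cl_tr' : cL (shD T Z) u1 j m q ↔ cL (shD T Z') u1 j' m q := by unfold cL; rw [shd_tr h]
theorem cal_tr : cAl (shD T Z) u1 u j m q ↔ cAl (shD T Z') u1 u j' m q := by unfold cAl; rw [shd_tr h]
theorem car_tr : cAr (shD T Z) u1 u j m q ↔ cAr (shD T Z') u1 u j' m q := by unfold cAr; rw [shd_tr h]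
theorem cbl_tr : cBl (shD T Z) u1 u j m q ↔ cBl (shD T Z') u1 u j' m q := by unfold cBl; rw [shd_tr h]
theorem cbr_tr : cBr (shD T Z) u1 u j m q ↔ cBr (shD T Z') u1 u j' m q := by unfold cBr; rw [shd_tr h]

end

theorem f6_lt {m : ℕ} (hm : m < 6) : f6 m = ⟨m, hm⟩ := by
  unfold f6
  apply Fin.ext
  exact Nat.mod_eq_of_lt hm

section
variable {F : Hy U T} {B : Tb NP NW TB TC} {z : ℂ} {σ : Equiv.Perm (Fin 6)} {u1 u : ℝ}
  {hu : u ∈ Ioo u1 (u1 + 1)}
  {s0 s1 L R : Fin NW × Fin 6 → Fin 6 × Fin 6} {S : St4 U T (Yw u1 u TC z NW) u1 u s0 s1 L R} {n : ℕ}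

theorem w_rd {r c m k : ℕ} (hr : r < 4) (hc : c < NW ∧ fx0 TC c = true) (hm : m < 6) (hk : k ≤ 1) :
    (mS F B z σ hu S).W c (tk r m) ((sr r + k) / 2) ((sr r + k) % 2) =
      nio σ (stv r (rs TC s0) (rs TC L) (rs TC R) (rs TC s1) (⟨c, hc⟩, ⟨m, hm⟩)) k := by
  have hk2 : k % 2 = k := Nat.mod_eq_of_lt (by omega)
  interval_cases r
  · have h1 : tk 0 m = 2 * m := rfl
    have h2 : sr 0 = 2 := rfl
    rw [h1, h2, w_even hc.1 hc.2 (by omega), show (2 + k) / 2 = 1 by omega, show (2 + k) % 2 = k by omega,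
      if_pos rfl, show 2 * m / 2 = m by omega, f6_lt hm]
    rfl
  · have h1 : tk 1 m = 2 * m + 1 := rfl
    have h2 : sr 1 = 0 := rfl
    rw [h1, h2, w_odd hc.1 hc.2 (by omega), show (0 + k) / 2 = 0 by omega, show (0 + k) % 2 = k by omega,
      if_neg (by norm_num), show (2 * m + 1) / 2 = m by omega, f6_lt hm]
    rfl
  · have h1 : tk 2 m = 2 * m + 1 := rfl
    have h2 : sr 2 = 2 := rfl
    rw [h1, h2, w_odd hc.1 hc.2 (by omega), show (2 + k) / 2 = 1 by omega, show (2 + k) % 2 = k by omega,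
      if_pos rfl, show (2 * m + 1) / 2 = m by omega, f6_lt hm]
    rfl
  · have h1 : tk 3 m = (2 * m + 2) % 12 := rfl
    have h2 : sr 3 = 0 := rfl
    have h3 : f6 ((2 * m + 2) % 12 / 2 + 5) = ⟨m, hm⟩ := by
      unfold f6
      apply Fin.ext
      show ((2 * m + 2) % 12 / 2 + 5) % 6 = m
      omega
    rw [h1, h2, w_even hc.1 hc.2 (by omega), show (0 + k) / 2 = 0 by omega, show (0 + k) % 2 = k by omega,
      if_neg (by norm_num), h3]
    rfl


/-- **the readings of state atoms** -/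
theorem av_rn {r : ℕ} (hr : r < 4) (hn : okA NW TC n = true) : av (mS F B z σ hu S) (rn r n) ↔
    sv σ T (Zf u1 TC z NW) (stv r (rs TC s0) (rs TC L) (rs TC R) (rs TC s1)) (bA (shD T (Zf u1 TC z NW)) r u1 u)
      (bB (shD T (Zf u1 TC z NW)) r u1 u) n := by
  obtain ⟨hc, hm, hk⟩ := okA_spec hn
  have hc4 : a1 n < 4096 := Nat.mod_lt _ (by norm_num)
  have eZ : Yt (t2 u1 u) 2 TC z (a1 n) = Zf u1 TC z NW ⟨a1 n, hc⟩ := yt_yc hc.2
  have A := tick_t2 hu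
  have q := co σ (a4 n)
  unfold sv
  rw [dif_pos (⟨hc, hm⟩ : (a1 n < NW ∧ fx0 TC (a1 n) = true) ∧ a2 n < 6)]
  have e : rn r n = rA r (a0 n) (a1 n) (a2 n) (a3 n) (a4 n) := rfl
  rw [e]
  rcases hk with hk | hk | ⟨hk, hk1⟩
  · rw [if_pos hk, hk]
    interval_cases r
    · refine (av14 hc4 (by omega)).trans ?_
      show AccR (shD T (Yt (t2 u1 u) 2 TC z) (a1 n) (co σ (a4 n))) (t2 u1 u 0 + (a2 n : ℕ)) ↔ _
      rw [t2_zero, shd_tr eZ]
      exact Iff.rfl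
    · refine (av0 hc4 (show 2 * a2 n < 256 by omega) (by norm_num)).trans ?_
      have h1 := al_iff (Z := Yt (t2 u1 u) 2 TC z) (c := a1 n) (q := co σ (a4 n)) (m := ⟨a2 n, hm⟩) A F.h
      rw [t2_zero, t2_one] at h1
      exact h1.symm.trans (cal_tr eZ _ _ _ _)
    · refine (av12 hc4 (by omega)).trans ?_
      have h1 := ar_iff (Z := Yt (t2 u1 u) 2 TC z) (c := a1 n) (q := co σ (a4 n)) (m := ⟨a2 n, hm⟩) A F.h
      rw [t2_zero, t2_one] at h1
      exact h1.symm.trans (car_tr eZ _ _ _ _)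
    · refine (av11 hc4 (by omega)).trans ?_
      exact (tick0 hu (a1 n) (a2 n) hm F.h z TC (co σ (a4 n))).trans (cs_tr eZ _ _ _)
  · rw [if_neg (by omega), if_pos hk, hk]
    interval_cases r
    · refine (av11 hc4 (by omega)).trans ?_
      exact (tick0 hu (a1 n) (a2 n) hm F.h z TC (co σ (a4 n))).trans (cs_tr eZ _ _ _)
    · refine (av13 hc4 (by omega)).trans ?_
      have h1 := bl_iff (Z := Yt (t2 u1 u) 2 TC z) (c := a1 n) (q := co σ (a4 n)) (m := ⟨a2 n, hm⟩) A F.h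
      rw [t2_zero, t2_one] at h1
      exact h1.symm.trans (cbl_tr eZ _ _ _ _)
    · refine (av0 hc4 (show 2 * a2 n + 1 < 256 by omega) (by norm_num)).trans ?_
      have h1 := br_iff (Z := Yt (t2 u1 u) 2 TC z) (c := a1 n) (q := co σ (a4 n)) (m := ⟨a2 n, hm⟩) A F.h
      rw [t2_zero, t2_one] at h1
      exact h1.symm.trans (cbr_tr eZ _ _ _ _)
    · refine (av15 hc4 (by omega)).trans ?_
      show AccL (shD T (Yt (t2 u1 u) 2 TC z) (a1 n) (co σ (a4 n))) (t2 u1 u 0 + (a2 n : ℕ) + 1) ↔ _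
      rw [t2_zero, shd_tr eZ]
      exact Iff.rfl
  · have htk : tk r (a2 n) < 256 := by
      interval_cases r
      · show 2 * a2 n < 256; omega
      · show 2 * a2 n + 1 < 256; omega
      · show 2 * a2 n + 1 < 256; omega
      · show (2 * a2 n + 2) % 12 < 256; omega
    have hsr : sr r + a3 n < 8 := by
      interval_cases r
      · show 2 + a3 n < 8; omega
      · show 0 + a3 n < 8; omega
      · show 2 + a3 n < 8; omega
      · show 0 + a3 n < 8; omega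
    rw [if_neg (by omega), if_neg (by omega)]
    rcases hk with hk | hk
    · rw [if_pos hk, hk]
      refine (av9 hc4 htk hsr).trans ?_
      have h1 := w_rd (F := F) (B := B) (z := z) (σ := σ) (hu := hu) (S := S) hr hc hm hk1
      have h2 : (mS F B z σ hu S).W (a1 n) (tk r (a2 n)) ((sr r + a3 n) / 2) ((sr r + a3 n) % 2) = _ := h1
      rw [h2]
    · rw [if_neg (by omega), hk]
      refine (av10 hc4 htk hsr).trans ?_
      have h1 := w_rd (F := F) (B := B) (z := z) (σ := σ) (hu := hu) (S := S) hr hc hm hk1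
      have h2 := w_rd (F := F) (B := B) (z := z) (σ := σ) (hu := hu) (S := S) (k := 0) hr hc hm zero_le_one
      have h3 := w_rd (F := F) (B := B) (z := z) (σ := σ) (hu := hu) (S := S) (k := 1) hr hc hm le_rfl
      have he : sr r % 2 = 0 := by interval_cases r <;> rfl
      rw [show (sr r + 0) / 2 = sr r / 2 by omega, show (sr r + 0) % 2 = 0 by omega] at h2
      rw [show (sr r + 1) / 2 = sr r / 2 by omega, show (sr r + 1) % 2 = 1 by omega] at h3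
      rw [show (sr r + a3 n) / 2 = sr r / 2 by omega] at h1
      show (mS F B z σ hu S).L (a1 n) (tk r (a2 n)) ((sr r + a3 n) / 2) ((sr r + a3 n) % 2) = a4 n ↔ _
      rw [show (sr r + a3 n) / 2 = sr r / 2 by omega]
      unfold Md.L
      rw [h1, h2, h3]
      refine if_tr (and_congr ?_ ?_)
      · show co σ (nio σ _ 0) ∈ T (Yt (t2 u1 u) 2 TC z (a1 n)) ↔ _
        rw [eZ]
        unfold nio
        rw [co_no, if_pos rfl]
      · show co σ (nio σ _ 1) ∈ T (Yt (t2 u1 u) 2 TC z (a1 n)) ↔ _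
        rw [eZ]
        unfold nio
        rw [co_no, if_neg one_ne_zero]

end

theorem lv_two {M : Md 2 NP NW (nbf 2 TB)} {n l : ℕ} :
    lv M (Nat.add (Nat.mul 2 n) (Nat.mod l 2)) ↔ if l % 2 = 0 then av M n else ¬ av M n := by
  have e : Nat.add (Nat.mul 2 n) (Nat.mod l 2) = 2 * n + l % 2 := rfl
  rw [e]
  unfold lv
  rw [show (2 * n + l % 2) % 2 = l % 2 by omega, show (2 * n + l % 2) / 2 = n by omega]

section
variable {F : Hy U T} {B : Tb NP NW TB TC} {z : ℂ} {σ : Equiv.Perm (Fin 6)} {u1 u : ℝ}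
  {hu : u ∈ Ioo u1 (u1 + 1)}
  {s0 s1 L R : Fin NW × Fin 6 → Fin 6 × Fin 6} {S : St4 U T (Yw u1 u TC z NW) u1 u s0 s1 L R}

theorem lv_rd {r l : ℕ} (hr : r < 4) (hl : okA NW TC (Nat.div l 2) = true) : lv (mS F B z σ hu S) (rd r l) ↔
    sl σ T (Zf u1 TC z NW) (stv r (rs TC s0) (rs TC L) (rs TC R) (rs TC s1)) (bA (shD T (Zf u1 TC z NW)) r u1 u)
      (bB (shD T (Zf u1 TC z NW)) r u1 u) l := by
  refine lv_two.trans ?_
  unfold sl
  rw [show Nat.div l 2 = l / 2 from rfl] at hl ⊢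
  rw [av_rn hr hl]

theorem ho_rc {r : ℕ} {C : List ℕ} (hr : r < 4) (hC : ∀ l ∈ C, okA NW TC (Nat.div l 2) = true) :
    Ho (mS F B z σ hu S) (rc r C) ↔ ∃ l ∈ C,
      sl σ T (Zf u1 TC z NW) (stv r (rs TC s0) (rs TC L) (rs TC R) (rs TC s1)) (bA (shD T (Zf u1 TC z NW)) r u1 u)
      (bB (shD T (Zf u1 TC z NW)) r u1 u) l := by
  constructor
  · rintro ⟨l', h1, h2⟩
    obtain ⟨l, h3, rfl⟩ := List.mem_map.1 h1
    exact ⟨l, h3, (lv_rd hr (hC l h3)).1 h2⟩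
  · rintro ⟨l, h1, h2⟩
    exact ⟨rd r l, List.mem_map.2 ⟨l, h1, rfl⟩, (lv_rd hr (hC l h1)).2 h2⟩

end

/-- the readings start, before and after are equal -/
def Q0 (TC : ℕ) (M : Md 2 NP NW (nbf 2 TB)) : Prop :=
  ∀ n, okA NW TC n = true → ∀ r < 3, (av M (rn r n) ↔ av M (rn 0 n))

/-- the readings before, after and end are equal -/
def Q1 (TC : ℕ) (M : Md 2 NP NW (nbf 2 TB)) : Prop :=
  ∀ n, okA NW TC n = true → ∀ r < 4, 0 < r → (av M (rn r n) ↔ av M (rn 3 n))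

/-- **A certified pattern**: `E` clauses of all models, `P` the pattern, `Inv` the invariant (clauses of states) -/
structure Pat (NP NW TB TC : ℕ) (E : List (List ℕ)) (P : List ℕ) (Inv : List (List ℕ)) : Prop where
  p0 : ∀ l ∈ P, ok0 NW TC (Nat.div l 2) = true
  i0 : ∀ C ∈ Inv, ∀ l ∈ C, okA NW TC (Nat.div l 2) = true
  init : ∀ M : Md 2 NP NW (nbf 2 TB), (∀ c ∈ E, Ho M c) → (∀ l ∈ P, lv M l) → Q0 TC M →
    ∀ C ∈ Inv, Ho M (rc 0 C)
  step : ∀ M : Md 2 NP NW (nbf 2 TB), (∀ c ∈ E, Ho M c) → (∀ l ∈ P, lv M l) → (∀ C ∈ Inv, Ho M (rc 1 C)) →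
    ∀ C ∈ Inv, Ho M (rc 2 C)
  fin : ∀ M : Md 2 NP NW (nbf 2 TB), (∀ c ∈ E, Ho M c) → (∀ l ∈ P, lv M l) → Q1 TC M →
    (∀ C ∈ Inv, Ho M (rc 3 C)) → False

theorem st4_rs {z : ℂ} {u1 u : ℝ} {s0 s1 L R : Fin NW × Fin 6 → Fin 6 × Fin 6}
    (S : St4 U T (Yw u1 u TC z NW) u1 u s0 s1 L R) :
    St4 U T (Zf u1 TC z NW) u1 u (rs TC s0) (rs TC s1) (rs TC L) (rs TC R) where
  h0 := rst_sub (fun i : Cn NW TC × Fin 6 => (fc i.1, i.2)) (fun i => ⟨(yw_fc i.1).symm, rfl⟩) S.h0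
  h1 := lst_sub (fun i : Cn NW TC × Fin 6 => (fc i.1, i.2)) (fun i => ⟨(yw_fc i.1).symm, rfl⟩) S.h1
  hL := lst_sub (fun i : Cn NW TC × Fin 6 => (fc i.1, i.2)) (fun i => ⟨(yw_fc i.1).symm, rfl⟩) S.hL
  hR := rst_sub (fun i : Cn NW TC × Fin 6 => (fc i.1, i.2)) (fun i => ⟨(yw_fc i.1).symm, rfl⟩) S.hR

/-- **A certified pattern is not realised.** -/
theorem pdr {F : Hy U T} {B : Tb NP NW TB TC} {z : ℂ} {σ : Equiv.Perm (Fin 6)} {u1 : ℝ}
    {s0 s1 : Cn NW TC × Fin 6 → Fin 6 × Fin 6} {E : List (List ℕ)} {P : List ℕ} {Inv : List (List ℕ)}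
    (hE : ∀ M, Leg F B z σ u1 s0 s1 M → ∀ c ∈ E, Ho M c) (H : Pat NP NW TB TC E P Inv) :
    ¬ Rl F B z σ u1 s0 s1 P := by
  rintro ⟨M0, hM0, hP0⟩
  have hP : ∀ M, Leg F B z σ u1 s0 s1 M → ∀ l ∈ P, lv M l := fun M hM l hl =>
    (lv_transfer hM0 hM (H.p0 l hl)).1 (hP0 l hl)
  obtain ⟨u0, hu0, t0, t1, L0, R0, S0, e0, e1, -⟩ := hM0
  have S1 := st4_rs S0
  rw [e0, e1] at S1
  obtain ⟨⟨ua, hua, ka1, ka2, ka3, ka4, ka5, ka6⟩, ⟨ub, hub, kb1, kb2, kb3, kb4, kb5, kb6⟩, hV⟩ :=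
    gen_states_all F.h F.l3 (D := shD T (Zf u1 TC z NW)) (fun j q => shD_closed T _ j q) S1.h0 S1.h1
  refine absurd (hV (fun s A D => ∀ C ∈ Inv, ∃ l ∈ C, sl σ T (Zf u1 TC z NW) s A D l) ?_ ?_) ?_
  · -- start
    obtain ⟨a0', a1', La, Ra, Sa, f0, f1, f2, f3⟩ := exists_st4 F (z := z) (u1 := u1) (u := ua)
      (s0 := s0) (s1 := s1) (L := s0) (R := s0) ⟨S1.h0, S1.h1, ka1, ka2⟩
    have hM : Leg F B z σ u1 s0 s1 (mS F B z σ hua Sa) := ⟨ua, hua, a0', a1', La, Ra, Sa, f0, f1, rfl⟩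
    have h1 := H.init _ (hE _ hM) (hP _ hM) (fun n hn r hr => ?_)
    · intro C hC
      have h2 := (ho_rc (by norm_num) (H.i0 C hC)).1 (h1 C hC)
      rw [f0] at h2
      exact h2
    · rw [av_rn (by omega) hn, av_rn (by norm_num) hn, f0, f1, f2, f3]
      interval_cases r
      · exact Iff.rfl
      · unfold stv bA bB
        simp only [one_ne_zero, if_false, if_true]
        rw [ka3, ka4]
      · unfold stv bA bB
        norm_num
        rw [ka5, ka6]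
  · -- step
    intro u hu L hL R hR hV1 C hC
    obtain ⟨a0', a1', La, Ra, Sa, f0, f1, f2, f3⟩ := exists_st4 F (z := z) (u1 := u1) (u := u)
      (s0 := s0) (s1 := s1) (L := L) (R := R) ⟨S1.h0, S1.h1, hL, hR⟩
    have hM : Leg F B z σ u1 s0 s1 (mS F B z σ hu Sa) := ⟨u, hu, a0', a1', La, Ra, Sa, f0, f1, rfl⟩
    have h1 := H.step _ (hE _ hM) (hP _ hM) (fun C hC => ?_) C hC
    · have h2 := (ho_rc (by norm_num) (H.i0 C hC)).1 h1
      rw [f3] at h2
      exact h2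
    · refine (ho_rc (by norm_num) (H.i0 C hC)).2 ?_
      rw [f2]
      exact hV1 C hC
  · -- end
    intro hV1
    obtain ⟨a0', a1', La, Ra, Sa, f0, f1, f2, f3⟩ := exists_st4 F (z := z) (u1 := u1) (u := ub)
      (s0 := s0) (s1 := s1) (L := s1) (R := s1) ⟨S1.h0, S1.h1, kb1, kb2⟩
    have hM : Leg F B z σ u1 s0 s1 (mS F B z σ hub Sa) := ⟨ub, hub, a0', a1', La, Ra, Sa, f0, f1, rfl⟩
    refine H.fin _ (hE _ hM) (hP _ hM) (fun n hn r hr hr0 => ?_) (fun C hC => ?_)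
    · rw [av_rn hr hn, av_rn (by norm_num) hn, f0, f1, f2, f3]
      interval_cases r
      · unfold stv bA bB
        norm_num
        rw [kb3, kb4]
      · unfold stv bA bB
        norm_num
        rw [kb5, kb6]
      · exact Iff.rfl
    · refine (ho_rc (by norm_num) (H.i0 C hC)).2 ?_
      rw [f1]
      exact hV1 C hC

/-! ### queries -/

/-- no model satisfies the clauses `e` -/
def Qy (NP NW TB : ℕ) (e : List (List ℕ)) : Prop :=
  ∀ M : Md 2 NP NW (nbf 2 TB), (∀ c ∈ e, Ho M c) → False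

/-- the negated literal -/
def ngl (l : ℕ) : ℕ := bif Nat.beq (Nat.mod l 2) 0 then Nat.succ l else Nat.sub l 1

theorem lv_ngl {M : Md 2 NP NW (nbf 2 TB)} {l : ℕ} : lv M (ngl l) ↔ ¬ lv M l := by
  unfold ngl
  rcases Nat.mod_two_eq_zero_or_one l with h | h
  · have h1 : Nat.beq (Nat.mod l 2) 0 = true := nbeq.2 h
    rw [h1, cond_true]
    unfold lv
    rw [if_pos h, Nat.succ_eq_add_one, if_neg (show ¬ (l + 1) % 2 = 0 by omega), show (l + 1) / 2 = l / 2 by omega]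
  · have h1 : Nat.beq (Nat.mod l 2) 0 = false := by
      rw [← Bool.not_eq_true, nbeq]
      show ¬ l % 2 = 0
      omega
    rw [h1, cond_false]
    unfold lv
    rw [Nat.sub_eq, if_neg (show ¬ l % 2 = 0 by omega), if_pos (show (l - 1) % 2 = 0 by omega),
      show (l - 1) / 2 = l / 2 by omega, not_not]

/-- the units of a list of literals -/
def un (P : List ℕ) : List (List ℕ) := P.map fun l => [l]

/-- the units of the negated literals -/
def ngs (C : List ℕ) : List (List ℕ) := C.map fun l => [ngl l]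

theorem ho_un {M : Md 2 NP NW (nbf 2 TB)} {P : List ℕ} (h : ∀ l ∈ P, lv M l) : ∀ c ∈ un P, Ho M c := by
  intro c hc
  obtain ⟨l, h1, rfl⟩ := List.mem_map.1 hc
  exact ⟨l, List.mem_singleton_self l, h l h1⟩

theorem ho_of_q {M : Md 2 NP NW (nbf 2 TB)} {e : List (List ℕ)} {C : List ℕ} (h : Qy NP NW TB (e ++ ngs C))
    (he : ∀ c ∈ e, Ho M c) : Ho M C := by
  by_contra hcon
  refine h M fun c hc => ?_
  rcases List.mem_append.1 hc with h1 | h1
  · exact he c h1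
  · obtain ⟨l, h2, rfl⟩ := List.mem_map.1 h1
    exact ⟨_, List.mem_singleton_self _, lv_ngl.2 fun h3 => hcon ⟨l, h2, h3⟩⟩

/-- an equality of two readings, code `r + 4 s + 16 n` -/
def stc (v : ℕ) : List ℕ :=
  [ng (rn (Nat.mod v 4) (Nat.div v 16)), ps (rn (Nat.mod (Nat.div v 4) 4) (Nat.div v 16))]

/-- admissible equalities at the start -/
def ok_s (NW TC v : ℕ) : Bool :=
  okA NW TC (Nat.div v 16) && Nat.ble (Nat.mod v 4) 2 && Nat.ble (Nat.mod (Nat.div v 4) 4) 2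

/-- admissible equalities at the end -/
def ok_e (NW TC v : ℕ) : Bool :=
  okA NW TC (Nat.div v 16) && Nat.ble 1 (Nat.mod v 4) && Nat.ble 1 (Nat.mod (Nat.div v 4) 4)

theorem ho_stc {M : Md 2 NP NW (nbf 2 TB)} {a b : ℕ} (h : av M a → av M b) : Ho M [ng a, ps b] := by
  by_cases h1 : av M a
  · exact ⟨_, List.mem_cons_of_mem _ List.mem_cons_self, Vale.Agent.P032.H820.K.lv_ps.2 (h h1)⟩
  · exact ⟨_, List.mem_cons_self, Vale.Agent.P032.H820.K.lv_ng.2 h1⟩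

theorem ho_s {M : Md 2 NP NW (nbf 2 TB)} {v : ℕ} (h : Q0 TC M) (hv : ok_s NW TC v = true) : Ho M (stc v) := by
  unfold ok_s at hv
  rw [Bool.and_eq_true, Bool.and_eq_true, Nat.ble_eq, Nat.ble_eq] at hv
  obtain ⟨⟨h1, h2⟩, h3⟩ := hv
  exact ho_stc fun h4 => (h _ h1 _ (Nat.lt_succ_of_le h3)).2 ((h _ h1 _ (Nat.lt_succ_of_le h2)).1 h4)

theorem ho_e {M : Md 2 NP NW (nbf 2 TB)} {v : ℕ} (h : Q1 TC M) (hv : ok_e NW TC v = true) : Ho M (stc v) := by
  unfold ok_e at hv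
  rw [Bool.and_eq_true, Bool.and_eq_true, Nat.ble_eq, Nat.ble_eq] at hv
  obtain ⟨⟨h1, h2⟩, h3⟩ := hv
  exact ho_stc fun h4 => (h _ h1 _ (Nat.mod_lt _ (by norm_num)) h3).2
    ((h _ h1 _ (Nat.mod_lt _ (by norm_num)) h2).1 h4)

/-- all elements of a list -/
def alL (f : ℕ → Bool) (c : List ℕ) : Bool := @List.rec ℕ (fun _ => Bool) true (fun x _ ih => and (f x) ih) c

theorem alL_spec {f : ℕ → Bool} {c : List ℕ} (h : alL f c = true) : ∀ x ∈ c, f x = true := by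
  induction c with
  | nil => intro x hx; exact absurd hx List.not_mem_nil
  | cons y c ih =>
    have h1 : and (f y) (alL f c) = true := h
    rw [Bool.and_eq_true] at h1
    intro x hx
    rcases List.mem_cons.1 hx with h2 | h2
    · rw [h2]; exact h1.1
    · exact ih h1.2 x h2

/-- all elements of a list of lists -/
def alLL (f : List ℕ → Bool) (c : List (List ℕ)) : Bool :=
  @List.rec (List ℕ) (fun _ => Bool) true (fun x _ ih => and (f x) ih) c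

theorem alLL_spec {f : List ℕ → Bool} {c : List (List ℕ)} (h : alLL f c = true) : ∀ x ∈ c, f x = true := by
  induction c with
  | nil => intro x hx; exact absurd hx List.not_mem_nil
  | cons y c ih =>
    have h1 : and (f y) (alLL f c) = true := h
    rw [Bool.and_eq_true] at h1
    intro x hx
    rcases List.mem_cons.1 hx with h2 | h2
    · rw [h2]; exact h1.1
    · exact ih h1.2 x h2

/-- **A certified pattern from queries**: `vs` and `ve` the used equalities at the start and at the end; one query for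
every clause of the invariant at the start, one for every clause for the step, one for the end. -/
theorem pat_of_q {E : List (List ℕ)} {P : List ℕ} {Inv : List (List ℕ)} {vs ve : List ℕ}
    (hP : alL (fun l => ok0 NW TC (Nat.div l 2)) P = true)
    (hI : alLL (fun C => alL (fun l => okA NW TC (Nat.div l 2)) C) Inv = true)
    (hs : alL (ok_s NW TC) vs = true) (he : alL (ok_e NW TC) ve = true)
    (q0 : ∀ C ∈ Inv, Qy NP NW TB (E ++ un P ++ vs.map stc ++ ngs (rc 0 C)))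
    (q1 : ∀ C ∈ Inv, Qy NP NW TB (E ++ un P ++ Inv.map (rc 1) ++ ngs (rc 2 C)))
    (q2 : Qy NP NW TB (E ++ un P ++ ve.map stc ++ Inv.map (rc 3))) : Pat NP NW TB TC E P Inv where
  p0 := alL_spec hP
  i0 := fun C hC => alL_spec (alLL_spec hI C hC)
  init := fun M hE hl h0 C hC => ho_of_q (q0 C hC) fun c hc => by
    rcases List.mem_append.1 hc with hc | hc
    · rcases List.mem_append.1 hc with hc | hc
      · exact hE c hc
      · exact ho_un hl c hc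
    · obtain ⟨v, hv, rfl⟩ := List.mem_map.1 hc
      exact ho_s h0 (alL_spec hs v hv)
  step := fun M hE hl hi C hC => ho_of_q (q1 C hC) fun c hc => by
    rcases List.mem_append.1 hc with hc | hc
    · rcases List.mem_append.1 hc with hc | hc
      · exact hE c hc
      · exact ho_un hl c hc
    · obtain ⟨C', hC', rfl⟩ := List.mem_map.1 hc
      exact hi C' hC'
  fin := fun M hE hl h1 hi => q2 M fun c hc => by
    rcases List.mem_append.1 hc with hc | hc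
    · rcases List.mem_append.1 hc with hc | hc
      · rcases List.mem_append.1 hc with hc | hc
        · exact hE c hc
        · exact ho_un hl c hc
      · obtain ⟨v, hv, rfl⟩ := List.mem_map.1 hc
        exact ho_e h1 (alL_spec he v hv)
    · obtain ⟨C', hC', rfl⟩ := List.mem_map.1 hc
      exact hi C' hC'

end

end Vale.Agent.P032.H357.MK
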