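import Vale.Agent.P032.H357.SymU

/-!
# P032: pair lemmas

Two events of one run, `E1` at the time `s`, `E2` at a later time `u`, which cannot occur together in one model of the
classes `0, s, u`, are used in the run with a monitor of `E1` (the event has occurred).

* `MdT B F u M` : `M` is a germ model of the frame at the time `u`, `Ev` : the times of an event, `Dm`, `Km` : the closed
  set and the constant of its monitor, `before_of`, `after_of`,
* `XM`, `xok_XM` : the values of the free atoms for given monitors, `XE` : the monitors of the events `Es`,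
* `PL` : the pair lemma, `evC`, `evC_ho` : **the laws of the monitors as clauses**: the event sets its monitor, monitors
  are monotone, the second event is impossible after the first,
* `CP`, `dead_cp` : the class of the frames with the pattern,
* `dead_of_ev` : **a pattern with a certificate with these clauses is dead.**
-/

open Set Filter Topology Metric

noncomputable section

namespace Vale.Agent.P032.H357.RunP

open Vale.Agent.P032.Six Vale.Agent.P032.Words Vale.Agent.P032.S5.H767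
  Vale.Agent.P032.H913 Vale.Agent.P032.H357 Vale.Agent.P032.H61 Vale.Agent.P032.BlkV Vale.Agent.P032.BlkE
open Vale.Agent.P032.H357.MK (co no co_no co_surj no_co no_lt co_inj of6 ct6 fx0 cf al al_spec Tb nbeq Cn alL alL_spec
  Hy Leg LegX mS St4 Yt Yw t2_zero t2_one nC nC_eq xT xT_av rs nio hb hb_mono Xok XV hA hA_av mon_mono ngl lv_ngl PatH
  okP okH ho_stc hY_of_tchk)
open Vale.Agent.P032.H357.SymV (mpS mpS_mem)
open Vale.Agent.P032.H357.SymW (pkd pkd_mem)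
open Vale.Agent.P032.H820.K (a0 a1 a2 a3 a4 En en_eq dec Md av lv Ho ps ng lv_ps lv_ng nbf lb lb_iff trv ho_trv nthC
  nthC_ho)

/-! ### the first time of an event -/

/-- the closed set of the monitor -/
def Dm (A : Set ℝ) : Set ℝ := {x | A.Nonempty ∧ x = sInf A}

/-- the monitor is constant -/
def Km (A : Set ℝ) (u1 : ℝ) : Prop := A.Nonempty ∧ sInf A = u1

theorem dm_closed (A : Set ℝ) : IsClosed (Dm A) := by
  by_cases h : A.Nonempty
  · have e : Dm A = {sInf A} := by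
      ext x
      exact ⟨fun hx => hx.2, fun hx => ⟨h, hx⟩⟩
    rw [e]
    exact isClosed_singleton
  · have e : Dm A = ∅ := eq_empty_of_forall_notMem fun x hx => h hx.1
    rw [e]
    exact isClosed_empty

theorem before_of {A : Set ℝ} {u1 u : ℝ} (hA : A ⊆ Ioo u1 (u1 + 1)) (hu : u1 < u) (h : Km A u1 ∨ hb (Dm A) 1 u1 u) :
    ∃ s ∈ A, s < u := by
  rcases h with ⟨h1, h2⟩ | h
  · exact exists_lt_of_csInf_lt h1 (by rw [h2]; exact hu)
  · obtain ⟨m, x, ⟨h1, h2⟩, h3, h4⟩ := h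
    subst h2
    obtain ⟨a, ha⟩ := h1
    have h5 : sInf A ≤ a := csInf_le ⟨u1, fun y hy => (hA hy).1.le⟩ ha
    have h6 := (hA ha).2
    have h7 : m.val = 0 := by
      by_contra h8
      have h9 : (1 : ℝ) ≤ (m.val : ℝ) := by exact_mod_cast Nat.one_le_iff_ne_zero.2 h8
      linarith
    rw [h7, Nat.cast_zero, add_zero] at h4
    exact exists_lt_of_csInf_lt ⟨a, ha⟩ h4

theorem after_of {A : Set ℝ} {u1 u : ℝ} (hA : A ⊆ Ioo u1 (u1 + 1)) (hu : u ∈ A) : Km A u1 ∨ hb (Dm A) 2 u1 u := by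
  have h1 : sInf A ≤ u := csInf_le ⟨u1, fun y hy => (hA hy).1.le⟩ hu
  have h2 : u1 ≤ sInf A := le_csInf ⟨u, hu⟩ fun y hy => (hA hy).1.le
  rcases h2.eq_or_lt with h3 | h3
  · exact Or.inl ⟨⟨u, hu⟩, h3.symm⟩
  · refine Or.inr ⟨(0 : Fin 6), sInf A, ⟨⟨u, hu⟩, rfl⟩, ?_, ?_⟩
    · rw [Fin.val_zero, Nat.cast_zero, add_zero]
      exact h3
    · rw [Fin.val_zero, Nat.cast_zero, add_zero]
      exact h1

/-! ### the free atoms -/

/-- the values of the free atoms for given monitors -/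
def XM {NW nm : ℕ} (Kc : Fin nm → Prop) (Hs : Fin nm → Set ℝ) (u1 : ℝ) : XV NW := fun u _ _ _ _ _ q =>
  ∃ h : q / 4 < nm, Kc ⟨q / 4, h⟩ ∨ hb (Hs ⟨q / 4, h⟩) (q % 4) u1 u

theorem xok_XM {NW nm : ℕ} (Kc : Fin nm → Prop) (Hs : Fin nm → Set ℝ) (u1 : ℝ) :
    Xok (XM Kc Hs u1 : XV NW) Kc Hs u1 := by
  intro u s0 s1 L R i r hr
  have e1 : (4 * i.val + r) / 4 = i.val := by omega
  have e2 : (4 * i.val + r) % 4 = r := by omega
  have e3 : ∀ h : (4 * i.val + r) / 4 < nm, (⟨(4 * i.val + r) / 4, h⟩ : Fin nm) = i := fun h => Fin.ext e1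
  constructor
  · rintro ⟨h, h1⟩
    rw [e3 h, e2] at h1
    exact h1
  · intro h1
    have h : (4 * i.val + r) / 4 < nm := by rw [e1]; exact i.isLt
    refine ⟨h, ?_⟩
    rw [e3 h, e2]
    exact h1

/-! ### events -/

section
variable {NP NW TB TC : ℕ} {B : Tb NP NW TB TC} {F : Fr} {M : Md 2 NP NW (nbf 2 TB)} {C : Fr → Prop}

/-- `M` is a germ model of the frame at the time `u` -/
def MdT (B : Tb NP NW TB TC) (F : Fr) (u : ℝ) (M : Md 2 NP NW (nbf 2 TB)) : Prop :=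
  ∃ (hy : Hy F.U F.T) (hu : u ∈ Ioo F.b (F.b + 1)) (s0 s1 L R : Fin NW × Fin 6 → Fin 6 × Fin 6)
    (S : St4 F.U F.T (Yw F.b u TC F.z NW) F.b u s0 s1 L R), rs TC s0 = rS (cxv NW TC) F.s0 ∧
      rs TC s1 = rS (cxv NW TC) F.s1 ∧ M = mS hy B F.z F.σ hu S

theorem MdT.mdl {u : ℝ} (h : MdT B F u M) : Mdl B F M := by
  obtain ⟨hy, hu, s0, s1, L, R, S, e0, e1, rfl⟩ := h
  exact ⟨hy, u, hu, s0, s1, L, R, S, e0, e1, rfl⟩

/-- the times where the literals `E` occur -/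
def Ev (B : Tb NP NW TB TC) (F : Fr) (E : List ℕ) : Set ℝ := {s | ∃ M, MdT B F s M ∧ ∀ l ∈ E, lv M l}

theorem ev_sub (E : List ℕ) : Ev B F E ⊆ Ioo F.b (F.b + 1) := by
  rintro s ⟨M, ⟨hy, hu, -⟩, -⟩
  exact hu

/-- the element number `i` of a list, or the empty list -/
def nthD (e : List (List ℕ)) : ℕ → List ℕ :=
  @List.rec (List ℕ) (fun _ => ℕ → List ℕ) (fun _ => [])
    (fun c _ ih i => bif Nat.beq i 0 then c else ih (Nat.sub i 1)) e

/-- the values of the free atoms : the monitors of the events `Es` -/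
def XE (B : Tb NP NW TB TC) (nm : ℕ) (Es : List (List ℕ)) (F : Fr) : XV NW :=
  XM (fun i : Fin nm => Km (Ev B F (nthD Es i)) F.b) (fun i : Fin nm => Dm (Ev B F (nthD Es i))) F.b

/-- **the pair lemma** : the literals `E1` at a time and `E2` at a later time do not occur -/
def PL (B : Tb NP NW TB TC) (C : Fr → Prop) (E1 E2 : List ℕ) : Prop := ∀ F, C F → ∀ s u M M', s < u →
  MdT B F s M → MdT B F u M' → (∀ l ∈ E1, lv M l) → (∀ l ∈ E2, lv M' l) → False

/-- all literals are about named points -/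
def bdL (NP : ℕ) (E : List ℕ) : Bool := alL (fun l => lb (a1 (Nat.div l 2)) NP) E

theorem lv_bd {X : ℕ → ℕ → Prop} {E : List ℕ} (h : bdL NP E = true) : ∀ l ∈ E, (lv (xT M X) l ↔ lv M l) :=
  fun l hl => lv_xT (lb_iff.1 (alL_spec h l hl))

/-- the negated literals -/
def ngL (E : List ℕ) : List ℕ := @List.rec ℕ (fun _ => List ℕ) [] (fun l _ ih => ngl l :: ih) E

theorem ngL_eq (E : List ℕ) : ngL E = E.map ngl := by
  induction E with
  | nil => rfl
  | cons l E ih =>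
    show ngl l :: ngL E = ngl l :: E.map ngl
    rw [ih]

/-- a clause from an implication -/
theorem ho_imp {M : Md 2 NP NW (nbf 2 TB)} {E : List ℕ} {a : ℕ} (h : (∀ l ∈ E, lv M l) → lv M a) :
    Ho M (a :: ngL E) := by
  by_cases h1 : ∀ l ∈ E, lv M l
  · exact ⟨a, List.mem_cons_self, h h1⟩
  · rw [not_forall] at h1
    obtain ⟨l, h1⟩ := h1
    rw [Classical.not_imp] at h1
    refine ⟨ngl l, List.mem_cons_of_mem _ ?_, lv_ngl.2 h1.2⟩
    rw [ngL_eq]
    exact List.mem_map_of_mem h1.1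

/-- the laws of the monitors, code `k + 4 i` : `k = 0` the event `i` sets its monitor, `k = 1, 2, 3` the monitor `i` in
the readings `k - 1`, `k` -/
def evS (NP nm : ℕ) (Es : List (List ℕ)) (c : ℕ) : List ℕ :=
  bif lb (Nat.div c 4) nm then
    (bif Nat.beq (Nat.mod c 4) 0 then
      (bif bdL NP (nthD Es (Nat.div c 4)) then ps (hA (Nat.div c 4) 2) :: ngL (nthD Es (Nat.div c 4)) else trv)
      else [ng (hA (Nat.div c 4) (Nat.sub (Nat.mod c 4) 1)), ps (hA (Nat.div c 4) (Nat.mod c 4))])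
  else trv

/-- the clause of a pair lemma, `L` = number of the monitor of the first event, literals of the second event -/
def evL (NP nm : ℕ) (L : List ℕ) : List ℕ :=
  @List.rec ℕ (fun _ => List ℕ) trv
    (fun i E2 _ => bif lb i nm && bdL NP E2 then ng (hA i 1) :: ngL E2 else trv) L

/-- the laws of the monitors (even numbers), the pair lemmas `Ls` (odd numbers) -/
def evC (NP nm : ℕ) (Es Ls : List (List ℕ)) (c : ℕ) : List ℕ :=
  bif Nat.beq (Nat.mod c 2) 0 then evS NP nm Es (Nat.div c 2) else evL NP nm (nthD Ls (Nat.div c 2))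

theorem nthD_mem (e : List (List ℕ)) (i : ℕ) : nthD e i = [] ∨ nthD e i ∈ e := by
  induction e generalizing i with
  | nil => exact Or.inl rfl
  | cons c e ih =>
    show (bif Nat.beq i 0 then c else nthD e (Nat.sub i 1)) = [] ∨
      (bif Nat.beq i 0 then c else nthD e (Nat.sub i 1)) ∈ c :: e
    cases Nat.beq i 0
    · rw [cond_false]
      exact (ih _).imp id fun h => List.mem_cons_of_mem _ h
    · rw [cond_true]
      exact Or.inr List.mem_cons_self

theorem evS_ho (hNP : NP ≤ 4095) {nm : ℕ} {Es : List (List ℕ)} (hM : MdlX B (XE B nm Es) F M) (c : ℕ) :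
    Ho M (evS NP nm Es c) := by
  unfold evS
  cases h1 : lb (Nat.div c 4) nm
  · rw [cond_false]; exact ho_trv M
  rw [cond_true]
  rw [lb_iff] at h1
  have hk : Nat.mod c 4 < 4 := Nat.mod_lt c (by norm_num)
  generalize Nat.mod c 4 = k at hk
  generalize Nat.div c 4 = i at h1
  have hX := xok_XM (NW := NW) (fun i : Fin nm => Km (Ev B F (nthD Es i)) F.b)
    (fun i : Fin nm => Dm (Ev B F (nthD Es i))) F.b
  obtain ⟨hy, hL⟩ := hM
  cases h2 : Nat.beq k 0
  · rw [cond_false]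
    have h3 : k ≠ 0 := fun e => by rw [nbeq.2 e] at h2; exact Bool.noConfusion h2
    exact mon_mono hX hNP hL h1 (show Nat.sub k 1 ≤ k from Nat.sub_le k 1) hk
  rw [cond_true]
  cases h3 : bdL NP (nthD Es i)
  · rw [cond_false]; exact ho_trv M
  rw [cond_true]
  obtain ⟨u, hu, s0, s1, L, R, S, e0, e1, rfl⟩ := hL
  refine ho_imp fun h4 => lv_ps.2 ?_
  rw [show XE B nm Es F = XM (fun i : Fin nm => Km (Ev B F (nthD Es i)) F.b)
    (fun i : Fin nm => Dm (Ev B F (nthD Es i))) F.b from rfl, hA_av hX hNP h1 (by norm_num)]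
  exact after_of (ev_sub _) ⟨_, ⟨hy, hu, s0, s1, L, R, S, e0, e1, rfl⟩, fun l hl => (lv_bd h3 l hl).1 (h4 l hl)⟩

theorem evL_ho (hNP : NP ≤ 4095) {nm : ℕ} {Es : List (List ℕ)} (hM : MdlX B (XE B nm Es) F M) (hF : C F) {L : List ℕ}
    (hL : ∀ i E2, L = i :: E2 → PL B C (nthD Es i) E2) : Ho M (evL NP nm L) := by
  cases L with
  | nil => exact ho_trv M
  | cons i E2 =>
    show Ho M (bif lb i nm && bdL NP E2 then ng (hA i 1) :: ngL E2 else trv)
    cases h1 : lb i nm && bdL NP E2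
    · rw [cond_false]; exact ho_trv M
    rw [cond_true]
    rw [Bool.and_eq_true, lb_iff] at h1
    have hX := xok_XM (NW := NW) (fun i : Fin nm => Km (Ev B F (nthD Es i)) F.b)
      (fun i : Fin nm => Dm (Ev B F (nthD Es i))) F.b
    obtain ⟨hy, u, hu, s0, s1, La, R, S, e0, e1, rfl⟩ := hM
    refine ho_imp fun h4 => lv_ng.2 fun h5 => ?_
    rw [show XE B nm Es F = XM (fun i : Fin nm => Km (Ev B F (nthD Es i)) F.b)
      (fun i : Fin nm => Dm (Ev B F (nthD Es i))) F.b from rfl, hA_av hX hNP h1.1 (by norm_num)] at h5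
    obtain ⟨s, ⟨M', h6, h7⟩, h8⟩ := before_of (ev_sub _) hu.1 h5
    exact hL i E2 rfl F hF s u M' _ h8 h6 ⟨hy, hu, s0, s1, La, R, S, e0, e1, rfl⟩ h7
      fun l hl => (lv_bd h1.2 l hl).1 (h4 l hl)

/-- **the clauses of the monitors and of the pair lemmas hold in every model** -/
theorem evC_ho (hNP : NP ≤ 4095) {nm : ℕ} {Es Ls : List (List ℕ)} (hM : MdlX B (XE B nm Es) F M) (hF : C F)
    (hL : ∀ i E2, (i :: E2) ∈ Ls → PL B C (nthD Es i) E2) (c : ℕ) : Ho M (evC NP nm Es Ls c) := by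
  unfold evC
  cases Nat.beq (Nat.mod c 2) 0
  · rw [cond_false]
    refine evL_ho hNP hM hF fun i E2 e => hL i E2 ?_
    rcases nthD_mem Ls (Nat.div c 2) with h | h
    · rw [h] at e
      exact absurd e (by simp)
    · rw [e] at h
      exact h
  · rw [cond_true]; exact evS_ho hNP hM _

/-! ### the pattern -/

/-- the frames of `C` with the pattern `P` -/
def CP (TC : ℕ) (C : Fr → Prop) (P : List ℕ) (F : Fr) : Prop := C F ∧ ∀ l ∈ P, lf (kap TC) F l

theorem dead_cp {P : List ℕ} (h : Dead (kap TC) (CP TC C P) P) : Dead (kap TC) C P :=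
  fun F hF hall => h F ⟨hF, hall⟩ hall

/-- **a pattern with a certificate with monitors of events is dead** -/
theorem dead_of_ev {nm : ℕ} {Es : List (List ℕ)} {E : List (List ℕ)} {P : List ℕ} {Inv : List (List ℕ)}
    (hC : ∀ F, C F → FOk (kap TC) (cxv NW TC) F) (hNP : NP ≤ 4095)
    (hE : ∀ F M, CP TC C P F → MdlX B (XE B nm Es) F M → ∀ c ∈ E, Ho M c) (hv : Vl (Gp NP TC) (Ce NW TC) P)
    (H : PatH NP NW TB TC nm E P Inv) : Dead (kap TC) C P :=
  dead_cp (dead_of_patH (B := B) (XF := XE B nm Es) (Kc := fun F i => Km (Ev B F (nthD Es i)) F.b)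
    (Hs := fun F i => Dm (Ev B F (nthD Es i))) (fun F hF => hC F hF.1) (fun _ _ _ => dm_closed _)
    (fun _ _ => xok_XM _ _ _) hNP hE hv H)

end

/-! ### two times in one model of three classes -/

section
variable {U : Fin 6 → Set ℂ} {T : ℂ → Set (Fin 6)} {NP NW TB TC NP3 NW3 TB3 TC3 : ℕ} {f1 f2 : ℕ → ℕ}

/-- **The atoms at two times in one model of three classes.** -/
theorem pair3w (F : Hy U T) (B : Tb NP NW TB TC) (B3 : MK.Tb3 NP3 NW3 TB3 TC3) {z : ℂ} {σ : Equiv.Perm (Fin 6)}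
    {u1 s u : ℝ} (hs : s ∈ Ioo u1 (u1 + 1)) (hu : u ∈ Ioo u1 (u1 + 1)) (hsu : s < u)
    (hE1 : MK.emb NP NW NP3 TC TC3 f1 1 = true) (hE2 : MK.emb NP NW NP3 TC TC3 f2 2 = true)
    (hE : MK.same12 NW TC f1 f2 = true)
    {s0 s1 L R s0' s1' L' R' : Fin NW × Fin 6 → Fin 6 × Fin 6}
    (S : St4 U T (Yw u1 s TC z NW) u1 s s0 s1 L R) (S' : St4 U T (Yw u1 u TC z NW) u1 u s0' s1' L' R')
    (e0 : rs TC s0 = rs TC s0') (e1 : rs TC s1 = rs TC s1') :
    ∃ (W : Fin NW3 → ℕ → ℕ → ℕ → Fin 6) (D : Wd U T 3 (MK.t3 u1 s u) (MK.Yw3 u1 s u TC3 z NW3) W),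
      (∀ n, MK.okr 1 NP NW NW3 TC f1 n = true → (av (mS F B z σ hs S) n ↔
        ∃ a ∈ MK.ta 1 f1 n, av (MK.mk3 F B3 z σ hs.1 hsu hu.2 D) a)) ∧
      (∀ n, MK.okr 2 NP NW NW3 TC f2 n = true → (av (mS F B z σ hu S') n ↔
        ∃ a ∈ MK.ta 2 f2 n, av (MK.mk3 F B3 z σ hs.1 hsu hu.2 D) a)) := by
  have E1 := MK.emb_spec hE1
  have E2 := MK.emb_spec hE2
  obtain ⟨Rr, Lr, D, k1, k2⟩ := MK.exists_w3 F B.hNW E1 E2 S S'
  have r1 : (1 : ℕ) = 1 ∨ (1 : ℕ) = 2 := Or.inl rfl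
  have r2 : (2 : ℕ) = 1 ∨ (2 : ℕ) = 2 := Or.inr rfl
  -- letters
  have hW1 : ∀ x < NW, f1 x < NW3 → ∀ t < 12, (1 = 1 ∨ t % 2 = 1 ∨ fx0 TC x = true) → ∀ sd < 2, ∀ io < 2,
      (MK.mk3 F B3 z σ hs.1 hsu hu.2 D).W (f1 x) (MK.tkr 1 t) sd io = (mS F B z σ hs S).W x t sd io := by
    intro x hx hx3 t _ _ sd _ io _
    show nC σ 3 NW3 (fun _ => MK.wdK 3 Rr Lr) (f1 x) (MK.tkr 1 t) sd io = nC σ 2 NW (fun _ => wds s0 s1 L R) x t sd io
    rw [nC_eq hx3, nC_eq hx]
    congr 1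
    have k := k1 ⟨x, hx⟩ hx3
    rcases Nat.mod_two_eq_zero_or_one t with h | h
    · obtain ⟨m1, m2⟩ := MK.tkr_mod_even (r := 1) h
      rw [MK.wdK_eq m1 m2]
      unfold wds
      rw [(k _).1, (k _).2.1, MK.f6_add]
      simp only [if_pos h]
    · obtain ⟨m1, m2⟩ := MK.tkr_mod_odd r1 h
      rw [MK.wdK_eq m1 m2]
      unfold wds
      rw [(k _).2.2.1, (k _).2.2.2]
      simp only [if_neg (show ¬ t % 2 = 0 by omega)]
  have hW2 : ∀ x < NW, f2 x < NW3 → ∀ t < 12, (2 = 1 ∨ t % 2 = 1 ∨ fx0 TC x = true) → ∀ sd < 2, ∀ io < 2,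
      (MK.mk3 F B3 z σ hs.1 hsu hu.2 D).W (f2 x) (MK.tkr 2 t) sd io = (mS F B z σ hu S').W x t sd io := by
    intro x hx hx3 t _ hor sd _ io _
    show nC σ 3 NW3 (fun _ => MK.wdK 3 Rr Lr) (f2 x) (MK.tkr 2 t) sd io =
      nC σ 2 NW (fun _ => wds s0' s1' L' R') x t sd io
    rw [nC_eq hx3, nC_eq hx]
    congr 1
    rcases Nat.mod_two_eq_zero_or_one t with h | h
    · have hfx : fx0 TC x = true := by
        rcases hor with h1 | h1 | h1
        · omega
        · omega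
        · exact h1
      have hf := al_spec hE x hx
      rw [hfx, Bool.not_true, Bool.false_or, nbeq] at hf
      obtain ⟨m1, m2⟩ := MK.tkr_mod_even (r := 2) h
      have hx1 : f1 x < NW3 := by rw [hf]; exact hx3
      have k := k1 ⟨x, hx⟩ hx1
      have ef : (⟨f2 x, hx3⟩ : Fin NW3) = ⟨f1 x, hx1⟩ := Fin.ext hf.symm
      have es0 : ∀ d, s0 (⟨x, hx⟩, d) = s0' (⟨x, hx⟩, d) := fun d => congrFun e0 (⟨x, hx, hfx⟩, d)
      have es1 : ∀ d, s1 (⟨x, hx⟩, d) = s1' (⟨x, hx⟩, d) := fun d => congrFun e1 (⟨x, hx, hfx⟩, d)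
      rw [MK.wdK_eq m1 m2, ef]
      unfold wds
      rw [(k _).1, (k _).2.1, MK.f6_add, es0, es1]
      simp only [if_pos h]
    · obtain ⟨m1, m2⟩ := MK.tkr_mod_odd r2 h
      have k := k2 ⟨x, hx⟩ hx3
      rw [MK.wdK_eq m1 m2]
      unfold wds
      rw [(k _).1, (k _).2]
      simp only [if_neg (show ¬ t % 2 = 0 by omega)]
  exact ⟨_, D, fun n hn => MK.av_ta (r := 1) (hw := hs) (S := S) r1 E1 hW1 hn,
    fun n hn => MK.av_ta (r := 2) (hw := hu) (S := S') r2 E2 hW2 hn⟩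

end

/-- the reading of the points of a model of `K` classes -/
structure RdK (K NP NW TB : ℕ) (F : Fr) (M : Md K NP NW (nbf K TB)) (Y : ℕ → ℂ) (a : ℕ → ℝ) : Prop where
  nb : ∀ x < NP, ∀ t < 6 * K, nbf K TB x t < NP → Y (nbf K TB x t) = Y x + dir (a t)
  t : ∀ x < NP, ∀ q, M.T x q ↔ co F.σ q ∈ F.T (Y x)

section
variable {NP NW TB TC NP3 NW3 TB3 TC3 : ℕ} {f1 f2 : ℕ → ℕ} {B : Tb NP NW TB TC} {F : Fr} {C : Fr → Prop}

/-- the literals of three classes for a literal of a clause of two classes -/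
def tlt (r : ℕ) (f : ℕ → ℕ) (l : ℕ) : List ℕ :=
  bif Nat.beq (Nat.mod l 2) 0 then mpS ps (MK.ta r f (Nat.div l 2)) else [ng (pkd (MK.ta r f (Nat.div l 2)) 0)]

/-- the clause of three classes for a clause of two classes -/
def tcl (r : ℕ) (f : ℕ → ℕ) (c : List ℕ) : List ℕ :=
  @List.rec ℕ (fun _ => List ℕ) [] (fun l _ ih => List.append (tlt r f l) ih) c

/-- all literals of a clause are admissible -/
def okc (r NP NW NW3 TC : ℕ) (f : ℕ → ℕ) (c : List ℕ) : Bool := alL (fun l => MK.okr r NP NW NW3 TC f (Nat.div l 2)) c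

/-- the clause of three classes for an admissible clause of two classes -/
def tcc (r NP NW NW3 TC : ℕ) (f : ℕ → ℕ) (c : List ℕ) : List ℕ := bif okc r NP NW NW3 TC f c then tcl r f c else trv

theorem ta_ne {r n : ℕ} {f : ℕ → ℕ} : MK.ta r f n ≠ [] := by
  have h3 : ∀ kd x j q, MK.sec3 kd r x j q ≠ [] := fun kd x j q => by
    unfold MK.sec3 MK.sec2
    cases Nat.beq (Nat.mod j 2) 0 <;> cases Nat.beq r 1 <;> simp
  unfold MK.ta MK.taA
  cases Nat.ble (Nat.mod n 16) 1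
  · cases Nat.ble (Nat.mod n 16) 3
    · cases Nat.ble (Nat.mod n 16) 5
      · cases Nat.beq (Nat.mod n 16) 6
        · cases Nat.ble (Nat.mod n 16) 10
          · cases Nat.beq (Nat.mod n 16) 11
            · cases Nat.beq (Nat.mod n 16) 12
              · exact List.cons_ne_nil _ _
              · intro h
                exact h3 _ _ _ _ (List.append_eq_nil_iff.1 h).1
            · intro h
              exact h3 _ _ _ _ (List.append_eq_nil_iff.1 h).1
          · exact List.cons_ne_nil _ _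
        · exact List.cons_ne_nil _ _
      · exact List.cons_ne_nil _ _
    · exact List.cons_ne_nil _ _
  · cases Nat.beq (Nat.mod (Nat.div n 16777216) 8) 0
    · exact List.cons_ne_nil _ _
    · exact h3 _ _ _ _

theorem tlt_ho {K NP' NW' : ℕ} {nb' : ℕ → ℕ → ℕ} {M3 : Md K NP' NW' nb'} {M : Md 2 NP NW (nbf 2 TB)} {r l : ℕ}
    {f : ℕ → ℕ} (h : av M (l / 2) ↔ ∃ a ∈ MK.ta r f (l / 2), av M3 a) (hl : lv M l) : ∃ a ∈ tlt r f l, lv M3 a := by
  unfold tlt
  have e1 : Nat.mod l 2 = l % 2 := rfl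
  have e2 : Nat.div l 2 = l / 2 := rfl
  unfold lv at hl
  rcases Nat.mod_two_eq_zero_or_one l with h0 | h0
  · rw [if_pos h0] at hl
    rw [e1, h0, e2]
    obtain ⟨a, ha, hv⟩ := h.1 hl
    exact ⟨ps a, mpS_mem (f := ps) ha, lv_ps.2 hv⟩
  · rw [if_neg (by omega)] at hl
    rw [e1, h0, e2]
    exact ⟨_, List.mem_singleton_self _, lv_ng.2 fun hv => hl (h.2 ⟨_, pkd_mem ta_ne 0, hv⟩)⟩

theorem tcl_sub {r : ℕ} {f : ℕ → ℕ} {c : List ℕ} {l : ℕ} (hl : l ∈ c) : ∀ a ∈ tlt r f l, a ∈ tcl r f c := by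
  induction c with
  | nil => exact absurd hl List.not_mem_nil
  | cons y c ih =>
    intro a ha
    have e : tcl r f (y :: c) = tlt r f y ++ tcl r f c := rfl
    rw [e]
    rcases List.mem_cons.1 hl with rfl | hl
    · exact List.mem_append_left _ ha
    · exact List.mem_append_right _ (ih hl a ha)

theorem tcc_ho {K NP' NW' : ℕ} {nb' : ℕ → ℕ → ℕ} {M3 : Md K NP' NW' nb'} {M : Md 2 NP NW (nbf 2 TB)} {r : ℕ}
    {f : ℕ → ℕ} (h : ∀ n, MK.okr r NP NW NW3 TC f n = true → (av M n ↔ ∃ a ∈ MK.ta r f n, av M3 a)) {c : List ℕ}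
    (hc : Ho M c) (h3 : Ho M3 trv) : Ho M3 (tcc r NP NW NW3 TC f c) := by
  unfold tcc
  cases h1 : okc r NP NW NW3 TC f c
  · rw [cond_false]; exact h3
  rw [cond_true]
  obtain ⟨l, hl, h2⟩ := hc
  obtain ⟨a, ha, h4⟩ := tlt_ho (h _ (alL_spec h1 l hl)) h2
  exact ⟨a, tcl_sub hl a ha, h4⟩

/-- the models of three classes of a frame -/
def Mdl3 (NP3 NW3 TB3 TC3 : ℕ) (F : Fr) (M : Md 3 NP3 NW3 (nbf 3 TB3)) : Prop :=
  ∃ (hy : Hy F.U F.T) (B3 : MK.Tb3 NP3 NW3 TB3 TC3) (s u : ℝ) (h1 : F.b < s) (h2 : s < u) (h3 : u < F.b + 1)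
    (W : Fin NW3 → ℕ → ℕ → ℕ → Fin 6) (D : Wd F.U F.T 3 (MK.t3 F.b s u) (MK.Yw3 F.b s u TC3 F.z NW3) W),
    M = MK.mk3 hy B3 F.z F.σ h1 h2 h3 D

theorem rd3 {M : Md 3 NP3 NW3 (nbf 3 TB3)} (h : Mdl3 NP3 NW3 TB3 TC3 F M) : ∃ Y a, RdK 3 NP3 NW3 TB3 F M Y a := by
  obtain ⟨hy, B3, s, u, h1, h2, h3, W, D, rfl⟩ := h
  exact ⟨Yt (MK.t3 F.b s u) 3 TC3 F.z, MK.t3 F.b s u,
    fun x hx t ht hn => hY_of_tchk (MK.tick_t3 h1 h2 h3) F.z B3.ht x hx t ht hn, fun _ _ _ => Iff.rfl⟩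

/-- no model of three classes satisfies the clauses `e` -/
def Qy3 (NP NW TB : ℕ) (e : List (List ℕ)) : Prop :=
  ∀ M : Md 3 NP NW (nbf 3 TB), (∀ c ∈ e, Ho M c) → False

/-- the clauses of a pair lemma, code `k + 4 i` : `k = 0` the literals of the two events, `k = 1` a clause of two classes
at the first time, `k = 2` at the second time, `k = 3` a clause of three classes -/
def e3F (NP NW NW3 TC : ℕ) (f1 f2 : ℕ → ℕ) (fam g : ℕ → List ℕ) (E1 E2 : List ℕ) (c : ℕ) : List ℕ :=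
  bif Nat.beq (Nat.mod c 4) 0 then nthC (MK.e3 f1 f2 E1 E2) (Nat.div c 4) else
  bif Nat.beq (Nat.mod c 4) 1 then tcc 1 NP NW NW3 TC f1 (fam (Nat.div c 4)) else
  bif Nat.beq (Nat.mod c 4) 2 then tcc 2 NP NW NW3 TC f2 (fam (Nat.div c 4)) else g (Nat.div c 4)

/-- **A pair lemma from a query of three classes.** -/
theorem pl_of_3 (B3 : MK.Tb3 NP3 NW3 TB3 TC3) (hE1 : MK.emb NP NW NP3 TC TC3 f1 1 = true)
    (hE2 : MK.emb NP NW NP3 TC TC3 f2 2 = true) (hE : MK.same12 NW TC f1 f2 = true) {fam g : ℕ → List ℕ}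
    {E1 E2 : List ℕ} (hfam : ∀ F M, C F → Mdl B F M → ∀ c, Ho M (fam c))
    (hg : ∀ F M, C F → Mdl3 NP3 NW3 TB3 TC3 F M → ∀ c, Ho M (g c))
    (ok1 : okc 1 NP NW NW3 TC f1 E1 = true) (ok2 : okc 2 NP NW NW3 TC f2 E2 = true) {cs : List ℕ}
    (hq : Qy3 NP3 NW3 TB3 (cs.map (e3F NP NW NW3 TC f1 f2 fam g E1 E2))) : PL B C E1 E2 := by
  intro F hF s u M M' hsu hM hM' h1 h2
  have m1 := hfam F M hF hM.mdl
  have m2 := hfam F M' hF hM'.mdl
  obtain ⟨hy, hs, s0, s1, L, R, S, e0, e1, rfl⟩ := hM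
  obtain ⟨_, hu, s0', s1', L', R', S', e0', e1', rfl⟩ := hM'
  obtain ⟨W, D, k1, k2⟩ := pair3w hy B B3 (z := F.z) (σ := F.σ) hs hu hsu hE1 hE2 hE S S' (e0.trans e0'.symm)
    (e1.trans e1'.symm)
  have m3 : Mdl3 NP3 NW3 TB3 TC3 F (MK.mk3 hy B3 F.z F.σ hs.1 hsu hu.2 D) :=
    ⟨hy, B3, s, u, hs.1, hsu, hu.2, W, D, rfl⟩
  have mg := hg F _ hF m3
  generalize MK.mk3 hy B3 F.z F.σ hs.1 hsu hu.2 D = M3 at k1 k2 mg
  refine hq M3 fun c hc => ?_
  obtain ⟨i, -, rfl⟩ := List.mem_map.1 hc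
  unfold e3F
  cases Nat.beq (Nat.mod i 4) 0
  · rw [cond_false]
    cases Nat.beq (Nat.mod i 4) 1
    · rw [cond_false]
      cases Nat.beq (Nat.mod i 4) 2
      · rw [cond_false]
        exact mg _
      · rw [cond_true]
        exact tcc_ho k2 (m2 _) (ho_trv M3)
    · rw [cond_true]
      exact tcc_ho k1 (m1 _) (ho_trv M3)
  · rw [cond_true]
    refine nthC_ho (fun c hc => ?_) _
    unfold MK.e3 at hc
    rw [List.mem_append, List.mem_flatMap, List.mem_flatMap] at hc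
    rcases hc with ⟨l, hl, hc⟩ | ⟨l, hl, hc⟩
    · exact MK.ho_tl (k1 _ (alL_spec ok1 l hl)) (h1 l hl) c hc
    · exact MK.ho_tl (k2 _ (alL_spec ok2 l hl)) (h2 l hl) c hc

end

/-! ### clauses of `K` classes -/

section
variable {K NP NW TB : ℕ} {F : Fr} {M : Md K NP NW (nbf K TB)} {Y : ℕ → ℂ} {a : ℕ → ℝ}

theorem RdK.av4 (hM : RdK K NP NW TB F M Y a) {x q : ℕ} (hx : x < NP) :
    av M (En 4 x 0 0 q) ↔ co F.σ q ∈ F.T (Y x) := by
  rw [H820.K.av4 (lt_of_lt_of_le hx M.hNP)]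
  exact hM.t x hx q

theorem ho_n5K (hM : RdK K NP NW TB F M Y a) {x m : ℕ} (hx : x < NP) {c : List ℕ}
    (h : 5 ≤ (F.T (Y x)).ncard → Ho M c) : Ho M (n5 x m c) := by
  unfold n5
  refine H820.K.hn fun h0 => H820.K.hn fun h1 => H820.K.hn fun h2 => H820.K.hn fun h3 => H820.K.hn fun h4 =>
    H820.K.hn fun h5 => h (five_le (σ := F.σ) (m := m) ?_)
  intro q hq hqm
  rw [← hM.av4 hx]
  have e := sl_ne hqm
  interval_cases q
  · rw [e] at h0; exact h0
  · rw [e] at h1; exact h1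
  · rw [e] at h2; exact h2
  · rw [e] at h3; exact h3
  · rw [e] at h4; exact h4
  · rw [e] at h5; exact h5

/-- no two points with five colours at distance one, code `x + 2^8 s + 2^13 m + 2^16 m'` -/
def n55K (K NP TB n : ℕ) : List ℕ :=
  bif lb (Nat.land n 255) NP && (lb (Nat.land (Nat.shiftRight n 8) 31) (Nat.mul 6 K) &&
      lb (nbf K TB (Nat.land n 255) (Nat.land (Nat.shiftRight n 8) 31)) NP) then
    n5 (Nat.land n 255) (Nat.land (Nat.shiftRight n 13) 7)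
      (n5 (nbf K TB (Nat.land n 255) (Nat.land (Nat.shiftRight n 8) 31)) (Nat.land (Nat.shiftRight n 16) 7) [])
  else trv

theorem n55K_ho (hM : RdK K NP NW TB F M Y a) (h : N55 F.T) (n : ℕ) : Ho M (n55K K NP TB n) := by
  unfold n55K
  generalize Nat.land n 255 = x
  generalize Nat.land (Nat.shiftRight n 8) 31 = s
  cases h1 : lb x NP && (lb s (Nat.mul 6 K) && lb (nbf K TB x s) NP)
  · rw [cond_false]; exact ho_trv M
  · rw [cond_true]
    rw [Bool.and_eq_true, Bool.and_eq_true, lb_iff, lb_iff, lb_iff] at h1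
    obtain ⟨hx, hs, hn⟩ := h1
    refine ho_n5K hM hx fun h2 => ho_n5K hM hn fun h3 => (h _ _ ?_ h2 h3).elim
    rw [hM.nb x hx s hs hn, dist_comm, dist_eq_norm, add_sub_cancel_left]
    exact norm_dir _

end

end Vale.Agent.P032.H357.RunP
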