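import Vale.Agent.P032.H357.SymW

/-!
# P032: images of the patterns of a pair (a point with many colours next to the centre)

A pattern which is dead for the frames with at least `kk` colours at the point in the direction `b` gives clauses at every
named point, in both classes and for all twelve elements, if the point in the corresponding direction has at least `kk`
colours.

* `rotN` : the frame turned `r` times, `dead_gr` : the image of a dead pattern under the element `g` is dead for the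
  frames `F` with `C (rotN tab (g % 6) F)`,
* `shW_ho` : the clause without guard holds if the image of the pattern does not occur in the frame,
* `gvC`, `ho_gvA` : the guard at a neighbour,
* `imU`, `imU_ho`, `imU_hoX` : the clauses, `clU_cw` : the class `CW Q n kk`.
-/

open Set Filter Topology Metric

noncomputable section

namespace Vale.Agent.P032.H357.SymU

open Vale.Agent.P032.Six Vale.Agent.P032.Words Vale.Agent.P032.S5.H767
  Vale.Agent.P032.H913 Vale.Agent.P032.H357 Vale.Agent.P032.H61 Vale.Agent.P032.BlkV Vale.Agent.P032.BlkE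
  Vale.Agent.P032.H357.SymV Vale.Agent.P032.H357.SymW
open Vale.Agent.P032.H892 (AccR AccL)
open Vale.Agent.P032.H357.MK (co no co_no co_surj no_co no_lt co_inj of6 ct6 fx0 cf al al_spec Tb nbeq Cn alL alL_spec
  Hy Leg mS St4 Yt Yw t2_zero t2_one nC nC_eq xT xT_av rs nio)
open Vale.Agent.P032.H820.K (a0 a1 a2 a3 a4 En en_eq dec Md av lv Ho ps ng lv_ps lv_ng nbf lb lb_iff trv ho_trv av0 av4
  av5 av6 av9 av11 av14 av15)

/-! ### turned frames -/

/-- the frame turned `r` times -/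
def rotN (tab : ℕ → ℕ → ℕ) (r : ℕ) : Fr → Fr := Nat.rec (fun F => F) (fun _ f F => f (F.rot (tab 1))) r

theorem rotN_zero (tab : ℕ → ℕ → ℕ) (F : Fr) : rotN tab 0 F = F := rfl

theorem rotN_succ (tab : ℕ → ℕ → ℕ) (r : ℕ) (F : Fr) : rotN tab (r + 1) F = rotN tab r (F.rot (tab 1)) := rfl

section
variable {κ : ℕ → ℤ × ℤ} {G Ce : ℕ → Prop} {tab : ℕ → ℕ → ℕ} {C C' : Fr → Prop} {P : List ℕ}

theorem rotN_U (tab : ℕ → ℕ → ℕ) (r : ℕ) (F : Fr) : (rotN tab r F).U = F.U := by
  induction r generalizing F with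
  | zero => rfl
  | succ r ih => rw [rotN_succ, ih]; rfl

theorem rotN_T (tab : ℕ → ℕ → ℕ) (r : ℕ) (F : Fr) : (rotN tab r F).T = F.T := by
  induction r generalizing F with
  | zero => rfl
  | succ r ih => rw [rotN_succ, ih]; rfl

theorem rotN_P (t : Tabs κ G Ce tab) {r : ℕ} (hr : r < 6) (F : Fr) {x : ℕ} (hx : G x) :
    (rotN tab r F).P κ x = F.P κ (tab r x) := by
  induction r generalizing F with
  | zero => rw [rotN_zero, t.zero x hx]
  | succ r ih =>
    rw [rotN_succ, ih (by omega), P_rot (t.rot _ (t.good x hx r (by omega))), ← t.sr x hx r (by omega)]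

theorem dead_map' {f : ℕ → ℕ} {g : Fr → Fr} (hP : Dead κ C P) (hC : ∀ F, C' F → C (g F))
    (h : ∀ F, C' F → ∀ l ∈ P, (H61.tv κ (g F) (l / 2) ↔ H61.tv κ F (f (l / 2)))) : Dead κ C' (P.map (lm f)) := by
  intro F hF hall
  exact hP (g F) (hC F hF) fun l hl => (lf_lm (h F hF l hl)).2 (hall _ (List.mem_map_of_mem hl))

variable (t : Tabs κ G Ce tab)
include t

theorem dead_rot' (hP : Dead κ C P) (hv : Vl G Ce P) (hC : ∀ F, C' F → C (F.rot (tab 1))) :
    Dead κ C' (P.map (lm (nr (tab 1) 1))) := by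
  refine dead_map' hP hC fun F hF l hl => ?_
  have h := hv l hl
  unfold H61.nr
  rw [tv_en t.lt (Wa.rot h (t.good _ h.va.pt 1 (by norm_num)) fun hc => t.cen _ hc 1 (by norm_num))]
  exact tva_rot (t.rot _ h.va.pt) h.va

/-- **images of dead patterns for a class which is only closed under the reflection `6`** -/
theorem dead_gr (hP : Dead κ C P) (hv : Vl G Ce P) (hCm : ∀ F, C F → C (F.mir (tab 6))) {g : ℕ} (hg : g < 12) :
    Dead κ (fun F => C (rotN tab (g % 6) F)) (P.map (lm (gn tab g))) := by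
  have hvg : ∀ g < 12, Vl G Ce (P.map (lm (gn tab g))) := fun g hg => hv.map fun n hn => wn_gn t hg hn
  have key1 : ∀ r, r ≤ 5 → Dead κ (fun F => C (rotN tab r F)) (P.map (lm (gn tab r))) := by
    intro r
    induction r with
    | zero =>
      intro _
      refine dead_map' (g := id) hP (fun F hF => hF) fun F hF l hl => ?_
      obtain ⟨e0, e1, e2, e3, e4⟩ := gn_zero t (hv l hl)
      unfold H61.tv
      rw [e0, e1, e2, e3, e4]
      exact Iff.rfl
    | succ r ih =>
      intro hr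
      have h1 := dead_rot' t (ih (by omega)) (hvg r (by omega)) (C' := fun F => C (rotN tab (r + 1) F))
        fun F hF => hF
      rw [map_lm_lm, map_congr' hv (fun n hn => gn_r t (by omega) hn)] at h1
      exact h1
  have key2 : ∀ r, r ≤ 5 → Dead κ (fun F => C (rotN tab r F)) (P.map (lm (gn tab (6 + r)))) := by
    intro r
    induction r with
    | zero =>
      intro _
      have h1 := dead_mir t hP hv hCm
      rw [map_congr' hv (fun n hn => (gn_six t hn).symm)] at h1
      exact h1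
    | succ r ih =>
      intro hr
      have h1 := dead_rot' t (ih (by omega)) (hvg (6 + r) (by omega)) (C' := fun F => C (rotN tab (r + 1) F))
        fun F hF => hF
      rw [map_lm_lm, map_congr' hv (fun n hn => gn_m t (by omega) hn)] at h1
      exact h1
  rcases Nat.lt_or_ge g 6 with h | h
  · rw [Nat.mod_eq_of_lt h]
    exact key1 g (by omega)
  · have h1 := key2 (g - 6) (by omega)
    rw [show 6 + (g - 6) = g by omega] at h1
    rw [show g % 6 = g - 6 by omega]
    exact h1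

end

/-! ### the clause of an image -/

section
variable {NP NW TB TC TG TS TR NT r k : ℕ} {B : Tb NP NW TB TC} {F : Fr} {M M0 : Md 2 NP NW (nbf 2 TB)} {C : Fr → Prop}

/-- **the clause without guard** : it holds if the image of the pattern does not occur in the frame -/
theorem shW_ho (t : Tabs (kap TC) (Gp NP TC) (Ce NW TC) (ptb TG)) {hy : Hy F.U F.T} {u : ℝ}
    {hu : u ∈ Ioo F.b (F.b + 1)} {s0 s1 L R : Fin NW × Fin 6 → Fin 6 × Fin 6}
    {S : St4 F.U F.T (Yw F.b u TC F.z NW) F.b u s0 s1 L R}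
    (hA : Agr NP NW TB M (mS hy B F.z F.σ hu S)) (hs : WTab NP TC TS r k) (hr : r < 2) {F' : Fr}
    (hF' : Fw NP NW TC TS r k F.U F.T F.z F.σ F.b u s0 s1 L R F') {g cp x : ℕ} (hg : g < 12)
    (h5 : Vl (Gp NP TC) (Ce NW TC) (pk x)) {π : Equiv.Perm (Fin 6)} (h2 : ∀ q < 6, pn π q = cpf cp q)
    (h8 : ¬ ∀ l ∈ (pk x).map (lm (gn (ptb TG) g)), lf (kap TC) (F'.col π) l) (sd : ℕ) :
    Ho M (shW NW TS r k sd (imC TG cp g x)) := by
  unfold shW
  cases h6 : alL (okW NW TS r k) (imC TG cp g x)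
  · rw [cond_false]; exact ho_trv M
  rw [cond_true]
  rw [not_forall] at h8
  obtain ⟨l, h8⟩ := h8
  rw [Classical.not_imp] at h8
  obtain ⟨hl, h8⟩ := h8
  obtain ⟨l0, hl0, rfl⟩ := List.mem_map.1 hl
  have hw0 := wn_gn t hg (h5 l0 hl0)
  obtain ⟨v, hm, hv1, hv2⟩ := imC_mem t hg (h5 l0 hl0) hl0 h2
  obtain ⟨d, hd⟩ := clW_mem (TS := TS) (r := r) (k := k) hm sd
  have k1 : H61.tv (kap TC) F' (nc (pn π) (gn (ptb TG) g (l0 / 2))) ↔
      H61.tv (kap TC) (F'.col π) (gn (ptb TG) g (l0 / 2)) := by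
    unfold H61.nc
    rw [tv_en t.lt (Wa.col hw0 π)]
    exact (tva_col' π).symm
  unfold lf at h8
  rw [lm_mod, lm_div, ← k1] at h8
  obtain ⟨a, ha, h9⟩ := lit_ho hA hs hr hF' (hw0.nc t π) (Nat.mod_lt l0 (by norm_num)) hv1 hv2
    (alL_spec h6 v hm) h8 d
  exact ⟨a, hd a ha, h9⟩

/-! ### the guard at a neighbour -/

/-- not at least `kk` colours at the point `p` (`kk = 5` : all colours but `e`, otherwise all but `e`, `f`), or `L` -/
def gvC (kk p e f : ℕ) (L : List ℕ) : List ℕ := bif Nat.beq kk 5 then n5 p e L else n4 p e f L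

theorem ho_gvA {kk p e f : ℕ} (hkk : kk ≤ 5) {Y : ℂ}
    (hY : ∀ q < 6, (av M (En 4 p 0 0 q) ↔ co F.σ q ∈ F.T Y)) {L : List ℕ} (h : kk ≤ (F.T Y).ncard → Ho M L) :
    Ho M (gvC kk p e f L) := by
  unfold gvC
  cases h1 : Nat.beq kk 5
  · rw [cond_false]
    have h2 : kk ≠ 5 := fun e => by rw [nbeq.2 e] at h1; exact Bool.noConfusion h1
    unfold n4
    refine H820.K.hn fun h0 => H820.K.hn fun h1 => H820.K.hn fun h2 => H820.K.hn fun h3 => H820.K.hn fun h4 =>
      H820.K.hn fun h5 => h ((show kk ≤ 4 by omega).trans (four_le (σ := F.σ) (m := e) (m' := f) ?_))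
    intro q hq hqm hqm'
    rw [← hY q hq]
    have e := sl2_ne hqm hqm'
    interval_cases q
    · rw [e] at h0; exact h0
    · rw [e] at h1; exact h1
    · rw [e] at h2; exact h2
    · rw [e] at h3; exact h3
    · rw [e] at h4; exact h4
    · rw [e] at h5; exact h5
  · rw [cond_true]
    unfold n5
    refine H820.K.hn fun h0 => H820.K.hn fun h1 => H820.K.hn fun h2 => H820.K.hn fun h3 => H820.K.hn fun h4 =>
      H820.K.hn fun h5 => h (hkk.trans (five_le (σ := F.σ) (m := e) ?_))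
    intro q hq hqm
    rw [← hY q hq]
    have e := sl_ne hqm
    interval_cases q
    · rw [e] at h0; exact h0
    · rw [e] at h1; exact h1
    · rw [e] at h2; exact h2
    · rw [e] at h3; exact h3
    · rw [e] at h4; exact h4
    · rw [e] at h5; exact h5

/-! ### images of the patterns of a pair -/

/-- the clause for the element `g`, the permutation `cp`, the row `k`, the pattern `x` -/
def imUc (n kk TG TS TR NW g cp k x e f s : ℕ) : List ℕ :=
  bif Nat.beq (shT TS k (ptb TG (Nat.mod g 6) 1)) 4095 then trv else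
    gdC n cp (shT TS k 0) (gvC kk (shT TS k (ptb TG (Nat.mod g 6) 1)) e f
      (shW NW TS (rw1 TR k) k s (imC TG cp g x)))

/-- the clause of an image of a pattern of the pairs, code
`g + 2^4 i + 2^12 k + 2^18 m + 2^38 e + 2^41 f + 2^44 s` : the element `g`, the permutation `i`, the row `k`, the
pattern `m`, the missing colours `e`, `f` of the neighbour in the direction `g % 6`, the digits `s` -/
def imU (n kk : ℕ) (t : PTr) (PT NPM TG TS TR NT NW c : ℕ) : List ℕ :=
  bif (lb (Nat.land c 15) 12 && lb (Nat.land (Nat.shiftRight c 4) 255) NPM) &&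
      lb (Nat.land (Nat.shiftRight c 12) 63) NT then
    imUc n kk TG TS TR NW (Nat.land c 15) (cpt PT (Nat.land (Nat.shiftRight c 4) 255))
      (Nat.land (Nat.shiftRight c 12) 63) (t.get (Nat.land (Nat.shiftRight c 18) 1048575))
      (Nat.land (Nat.shiftRight c 38) 7) (Nat.land (Nat.shiftRight c 41) 7) (Nat.shiftRight c 44)
  else trv

/-- the class `C` contains all valid frames with the map of `F` whose centre has exactly the colours below `n` and whose
point in the direction `b` has at least `kk` colours -/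
def ClU (n kk NW TC : ℕ) (C : Fr → Prop) (F : Fr) : Prop :=
  ∀ F', F'.U = F.U → F'.T = F.T → CN n NW TC F' → kk ≤ (F'.T (pt F'.z F'.b)).ncard → C F'

theorem clU_cw {Q : (ℂ → Set (Fin 6)) → Prop} {n kk NW TC : ℕ} {F : Fr} (h : Q F.T) :
    ClU n kk NW TC (CW Q n kk NW TC) F := fun _ _ eT h1 h2 => ⟨⟨h1, by rw [eT]; exact h⟩, h2⟩

theorem cn_rotN (t : Tabs (kap TC) (Gp NP TC) (Ce NW TC) (ptb TG)) (hNW : NW ≤ NP) {n : ℕ} (q : ℕ) {F' : Fr}
    (h : CN n NW TC F') : CN n NW TC (rotN (ptb TG) q F') := by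
  induction q generalizing F' with
  | zero => exact h
  | succ q ih => exact ih (h.rot t hNW)

/-- **clauses of images of the patterns of a pair hold in every model** -/
theorem imU_hoA (t : Tabs (kap TC) (Gp NP TC) (Ce NW TC) (ptb TG)) (h1 : kap TC 1 = (1, 0)) (g1 : Gp NP TC 1)
    (hS : wchk NP TC TS TR NT = true) (hM : Mdl B F M0) (hA : Agr NP NW TB M M0) {n kk : ℕ} (hkk : kk ≤ 5)
    (hC : ClU n kk NW TC C F) (hCm : ∀ F, C F → C (F.mir (ptb TG 6))) {PT NPM : ℕ} (hPT : okQ PT NPM = true) {tr : PTr}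
    (ht : tr.All fun p => Dead (kap TC) C (pk p) ∧ Vl (Gp NP TC) (Ce NW TC) (pk p)) (c : ℕ) :
    Ho M (imU n kk tr PT NPM TG TS TR NT NW c) := by
  unfold imU
  cases h0 : (lb (Nat.land c 15) 12 && lb (Nat.land (Nat.shiftRight c 4) 255) NPM) &&
      lb (Nat.land (Nat.shiftRight c 12) 63) NT
  · rw [cond_false]; exact ho_trv M
  rw [cond_true]
  rw [Bool.and_eq_true, Bool.and_eq_true, lb_iff, lb_iff, lb_iff] at h0
  generalize Nat.land c 15 = g at h0
  generalize Nat.land (Nat.shiftRight c 4) 255 = i at h0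
  generalize Nat.land (Nat.shiftRight c 12) 63 = k at h0
  generalize Nat.shiftRight c 44 = sd
  generalize Nat.land (Nat.shiftRight c 38) 7 = e
  generalize Nat.land (Nat.shiftRight c 41) 7 = f
  obtain ⟨⟨hg, hi⟩, hk⟩ := h0
  obtain ⟨π, h2⟩ := okQ_spec hPT hi
  generalize cpt PT i = cp at h2
  obtain ⟨h4, h5⟩ := PTr.get_all ht (Nat.land (Nat.shiftRight c 18) 1048575)
  generalize tr.get (Nat.land (Nat.shiftRight c 18) 1048575) = x at h4 h5
  unfold imUc
  have hs := wtab_of hS hk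
  have hr := rw1_lt TR k
  generalize rw1 TR k = r at hs hr
  have hgm : Nat.mod g 6 < 6 := Nat.mod_lt g (by norm_num)
  cases h6 : Nat.beq (shT TS k (ptb TG (Nat.mod g 6) 1)) 4095
  · rw [cond_false]
    have hne : shT TS k (ptb TG (Nat.mod g 6) 1) ≠ 4095 := fun e => by
      rw [nbeq.2 e] at h6; exact Bool.noConfusion h6
    have hgp : Gp NP TC (ptb TG (Nat.mod g 6) 1) := t.good 1 g1 _ (by omega)
    obtain ⟨hy, u, hu, s0, s1, L, R, S, e0, e1, rfl⟩ := id hM
    obtain ⟨F', hF'⟩ := exists_fw B.hNW hs hr hy F.σ S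
    have ha4 : shT TS k 0 < 4096 := lt_of_lt_of_le hs.ga B.hNP
    have hb := (hs.sp _ hgp hne).1
    have hb4 : shT TS k (ptb TG (Nat.mod g 6) 1) < 4096 := lt_of_lt_of_le hb B.hNP
    refine ho_gdCA (F := F) B hA (Y := F'.z) hs.ga (fun q hq => ?_)
      (fun q hq => by rw [← h2 q hq]; exact pn_lt π q) fun hT => ?_
    · rw [av4 ha4]
      show co F.σ q ∈ F.T (Yt (t2 F.b u) 2 TC F.z (shT TS k 0)) ↔ _
      rw [hF'.ez]
    refine ho_gvA (F := F) hkk (Y := F'.P (kap TC) (ptb TG (Nat.mod g 6) 1)) (fun q hq => ?_) fun hV => ?_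
    · have g0 : a1 (En 4 (shT TS k (ptb TG (Nat.mod g 6) 1)) 0 0 q) = shT TS k (ptb TG (Nat.mod g 6) 1) :=
        (dec (by norm_num) hb4 (by norm_num) (by norm_num)).2.1
      rw [hA _ (by rw [g0]; exact hb), av4 hb4]
      show co F.σ q ∈ F.T (Yt (t2 F.b u) 2 TC F.z (shT TS k (ptb TG (Nat.mod g 6) 1))) ↔
        co F.σ q ∈ F.T (hp F'.z F'.b (kap TC (ptb TG (Nat.mod g 6) 1)))
      rw [hF'.ez, hF'.eb, hs.pt hr hgp hne]
    refine shW_ho t hA hs hr hF' hg h5 h2 (dead_gr t h4 h5 hCm hg (F'.col π) ?_) sd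
    refine hC _ ?_ ?_ (cn_rotN t B.hNW _ ⟨hF'.ok.col π, fun q hq => ?_⟩) ?_
    · rw [rotN_U]; exact hF'.eU
    · rw [rotN_T]; exact hF'.eT
    · show co (F'.σ * π) q ∈ F'.T F'.z ↔ q < n
      rw [co_pn, hF'.es, hF'.eT, h2 q hq]
      exact hT q hq
    · rw [← BlkV.P_one h1, rotN_P t (show g % 6 < 6 from hgm) _ g1, rotN_T]
      show kk ≤ (F'.T (F'.P (kap TC) (ptb TG (Nat.mod g 6) 1))).ncard
      rw [hF'.eT]
      exact hV
  · rw [cond_true]; exact ho_trv M

/-- the clauses hold in every model -/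
theorem imU_ho (t : Tabs (kap TC) (Gp NP TC) (Ce NW TC) (ptb TG)) (h1 : kap TC 1 = (1, 0)) (g1 : Gp NP TC 1)
    (hS : wchk NP TC TS TR NT = true) (hM : Mdl B F M) {n kk : ℕ} (hkk : kk ≤ 5)
    (hC : ClU n kk NW TC C F) (hCm : ∀ F, C F → C (F.mir (ptb TG 6))) {PT NPM : ℕ} (hPT : okQ PT NPM = true) {tr : PTr}
    (ht : tr.All fun p => Dead (kap TC) C (pk p) ∧ Vl (Gp NP TC) (Ce NW TC) (pk p)) (c : ℕ) :
    Ho M (imU n kk tr PT NPM TG TS TR NT NW c) := imU_hoA t h1 g1 hS hM (fun _ _ => Iff.rfl) hkk hC hCm hPT ht c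

/-- the clauses hold in every model with free atoms -/
theorem imU_hoX (t : Tabs (kap TC) (Gp NP TC) (Ce NW TC) (ptb TG)) (h1 : kap TC 1 = (1, 0)) (g1 : Gp NP TC 1)
    (hS : wchk NP TC TS TR NT = true) {XF : Fr → MK.XV NW} (hM : MdlX B XF F M) {n kk : ℕ} (hkk : kk ≤ 5)
    (hC : ClU n kk NW TC C F) (hCm : ∀ F, C F → C (F.mir (ptb TG 6))) {PT NPM : ℕ} (hPT : okQ PT NPM = true) {tr : PTr}
    (ht : tr.All fun p => Dead (kap TC) C (pk p) ∧ Vl (Gp NP TC) (Ce NW TC) (pk p)) (c : ℕ) :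
    Ho M (imU n kk tr PT NPM TG TS TR NT NW c) := by
  obtain ⟨M0, X, h2, rfl⟩ := hM.base
  exact imU_hoA t h1 g1 hS h2 (fun n hn => xT_av (Or.inl hn)) hkk hC hCm hPT ht c

end

end Vale.Agent.P032.H357.SymU
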