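import Vale.Agent.P032.H892.BlkE

/-!
# P032: images of dead patterns at another centre

* `exists_sh` : next to a frame `F` there is a frame with the same map, direction and numbers of colours, whose centre is
  any point with hexagonal coordinates; the states agree at the common centres,
* `tva_sh` : the atoms of the new frame are the atoms of `F` at the shifted points,
* `shT`, `schk`, `shn` : the table of the shifted points, its check, the shifted atoms,
* `imV`, `imV_ho` : **clauses of images at the point number `shT TS k 0`, if this point has exactly the colours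
  `π 0, .., π (n - 1)`**,
* `N55E T` : two points with at least five colours at distance one have the same colours; `n5eC`, `n5e_ho`.
-/

open Set Filter Topology Metric

noncomputable section

namespace Vale.Agent.P032.H357.SymV

open Vale.Agent.P032.Six Vale.Agent.P032.Words Vale.Agent.P032.S5.H767
  Vale.Agent.P032.H913 Vale.Agent.P032.H357 Vale.Agent.P032.H61 Vale.Agent.P032.BlkV Vale.Agent.P032.BlkE
open Vale.Agent.P032.H892 (cj cj_cj)
open Vale.Agent.P032.H357.MK (co no co_no co_surj no_co no_lt co_inj of6 ct6 fx0 cf al al_spec Tb nbeq Cn alL alL_spec)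
open Vale.Agent.P032.H820.K (a0 a1 a2 a3 a4 En en_eq dec Md av lv Ho ps ng lv_ps lv_ng nbf lb lb_iff trv ho_trv)

/-! ### the shifted frame -/

theorem hp_hp (z : ℂ) (b : ℝ) (p q : ℤ × ℤ) : hp (hp z b q) b p = hp z b (p + q) := by
  unfold hp
  rw [Prod.fst_add, Prod.snd_add]
  push_cast
  ring

/-- **the frame at another centre** -/
theorem exists_sh {B : Type} [Finite B] {κ : ℕ → ℤ × ℤ} {cx : B → ℕ} (hcx : Function.Injective cx) {F : Fr}
    (hF : FOk κ cx F) (A : ℤ × ℤ) (f : B → Option B) (hf : ∀ c c', f c = some c' → κ (cx c') = κ (cx c) + A) :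
    ∃ F' : Fr, FOk κ cx F' ∧ F'.U = F.U ∧ F'.T = F.T ∧ F'.z = hp F.z F.b A ∧ F'.b = F.b ∧ F'.σ = F.σ ∧
      ∀ c c', f c = some c' → ∀ m, F'.s0 (cx c, m) = F.s0 (cx c', m) ∧ F'.s1 (cx c, m) = F.s1 (cx c', m) := by
  classical
  have he : ∀ (i' i : B × Fin 6), (f i'.1).map (fun c => (c, i'.2)) = some i →
      ct6 (fun c => hp (hp F.z F.b A) F.b (κ (cx c))) i' = ct6 (F.Z κ cx) i ∧
        ∃ n : ℤ, of6 i' = of6 i + 6 * n := by
    rintro ⟨c, m⟩ ⟨c', m'⟩ h
    rw [Option.map_eq_some_iff] at h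
    obtain ⟨c1, h1, h2⟩ := h
    obtain ⟨rfl, rfl⟩ := Prod.mk.inj h2
    refine ⟨?_, 0, ?_⟩
    · show hp (hp F.z F.b A) F.b (κ (cx c)) = hp F.z F.b (κ (cx c1))
      rw [hp_hp, hf c c1 h1]
    · show (m.val : ℝ) = (m.val : ℝ) + 6 * ((0 : ℤ) : ℝ)
      push_cast
      ring
  obtain ⟨t0, e0, ht0⟩ := ext_R hF.irr hF.lf3 he hF.r0
  obtain ⟨t1, e1, ht1⟩ := ext_L hF.irr hF.lf3 he hF.r1
  let ex : (B × Fin 6 → Fin 6 × Fin 6) → ℕ × Fin 6 → Fin 6 × Fin 6 := fun s i =>
    if hx : ∃ c, cx c = i.1 then s (hx.choose, i.2) else (0, 0)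
  have hex : ∀ s c m, ex s (cx c, m) = s (c, m) := by
    intro s c m
    have hx : ∃ c', cx c' = cx c := ⟨c, rfl⟩
    show (if hx : ∃ c', cx c' = cx c then s (hx.choose, m) else (0, 0)) = s (c, m)
    rw [dif_pos hx, hcx hx.choose_spec]
  have hr : ∀ s, rS cx (ex s) = s := fun s => funext fun i => hex s i.1 i.2
  refine ⟨⟨F.U, F.T, hp F.z F.b A, F.b, F.σ, ex t0, ex t1⟩, ⟨hF.irr, hF.ctn, hF.lf3, hF.five, hF.ln, ?_, ?_⟩, rfl, rfl,
    rfl, rfl, rfl, fun c c' h m => ?_⟩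
  · show rS cx (ex t0) ∈ _
    rw [hr]
    exact ht0
  · show rS cx (ex t1) ∈ _
    rw [hr]
    exact ht1
  · have h1 : (f c).map (fun c1 => (c1, m)) = some (c', m) := by rw [h]; rfl
    constructor
    · show ex t0 (cx c, m) = F.s0 (cx c', m)
      rw [hex]
      exact e0 (c, m) (c', m) h1
    · show ex t1 (cx c, m) = F.s1 (cx c', m)
      rw [hex]
      exact e1 (c, m) (c', m) h1

/-- the frame `F'` is the frame `F` at the point with the coordinates `A`; letters agree at `x` and `sh x` if `x` and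
`sh x` are centres -/
structure Shf (κ : ℕ → ℤ × ℤ) (C : ℕ → Prop) (sh : ℕ → ℕ) (A : ℤ × ℤ) (F F' : Fr) : Prop where
  eU : F'.U = F.U
  eT : F'.T = F.T
  ez : F'.z = hp F.z F.b A
  eb : F'.b = F.b
  es : F'.σ = F.σ
  lt : ∀ x, C x → C (sh x) → sh x ≠ 4095 → ∀ m, F'.s0 (x, m) = F.s0 (sh x, m) ∧ F'.s1 (x, m) = F.s1 (sh x, m)

theorem tva_sh {κ : ℕ → ℤ × ℤ} {C : ℕ → Prop} {sh : ℕ → ℕ} {A : ℤ × ℤ} {F F' : Fr} (h : Shf κ C sh A F F')
    {kd x j k q : ℕ} (hκ : κ (sh x) = κ x + A) (h9 : kd = 9 → C x ∧ C (sh x) ∧ sh x ≠ 4095) :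
    tva κ F' kd x j k q ↔ tva κ F kd (sh x) j k q := by
  have eP : F'.P κ x = F.P κ (sh x) := by
    show hp F'.z F'.b (κ x) = hp F.z F.b (κ (sh x))
    rw [h.ez, h.eb, hp_hp, hκ]
  unfold tva
  rw [eP, h.es, h.eT, h.eU, h.eb]
  by_cases e : kd = 9
  · obtain ⟨g1, g2, g3⟩ := h9 e
    rw [(h.lt x g1 g2 g3 _).1, (h.lt x g1 g2 g3 _).2]
  · rw [if_neg e, if_neg e]

/-! ### tables -/

/-- the number of the point `x` plus the point `shT TS k 0` -/
def shT (TS k x : ℕ) : ℕ := Nat.land (Nat.shiftRight TS (Nat.mul 12 (Nat.add (Nat.mul 256 k) x))) 4095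

/-- the check of the point `x` -/
def sgx (NP TC TS k x : ℕ) : Bool :=
  bif Nat.beq (shT TS k x) 4095 then true else
    (lb (shT TS k x) NP && fx0 TC (shT TS k x)) &&
    (Nat.beq (Nat.add (cf 2 TC (shT TS k x) 0) 8) (Nat.add (cf 2 TC x 0) (cf 2 TC (shT TS k 0) 0)) &&
      Nat.beq (Nat.add (cf 2 TC (shT TS k x) 1) 8) (Nat.add (cf 2 TC x 1) (cf 2 TC (shT TS k 0) 1)))

/-- the check of the table with `NT` shifts -/
def schk (NP TC TS NT : ℕ) : Bool :=
  al (fun k => (lb (shT TS k 0) NP && fx0 TC (shT TS k 0)) &&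
    al (fun x => bif fx0 TC x then sgx NP TC TS k x else true) NP) NT

/-- the shifts of the points are correct -/
structure STab (NP TC TS k : ℕ) : Prop where
  ga : Gp NP TC (shT TS k 0)
  sp : ∀ x, Gp NP TC x → shT TS k x ≠ 4095 →
    Gp NP TC (shT TS k x) ∧ kap TC (shT TS k x) = kap TC x + kap TC (shT TS k 0)

theorem stab_of {NP TC TS NT : ℕ} (h : schk NP TC TS NT = true) {k : ℕ} (hk : k < NT) : STab NP TC TS k := by
  have h1 := al_spec h k hk
  rw [Bool.and_eq_true, Bool.and_eq_true, lb_iff] at h1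
  refine ⟨h1.1, fun x hx hne => ?_⟩
  have h2 := al_spec h1.2 x hx.1
  rw [hx.2, cond_true] at h2
  unfold sgx at h2
  have n1 : Nat.beq (shT TS k x) 4095 = false := by rw [← Bool.not_eq_true, nbeq]; exact hne
  rw [n1, cond_false, Bool.and_eq_true, Bool.and_eq_true, Bool.and_eq_true, lb_iff, nbeq, nbeq] at h2
  obtain ⟨h3, h4, h5⟩ := h2
  refine ⟨h3, ?_⟩
  have h4 : cf 2 TC (shT TS k x) 0 + 8 = cf 2 TC x 0 + cf 2 TC (shT TS k 0) 0 := h4
  have h5 : cf 2 TC (shT TS k x) 1 + 8 = cf 2 TC x 1 + cf 2 TC (shT TS k 0) 1 := h5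
  unfold kap
  ext
  · show (cf 2 TC (shT TS k x) 0 : ℤ) - 8 = ((cf 2 TC x 0 : ℤ) - 8) + ((cf 2 TC (shT TS k 0) 0 : ℤ) - 8)
    omega
  · show (cf 2 TC (shT TS k x) 1 : ℤ) - 8 = ((cf 2 TC x 1 : ℤ) - 8) + ((cf 2 TC (shT TS k 0) 1 : ℤ) - 8)
    omega

/-- **there is a frame at the point number `shT TS k 0`** -/
theorem exists_shf {NP NW TC TS k : ℕ} (hNW : NW ≤ NP) {F : Fr} (hF : FOk (kap TC) (cxv NW TC) F)
    (h : STab NP TC TS k) : ∃ F' : Fr, FOk (kap TC) (cxv NW TC) F' ∧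
      Shf (kap TC) (Ce NW TC) (shT TS k) (kap TC (shT TS k 0)) F F' := by
  classical
  obtain ⟨F', h1, h2, h3, h4, h5, h6, h7⟩ := exists_sh (cx := cxv NW TC) Subtype.val_injective hF
    (kap TC (shT TS k 0))
    (fun c => if hc : Ce NW TC (shT TS k c.1) ∧ shT TS k c.1 ≠ 4095 then some ⟨shT TS k c.1, hc.1⟩ else none)
    (fun c c' hcc => by
      split_ifs at hcc with hc
      rw [← Option.some.inj hcc]
      exact (h.sp c.1 ⟨lt_of_lt_of_le c.2.1 hNW, c.2.2⟩ hc.2).2)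
  exact ⟨F', h1, h2, h3, h4, h5, h6, fun x hx hs hne m => h7 ⟨x, hx⟩ ⟨shT TS k x, hs⟩ (dif_pos ⟨hs, hne⟩) m⟩

/-! ### shifted atoms -/

/-- the shifted atom given by its fields -/
def shF (TS k kd x j z q : ℕ) : ℕ := En kd (shT TS k x) j z q

/-- the shifted atom -/
def shn (TS k n : ℕ) : ℕ :=
  shF TS k (Nat.mod n 16) (Nat.mod (Nat.div n 16) 4096) (Nat.mod (Nat.div n 65536) 256)
    (Nat.mod (Nat.div n 16777216) 8) (Nat.div n 134217728)

/-- the shifted literal -/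
def shl (TS k l : ℕ) : ℕ := Nat.add (Nat.mul 2 (shn TS k (Nat.div l 2))) (Nat.mod l 2)

/-- the shifted atom is an atom at the point `p`, of kind `kd` -/
def okF (NW kd p : ℕ) : Bool := bif Nat.beq p 4095 then false else bif Nat.beq kd 9 then lb p NW else true

/-- the shifted atom of a literal is allowed -/
def okS (NW TS k l : ℕ) : Bool :=
  okF NW (Nat.mod (Nat.div l 2) 16) (shT TS k (Nat.mod (Nat.div (Nat.div l 2) 16) 4096))

theorem okS_spec {NW TS k l : ℕ} (h : okS NW TS k l = true) :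
    shT TS k (a1 (l / 2)) ≠ 4095 ∧ (a0 (l / 2) = 9 → shT TS k (a1 (l / 2)) < NW) := by
  have h : okF NW (a0 (l / 2)) (shT TS k (a1 (l / 2))) = true := h
  unfold okF at h
  cases h1 : Nat.beq (shT TS k (a1 (l / 2))) 4095
  · rw [h1, cond_false] at h
    refine ⟨fun e => ?_, fun e => ?_⟩
    · rw [nbeq.2 e] at h1
      exact Bool.noConfusion h1
    · rw [nbeq.2 e, cond_true, lb_iff] at h
      exact h
  · rw [h1, cond_true] at h
    exact Bool.noConfusion h

section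
variable {NP NW TB TC TG TS k : ℕ} {F F' : Fr}

theorem wn_shn (h : STab NP TC TS k) {n : ℕ} (hn : Wn (Gp NP TC) (Ce NW TC) n)
    (h1 : shT TS k (a1 n) ≠ 4095) (h2 : a0 n = 9 → shT TS k (a1 n) < NW) :
    Wa (Gp NP TC) (Ce NW TC) (a0 n) (shT TS k (a1 n)) (a2 n) (a3 n) (a4 n) :=
  ⟨⟨hn.va.kind, (h.sp _ hn.va.pt h1).1, hn.va.col, hn.va.six⟩, fun e => ⟨h2 e, (h.sp _ hn.va.pt h1).1.2⟩⟩

theorem tv_shn (hNP : NP ≤ 4096) (h : STab NP TC TS k)
    (hs : Shf (kap TC) (Ce NW TC) (shT TS k) (kap TC (shT TS k 0)) F F') {n : ℕ}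
    (hn : Wn (Gp NP TC) (Ce NW TC) n) (h1 : shT TS k (a1 n) ≠ 4095) (h2 : a0 n = 9 → shT TS k (a1 n) < NW) :
    H61.tv (kap TC) F' n ↔ H61.tv (kap TC) F (shn TS k n) := by
  have hw := wn_shn h hn h1 h2
  have e : shn TS k n = En (a0 n) (shT TS k (a1 n)) (a2 n) (a3 n) (a4 n) := rfl
  rw [e, tv_en (fun x hx => lt_of_lt_of_le hx.1 hNP) hw]
  exact tva_sh hs (h.sp _ hn.va.pt h1).2 fun e => ⟨hn.cen e, ⟨h2 e, (h.sp _ hn.va.pt h1).1.2⟩, h1⟩

theorem shl_div (TS k l : ℕ) : shl TS k l / 2 = shn TS k (l / 2) := by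
  have e : shl TS k l = 2 * shn TS k (l / 2) + l % 2 := rfl
  rw [e]
  omega

theorem shl_mod (TS k l : ℕ) : shl TS k l % 2 = l % 2 := by
  have e : shl TS k l = 2 * shn TS k (l / 2) + l % 2 := rfl
  rw [e]
  omega

/-! ### clauses -/

/-- the literals of a list, mapped -/
def mpS (f : ℕ → ℕ) (L : List ℕ) : List ℕ := @List.rec ℕ (fun _ => List ℕ) [] (fun l _ ih => f l :: ih) L

theorem mpS_mem {f : ℕ → ℕ} {L : List ℕ} {l : ℕ} (h : l ∈ L) : f l ∈ mpS f L := by
  induction L with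
  | nil => exact absurd h List.not_mem_nil
  | cons y L ih =>
    show f l ∈ f y :: mpS f L
    rcases List.mem_cons.1 h with rfl | h
    · exact List.mem_cons_self
    · exact List.mem_cons_of_mem _ (ih h)

/-- the point number `a` has not exactly the colours `cp 0, .., cp (n - 1)`, or `L` -/
def gdC (n cp a : ℕ) (L : List ℕ) : List ℕ :=
  (bif lb 0 n then ng (En 4 a 0 0 (cpf cp 0)) else ps (En 4 a 0 0 (cpf cp 0))) ::
  (bif lb 1 n then ng (En 4 a 0 0 (cpf cp 1)) else ps (En 4 a 0 0 (cpf cp 1))) ::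
  (bif lb 2 n then ng (En 4 a 0 0 (cpf cp 2)) else ps (En 4 a 0 0 (cpf cp 2))) ::
  (bif lb 3 n then ng (En 4 a 0 0 (cpf cp 3)) else ps (En 4 a 0 0 (cpf cp 3))) ::
  (bif lb 4 n then ng (En 4 a 0 0 (cpf cp 4)) else ps (En 4 a 0 0 (cpf cp 4))) ::
  (bif lb 5 n then ng (En 4 a 0 0 (cpf cp 5)) else ps (En 4 a 0 0 (cpf cp 5))) :: L

/-- the clause of an image at another centre, without the guard -/
def shC (NW TS k : ℕ) (L : List ℕ) : List ℕ := bif alL (okS NW TS k) L then mpS (shl TS k) L else trv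

/-- the clause of an image at another centre, code `g + 2^4 i + 2^12 k + 2^17 m` : the element `g`, the permutation `i`,
the shift `k`, the pattern `m` -/
def imV (n : ℕ) (G : ℕ → Bool) (t : PTr) (PT NPM TG TS NT NW c : ℕ) : List ℕ :=
  bif (G (Nat.land c 15) && lb (Nat.land (Nat.shiftRight c 4) 255) NPM) &&
      lb (Nat.land (Nat.shiftRight c 12) 31) NT then
    gdC n (cpt PT (Nat.land (Nat.shiftRight c 4) 255)) (shT TS (Nat.land (Nat.shiftRight c 12) 31) 0)
      (shC NW TS (Nat.land (Nat.shiftRight c 12) 31) (imC TG (cpt PT (Nat.land (Nat.shiftRight c 4) 255))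
        (Nat.land c 15) (t.get (Nat.shiftRight c 17))))
  else trv

variable {B : Tb NP NW TB TC} {M : Md 2 NP NW (nbf 2 TB)} {C : Fr → Prop}

theorem ho_gdl (hM : Mdl B F M) {a q n cp : ℕ} (ha : Gp NP TC a) (hq : cpf cp q < 6) {L : List ℕ}
    (h : (co F.σ (cpf cp q) ∈ F.T (F.P (kap TC) a) ↔ q < n) → Ho M L) :
    Ho M ((bif lb q n then ng (En 4 a 0 0 (cpf cp q)) else ps (En 4 a 0 0 (cpf cp q))) :: L) := by
  have h1 := av_t hM ha hq
  by_cases h2 : q < n
  · rw [lb_iff.2 h2, cond_true]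
    exact H820.K.hn fun h3 => h ⟨fun _ => h2, fun _ => h1.1 h3⟩
  · have h3 : lb q n = false := by rw [← Bool.not_eq_true, lb_iff]; exact h2
    rw [h3, cond_false]
    exact H820.K.hp' fun h4 => h ⟨fun h5 => absurd (h1.2 h5) h4, fun h5 => absurd h5 h2⟩

theorem ho_gdC (hM : Mdl B F M) {a n cp : ℕ} (ha : Gp NP TC a) (hq : ∀ q < 6, cpf cp q < 6) {L : List ℕ}
    (h : (∀ q < 6, (co F.σ (cpf cp q) ∈ F.T (F.P (kap TC) a) ↔ q < n)) → Ho M L) : Ho M (gdC n cp a L) := by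
  unfold gdC
  refine ho_gdl hM ha (hq 0 (by norm_num)) fun h0 => ho_gdl hM ha (hq 1 (by norm_num)) fun h1 =>
    ho_gdl hM ha (hq 2 (by norm_num)) fun h2 => ho_gdl hM ha (hq 3 (by norm_num)) fun h3 =>
    ho_gdl hM ha (hq 4 (by norm_num)) fun h4 => ho_gdl hM ha (hq 5 (by norm_num)) fun h5 => h fun q hq6 => ?_
  interval_cases q
  · exact h0
  · exact h1
  · exact h2
  · exact h3
  · exact h4
  · exact h5

/-- the class `C` contains all valid frames with the map of `F` whose centre has exactly the colours below `n` -/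
def ClV (n NW TC : ℕ) (C : Fr → Prop) (F : Fr) : Prop := ∀ F', F'.U = F.U → F'.T = F.T → CN n NW TC F' → C F'

theorem clV_cn (n NW TC : ℕ) (F : Fr) : ClV n NW TC (CN n NW TC) F := fun _ _ _ h => h

theorem clV_cq {Q : (ℂ → Set (Fin 6)) → Prop} (n NW TC : ℕ) {F : Fr} (h : Q F.T) :
    ClV n NW TC (CQ Q n NW TC) F := fun F' _ eT hF' => ⟨hF', by rw [eT]; exact h⟩

/-- the check of a table of permutations -/
def okQ (PT NPM : ℕ) : Bool := al (fun i => isPm (cpt PT i)) NPM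

theorem okQ_spec {PT NPM : ℕ} (h : okQ PT NPM = true) {i : ℕ} (hi : i < NPM) :
    ∃ π : Equiv.Perm (Fin 6), ∀ q < 6, pn π q = cpf (cpt PT i) q := exists_pm (al_spec h i hi)

/-- **clauses of images at another centre hold in every model** -/
theorem imV_ho (t : Tabs (kap TC) (Gp NP TC) (Ce NW TC) (ptb TG)) {NT : ℕ} (hS : schk NP TC TS NT = true)
    (hM : Mdl B F M) (hF : FOk (kap TC) (cxv NW TC) F) {n : ℕ} (hC : ClV n NW TC C F) {G : ℕ → Bool}
    (hG : ∀ g, G g = true → g < 12 ∧ Cl1 (kap TC) (ptb TG) C (Gp NP TC) (Ce NW TC) g) {PT NPM : ℕ}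
    (hPT : okQ PT NPM = true) {tr : PTr}
    (ht : tr.All fun p => Dead (kap TC) C (pk p) ∧ Vl (Gp NP TC) (Ce NW TC) (pk p)) (c : ℕ) :
    Ho M (imV n G tr PT NPM TG TS NT NW c) := by
  unfold imV
  cases h1 : (G (Nat.land c 15) && lb (Nat.land (Nat.shiftRight c 4) 255) NPM) &&
      lb (Nat.land (Nat.shiftRight c 12) 31) NT
  · rw [cond_false]; exact ho_trv M
  · rw [cond_true]
    rw [Bool.and_eq_true, Bool.and_eq_true, lb_iff, lb_iff] at h1
    generalize Nat.land c 15 = g at h1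
    generalize Nat.land (Nat.shiftRight c 4) 255 = i at h1
    generalize Nat.land (Nat.shiftRight c 12) 31 = k at h1
    obtain ⟨hg, hg1⟩ := hG g h1.1.1
    obtain ⟨π, h2⟩ := okQ_spec hPT h1.1.2
    generalize cpt PT i = cp at h2
    obtain ⟨h4, h5⟩ := PTr.get_all ht (Nat.shiftRight c 17)
    generalize tr.get (Nat.shiftRight c 17) = x at h4 h5
    have hs := stab_of hS h1.2
    have hNP := B.hNP
    refine ho_gdC hM hs.ga (fun q hq => by rw [← h2 q hq]; exact pn_lt π q) fun hT => ?_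
    unfold shC
    cases h6 : alL (okS NW TS k) (imC TG cp g x)
    · rw [cond_false]; exact ho_trv M
    rw [cond_true]
    have h7 := alL_spec h6
    -- the new frame
    obtain ⟨F', hF', hsh⟩ := exists_shf B.hNW hF hs
    have hz : F'.z = F.P (kap TC) (shT TS k 0) := hsh.ez
    have hCF : C (F'.col π) := by
      refine hC _ hsh.eU hsh.eT ⟨hF'.col π, fun q hq => ?_⟩
      show co (F'.σ * π) q ∈ F'.T F'.z ↔ q < n
      rw [co_pn, hsh.es, hsh.eT, hz, h2 q hq]
      exact hT q hq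
    -- a literal of the pattern is false
    have h8 := hg1 _ h4 h5 _ hCF
    rw [not_forall] at h8
    obtain ⟨l, h8⟩ := h8
    rw [Classical.not_imp] at h8
    obtain ⟨hl, h8⟩ := h8
    obtain ⟨l0, hl0, rfl⟩ := List.mem_map.1 hl
    have hw0 : Wn (Gp NP TC) (Ce NW TC) (gn (ptb TG) g (l0 / 2)) := wn_gn t hg (h5 l0 hl0)
    have hw1 : Wn (Gp NP TC) (Ce NW TC) (nc (pn π) (gn (ptb TG) g (l0 / 2))) := hw0.nc t π
    set n1 := nc (pn π) (gn (ptb TG) g (l0 / 2)) with hn1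
    -- its image in the clause
    have e1 : gL TG cp g l0 = Nat.xor (2 * n1 + l0 % 2) 1 := by
      rw [gL_eq]
      congr 1
      unfold lm
      rw [gB_eq t hg (h5 l0 hl0), hn1]
      congr 2
      unfold nc
      congr 1
      unfold qc
      split_ifs
      · rfl
      · exact (h2 _ hw0.va.col).symm
    have hm : Nat.xor (2 * n1 + l0 % 2) 1 ∈ imC TG cp g x := by
      rw [← e1]
      unfold imC
      rw [upk_map (gL TG cp g)]
      exact List.mem_map_of_mem hl0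
    have e2 : Nat.xor (2 * n1 + l0 % 2) 1 / 2 = n1 ∧ Nat.xor (2 * n1 + l0 % 2) 1 % 2 = 1 - l0 % 2 := by
      have e3 : Nat.xor (2 * n1 + l0 % 2) 1 = 2 * n1 + (1 - l0 % 2) := by
        show (2 * n1 + l0 % 2) ^^^ 1 = _
        rcases Nat.mod_two_eq_zero_or_one l0 with h | h
        · rw [h, Nat.xor_one_of_even (by simp)]
        · rw [h, Nat.xor_one_of_odd (by exact odd_two_mul_add_one _)]
          simp
      rw [e3]
      omega
    refine ⟨_, mpS_mem hm, ?_⟩
    obtain ⟨g1, g2⟩ := okS_spec (h7 _ hm)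
    rw [e2.1] at g1 g2
    -- the values
    have h9 : H61.tv (kap TC) (F'.col π) (gn (ptb TG) g (l0 / 2)) ↔ H61.tv (kap TC) F (shn TS k n1) := by
      rw [← tv_shn hNP hs hsh hw1 g1 g2, hn1]
      unfold H61.nc
      rw [tv_en t.lt (Wa.col hw0 π)]
      exact tva_col' π
    have h10 : av M (shn TS k n1) ↔ H61.tv (kap TC) F (shn TS k n1) := by
      have hw2 := wn_shn hs hw1 g1 g2
      exact hM.av (wn_of t.lt hw2)
    unfold lf at h8
    rw [lm_mod, lm_div, h9, ← h10] at h8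
    unfold H820.K.lv
    rw [shl_div, shl_mod, e2.1, e2.2]
    rcases Nat.mod_two_eq_zero_or_one l0 with h | h
    · rw [h, if_pos rfl] at h8
      rw [h, if_neg (by norm_num)]
      exact h8
    · rw [h, if_neg (by norm_num), not_not] at h8
      rw [h, if_pos (by norm_num)]
      exact h8

end

/-! ### equal colours of neighbours -/

/-- two points with at least five colours at distance one have the same colours -/
def N55E (T : ℂ → Set (Fin 6)) : Prop := ∀ x y, dist x y = 1 → 5 ≤ (T x).ncard → 5 ≤ (T y).ncard → T x = T y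

theorem inv_n55e : Inv N55E := fun T h x y hxy h1 h2 => h (cj x) (cj y) (by rw [BlkE.cj_dist]; exact hxy) h1 h2

section
variable {NP NW TB TC : ℕ} {F : Fr} {M : Md 2 NP NW (nbf 2 TB)} {Y : ℕ → ℂ} {a : ℕ → ℝ}

theorem ho_n5' (hM : Rdm NP NW TB F M Y a) {x m : ℕ} (hx : x < NP) {c : List ℕ}
    (h : (∀ q < 6, q ≠ m → co F.σ q ∈ F.T (Y x)) → Ho M c) : Ho M (n5 x m c) := by
  unfold n5
  refine H820.K.hn fun h0 => H820.K.hn fun h1 => H820.K.hn fun h2 => H820.K.hn fun h3 => H820.K.hn fun h4 =>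
    H820.K.hn fun h5 => h ?_
  intro q hq hqm
  rw [← hM.av4 hx hq]
  have e := sl_ne hqm
  interval_cases q
  · rw [e] at h0; exact h0
  · rw [e] at h1; exact h1
  · rw [e] at h2; exact h2
  · rw [e] at h3; exact h3
  · rw [e] at h4; exact h4
  · rw [e] at h5; exact h5

theorem ho_n5e (hM : Rdm NP NW TB F M Y a) (h : N55E F.T) (h5 : ∀ y, ∃ i, i ∉ F.T y) {x s m m' : ℕ} (hx : x < NP)
    (hs : s < 12) (hn' : nbf 2 TB x s < NP) (hmm : m ≠ m') : Ho M (n55 TB x s m m') :=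
  ho_n5' hM hx fun h1 => ho_n5' hM hn' fun h2 => by
    exfalso
    have e := h _ _ (hM.dist hx hs hn') (five_le h1) (five_le h2)
    obtain ⟨i, hi⟩ := h5 (Y x)
    obtain ⟨q, hq, rfl⟩ := co_surj F.σ i
    by_cases hq1 : q = m
    · exact hi (by rw [e]; exact h2 q hq fun hq2 => hmm (hq1.symm.trans hq2))
    · exact hi (h1 q hq hq1)

/-- the code `x + 256 s + 4096 m + 32768 m'` -/
def n5eC (NP TB n : ℕ) : List ℕ :=
  bif (lb (Nat.land n 255) NP && (lb (Nat.land (Nat.shiftRight n 8) 15) 12 &&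
      lb (nbf 2 TB (Nat.land n 255) (Nat.land (Nat.shiftRight n 8) 15)) NP)) &&
      !(Nat.beq (Nat.land (Nat.shiftRight n 12) 7) (Nat.land (Nat.shiftRight n 15) 7)) then
    n55 TB (Nat.land n 255) (Nat.land (Nat.shiftRight n 8) 15) (Nat.land (Nat.shiftRight n 12) 7)
      (Nat.land (Nat.shiftRight n 15) 7)
  else trv

theorem n5eC_ho (hM : Rdm NP NW TB F M Y a) (h : N55E F.T) (h5 : ∀ y, ∃ i, i ∉ F.T y) (n : ℕ) :
    Ho M (n5eC NP TB n) := by
  unfold n5eC
  generalize Nat.land n 255 = x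
  generalize Nat.land (Nat.shiftRight n 8) 15 = s
  generalize Nat.land (Nat.shiftRight n 12) 7 = m
  generalize Nat.land (Nat.shiftRight n 15) 7 = m'
  cases h1 : (lb x NP && (lb s 12 && lb (nbf 2 TB x s) NP)) && !(Nat.beq m m')
  · rw [cond_false]; exact ho_trv M
  · rw [cond_true]
    rw [Bool.and_eq_true, Bool.and_eq_true, Bool.and_eq_true, lb_iff, lb_iff, lb_iff, Bool.not_eq_true'] at h1
    refine ho_n5e hM h h5 h1.1.1 h1.1.2.1 h1.1.2.2 fun e => ?_
    have h2 := h1.2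
    rw [nbeq.2 e] at h2
    exact Bool.noConfusion h2

end

/-! ### the conclusions -/

section
variable {NP NW TC : ℕ} {U : Fin 6 → Set ℂ} {T : ℂ → Set (Fin 6)}

/-- **the block X1, different colours** -/
theorem n55e_of_dead (hNP : NP ≤ 4096) (hg : Gp NP TC 1) (h1 : kap TC 1 = (1, 0))
    (hD : Dead (kap TC) (CW (fun _ => True) 5 5 NW TC) [ps (En 4 1 0 0 5)]) (h : Irr U T) (hl : LF3 U T)
    (hc : ∀ y, Ctn U T y) (hn : Ln U T) (h5 : ∀ y, (T y).ncard ≤ 5) : N55E T := by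
  intro x y hxy hx hy
  obtain ⟨b, hb⟩ := exists_pt (z := x) (y := y) (by rw [dist_comm]; exact hxy)
  obtain ⟨σ, hσ⟩ := exists_num (T x)
  obtain ⟨F, hF, e1, e2, e3, e4, e5⟩ := exists_fr (NW := NW) (TC := TC) h hl hc hn h5 x b σ
  have hx5 : (T x).ncard = 5 := le_antisymm (h5 x) hx
  have h6 : co σ 5 ∉ T y := by
    intro h7
    refine hD F ⟨⟨⟨hF, fun q hq => ?_⟩, trivial⟩, ?_⟩ fun l hl => ?_
    · rw [e2, e3, e5, hσ q hq, hx5]
    · rw [e2, e3, e4, hb]
      exact hy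
    · rw [List.mem_singleton.1 hl]
      have h8 : ps (En 4 1 0 0 5) % 2 = 0 := by
        have : ps (En 4 1 0 0 5) = 2 * En 4 1 0 0 5 := rfl
        omega
      have h9 : ps (En 4 1 0 0 5) / 2 = En 4 1 0 0 5 := by
        have : ps (En 4 1 0 0 5) = 2 * En 4 1 0 0 5 := rfl
        omega
      unfold lf
      rw [h8, h9, if_pos rfl, tv_en (fun x hx => lt_of_lt_of_le hx.1 hNP) (wa_t (NW := NW) hg (by norm_num))]
      unfold tva
      norm_num
      rw [P_one h1, e2, e3, e4, e5, hb]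
      exact h7
  have h7 : T y ⊆ T x := by
    intro i hi
    obtain ⟨q, hq, rfl⟩ := co_surj σ i
    rw [hσ q hq, hx5]
    by_contra h8
    have h9 : q = 5 := by omega
    exact h6 (h9 ▸ hi)
  exact (Set.eq_of_subset_of_ncard_le h7 (by rw [hx5]; exact hy) (Set.toFinite _)).symm

/-- **the block X1, equal colours** -/
theorem n55_of_dead_e (hD : Dead (kap TC) (CW N55E 5 5 NW TC) []) (h : Irr U T) (hl : LF3 U T)
    (hc : ∀ y, Ctn U T y) (hn : Ln U T) (h5 : ∀ y, (T y).ncard ≤ 5) (he : N55E T) : N55 T := fun x y hxy h1 h2 =>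
  no_pair hD h hl hc hn h5 he (by rw [dist_comm]; exact hxy) (le_antisymm (h5 x) h1) h2

end

end Vale.Agent.P032.H357.SymV
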