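import Vale.Agent.P032.H357.SymV
import Vale.Agent.P032.H357.Run3

/-!
# P032: images of dead patterns at any named point, in both classes

`M` is a model of the frame `F` at the time `u`.  For every named point `a` and every class `r` (`r = 0` : the directions
`b + m`, `r = 1` : the directions `u + m`) there is a valid frame with the same map, centre `a` and direction `b` or `u`;
its atoms of class 0 are atoms of `M`.

* `WTab` : the table of the points `sh x` = the point `x` seen from `a` in the class `r`,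
* `exists_fw` : the frame, `tva_fw` : its atoms (`Rdw`),
* `trW` : the atoms of `M` for an atom of class 0, `clW` : the clause, `clW_spec`,
* `imW`, `imW_ho`, `imW_hoX` : **clauses of images at any named point in both classes.**
-/

open Set Filter Topology Metric

noncomputable section

namespace Vale.Agent.P032.H357.SymW

open Vale.Agent.P032.Six Vale.Agent.P032.Words Vale.Agent.P032.S5.H767
  Vale.Agent.P032.H913 Vale.Agent.P032.H357 Vale.Agent.P032.H61 Vale.Agent.P032.BlkV Vale.Agent.P032.BlkE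
  Vale.Agent.P032.H357.SymV
open Vale.Agent.P032.H892 (AccR AccL)
open Vale.Agent.P032.H357.MK (co no co_no co_surj no_co no_lt co_inj of6 ct6 fx0 cf al al_spec Tb nbeq Cn alL alL_spec
  Hy Leg mS St4 Yt Yw t2_zero t2_one nC nC_eq xT xT_av rs nio)
open Vale.Agent.P032.H820.K (a0 a1 a2 a3 a4 En en_eq dec Md av lv Ho ps ng lv_ps lv_ng nbf lb lb_iff trv ho_trv av0 av4
  av5 av6 av9 av11 av14 av15)

/-! ### tables -/

/-- the check of the point `x` -/
def wgx (NP TC TS r k x : ℕ) : Bool :=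
  bif Nat.beq (shT TS k x) 4095 then true else
    lb (shT TS k x) NP &&
    ((Nat.beq (Nat.add (cf 2 TC (shT TS k x) (Nat.mul 2 r)) 8) (Nat.add (cf 2 TC x 0) (cf 2 TC (shT TS k 0) (Nat.mul 2 r))) &&
      Nat.beq (Nat.add (cf 2 TC (shT TS k x) (Nat.succ (Nat.mul 2 r))) 8)
        (Nat.add (cf 2 TC x 1) (cf 2 TC (shT TS k 0) (Nat.succ (Nat.mul 2 r))))) &&
    (Nat.beq (cf 2 TC (shT TS k x) (Nat.sub 2 (Nat.mul 2 r))) (cf 2 TC (shT TS k 0) (Nat.sub 2 (Nat.mul 2 r))) &&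
      Nat.beq (cf 2 TC (shT TS k x) (Nat.sub 3 (Nat.mul 2 r))) (cf 2 TC (shT TS k 0) (Nat.sub 3 (Nat.mul 2 r)))))

/-- the class of the row `k` -/
def rw1 (TR k : ℕ) : ℕ := Nat.mod (Nat.shiftRight TR k) 2

/-- the check of the table with `NT` rows -/
def wchk (NP TC TS TR NT : ℕ) : Bool :=
  al (fun k => lb (shT TS k 0) NP && al (fun x => bif fx0 TC x then wgx NP TC TS (rw1 TR k) k x else true) NP) NT

/-- the row `k` is correct for the class `r` -/
structure WTab (NP TC TS r k : ℕ) : Prop where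
  ga : shT TS k 0 < NP
  sp : ∀ x, Gp NP TC x → shT TS k x ≠ 4095 → shT TS k x < NP ∧
    (cf 2 TC (shT TS k x) (2 * r) + 8 = cf 2 TC x 0 + cf 2 TC (shT TS k 0) (2 * r) ∧
      cf 2 TC (shT TS k x) (2 * r + 1) + 8 = cf 2 TC x 1 + cf 2 TC (shT TS k 0) (2 * r + 1)) ∧
    (cf 2 TC (shT TS k x) (2 - 2 * r) = cf 2 TC (shT TS k 0) (2 - 2 * r) ∧
      cf 2 TC (shT TS k x) (3 - 2 * r) = cf 2 TC (shT TS k 0) (3 - 2 * r))

theorem rw1_lt (TR k : ℕ) : rw1 TR k < 2 := Nat.mod_lt _ (by norm_num)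

theorem wtab_of {NP TC TS TR NT : ℕ} (h : wchk NP TC TS TR NT = true) {k : ℕ} (hk : k < NT) :
    WTab NP TC TS (rw1 TR k) k := by
  have h1 := al_spec h k hk
  rw [Bool.and_eq_true, lb_iff] at h1
  refine ⟨h1.1, fun x hx hne => ?_⟩
  have h2 := al_spec h1.2 x hx.1
  rw [hx.2, cond_true] at h2
  unfold wgx at h2
  have n1 : Nat.beq (shT TS k x) 4095 = false := by rw [← Bool.not_eq_true, nbeq]; exact hne
  rw [n1, cond_false, Bool.and_eq_true, Bool.and_eq_true, Bool.and_eq_true, Bool.and_eq_true, lb_iff, nbeq, nbeq, nbeq,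
    nbeq] at h2
  exact h2

/-- the direction of the class -/
def br (u1 u : ℝ) (r : ℕ) : ℝ := if r = 0 then u1 else u

theorem WTab.pt {NP TC TS r k : ℕ} (h : WTab NP TC TS r k) (hr : r < 2) {u1 u : ℝ} {z : ℂ} {x : ℕ} (hx : Gp NP TC x)
    (hne : shT TS k x ≠ 4095) :
    Yt (t2 u1 u) 2 TC z (shT TS k x) = hp (Yt (t2 u1 u) 2 TC z (shT TS k 0)) (br u1 u r) (kap TC x) := by
  obtain ⟨-, ⟨h1, h2⟩, h3, h4⟩ := h.sp x hx hne
  unfold Yt hp kap br
  rw [Finset.sum_range_succ, Finset.sum_range_one, Finset.sum_range_succ, Finset.sum_range_one, t2_zero, t2_one]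
  have e1 : (cf 2 TC (shT TS k x) (2 * r) : ℂ) = (cf 2 TC x 0 : ℂ) + (cf 2 TC (shT TS k 0) (2 * r) : ℂ) - 8 := by
    have : (cf 2 TC (shT TS k x) (2 * r) : ℂ) + 8 = (cf 2 TC x 0 : ℂ) + (cf 2 TC (shT TS k 0) (2 * r) : ℂ) := by
      exact_mod_cast h1
    linear_combination this
  have e2 : (cf 2 TC (shT TS k x) (2 * r + 1) : ℂ) =
      (cf 2 TC x 1 : ℂ) + (cf 2 TC (shT TS k 0) (2 * r + 1) : ℂ) - 8 := by
    have : (cf 2 TC (shT TS k x) (2 * r + 1) : ℂ) + 8 =
        (cf 2 TC x 1 : ℂ) + (cf 2 TC (shT TS k 0) (2 * r + 1) : ℂ) := by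
      exact_mod_cast h2
    linear_combination this
  interval_cases r
  · norm_num at h3 h4 e1 e2 ⊢
    rw [h3, h4, e1, e2]
    ring
  · norm_num at h3 h4 e1 e2 ⊢
    rw [h3, h4, e1, e2]
    ring

/-! ### the frame -/

section
variable {NP NW TB TC TG TS r k : ℕ} {U : Fin 6 → Set ℂ} {T : ℂ → Set (Fin 6)}

/-- the right states of the class -/
def sRr {J : Type} (s0 R : J × Fin 6 → Fin 6 × Fin 6) (r : ℕ) : J × Fin 6 → Fin 6 × Fin 6 := if r = 0 then s0 else R

/-- the left states of the class, before the next direction -/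
def sLr {J : Type} (s1 L : J × Fin 6 → Fin 6 × Fin 6) (r : ℕ) : J × Fin 6 → Fin 6 × Fin 6 :=
  if r = 0 then s1 else fun i => L (i.1, i.2 + 1)

theorem sLr_mem {z : ℂ} {u1 u : ℝ} {s0 s1 L R : Fin NW × Fin 6 → Fin 6 × Fin 6}
    (S : St4 U T (Yw u1 u TC z NW) u1 u s0 s1 L R) (hr : r < 2) :
    sLr s1 L r ∈ LSt DO (IOs U T (nX (Yw u1 u TC z NW)) nO) (br u1 u r + 1) := by
  interval_cases r
  · exact S.h1
  · have h1 := lst_tr (X' := nX (Yw u1 u TC z NW)) (o' := nO) (o := nO) (d := 1)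
      (fun i : Fin NW × Fin 6 => (i.1, i.2 + 1)) (fun _ => rfl) (fun i => fin_add_one i.2) S.hL
    exact h1

theorem sRr_mem {z : ℂ} {u1 u : ℝ} {s0 s1 L R : Fin NW × Fin 6 → Fin 6 × Fin 6}
    (S : St4 U T (Yw u1 u TC z NW) u1 u s0 s1 L R) (hr : r < 2) :
    sRr s0 R r ∈ RSt DO (IOs U T (nX (Yw u1 u TC z NW)) nO) (br u1 u r) := by
  interval_cases r
  · exact S.h0
  · exact S.hR

/-- the frame `F'` has the centre `Y a` and the class `r` -/
structure Fw (NP NW TC TS r k : ℕ) (U : Fin 6 → Set ℂ) (T : ℂ → Set (Fin 6)) (z : ℂ) (σ : Equiv.Perm (Fin 6)) (u1 u : ℝ)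
    (s0 s1 L R : Fin NW × Fin 6 → Fin 6 × Fin 6) (F' : Fr) : Prop where
  ok : FOk (kap TC) (cxv NW TC) F'
  eU : F'.U = U
  eT : F'.T = T
  ez : F'.z = Yt (t2 u1 u) 2 TC z (shT TS k 0)
  eb : F'.b = br u1 u r
  es : F'.σ = σ
  l0 : ∀ x, Ce NW TC x → ∀ h : shT TS k x < NW, shT TS k x ≠ 4095 → ∀ m, F'.s0 (x, m) = sRr s0 R r (⟨shT TS k x, h⟩, m)
  l1 : ∀ x, Ce NW TC x → ∀ h : shT TS k x < NW, shT TS k x ≠ 4095 → ∀ m, F'.s1 (x, m) = sLr s1 L r (⟨shT TS k x, h⟩, m)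

/-- **there is a frame at the point number `shT TS k 0` in the class `r`** -/
theorem exists_fw (hNW : NW ≤ NP) (h : WTab NP TC TS r k) (hr : r < 2) (F : Hy U T) {z : ℂ} {u1 u : ℝ}
    (σ : Equiv.Perm (Fin 6)) {s0 s1 L R : Fin NW × Fin 6 → Fin 6 × Fin 6}
    (S : St4 U T (Yw u1 u TC z NW) u1 u s0 s1 L R) : ∃ F', Fw NP NW TC TS r k U T z σ u1 u s0 s1 L R F' := by
  classical
  set z' := Yt (t2 u1 u) 2 TC z (shT TS k 0) with hz'
  let f : Cn NW TC → Option (Fin NW) := fun c =>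
    if hc : shT TS k c.1 < NW ∧ shT TS k c.1 ≠ 4095 then some ⟨shT TS k c.1, hc.1⟩ else none
  have he : ∀ (i' : Cn NW TC × Fin 6) (i : Fin NW × Fin 6), (f i'.1).map (fun c => (c, i'.2)) = some i →
      ct6 (fun c : Cn NW TC => hp z' (br u1 u r) (kap TC c.1)) i' = nX (Yw u1 u TC z NW) i ∧
        ∃ n : ℤ, of6 i' = nO i + 6 * n := by
    rintro ⟨c, m⟩ ⟨c', m'⟩ h1
    rw [Option.map_eq_some_iff] at h1
    obtain ⟨c1, h1, h2⟩ := h1
    obtain ⟨rfl, rfl⟩ := Prod.mk.inj h2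
    refine ⟨?_, 0, ?_⟩
    · have h3 : (if hc : shT TS k c.1 < NW ∧ shT TS k c.1 ≠ 4095 then
          some (⟨shT TS k c.1, hc.1⟩ : Fin NW) else none) = some c1 := h1
      split_ifs at h3 with hc
      rw [← Option.some.inj h3]
      exact (h.pt hr ⟨lt_of_lt_of_le c.2.1 hNW, c.2.2⟩ hc.2).symm
    · show (m.val : ℝ) = (m.val : ℝ) + 6 * ((0 : ℤ) : ℝ)
      push_cast
      ring
  obtain ⟨t0, e0, ht0⟩ := ext_R F.h F.l3 he (sRr_mem S hr)
  obtain ⟨t1, e1, ht1⟩ := ext_L F.h F.l3 he (sLr_mem S hr)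
  let ex : (Cn NW TC × Fin 6 → Fin 6 × Fin 6) → ℕ × Fin 6 → Fin 6 × Fin 6 := fun s i =>
    if hx : i.1 < NW ∧ fx0 TC i.1 = true then s (⟨i.1, hx⟩, i.2) else (0, 0)
  have hex : ∀ s x (hx : x < NW ∧ fx0 TC x = true) m, ex s (x, m) = s (⟨x, hx⟩, m) := fun s x hx m => dif_pos hx
  have hrS : ∀ s, rS (cxv NW TC) (ex s) = s := fun s => funext fun i => hex s i.1.1 i.1.2 i.2
  have hf : ∀ x (hx : x < NW ∧ fx0 TC x = true) (h1 : shT TS k x < NW) (_ : shT TS k x ≠ 4095) (m : Fin 6),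
      (f ⟨x, hx⟩).map (fun c => (c, m)) = some (⟨shT TS k x, h1⟩, m) := by
    intro x hx h1 h2 m
    have h3 : f ⟨x, hx⟩ = some ⟨shT TS k x, h1⟩ := dif_pos ⟨h1, h2⟩
    rw [h3]
    rfl
  refine ⟨⟨U, T, z', br u1 u r, σ, ex t0, ex t1⟩, ⟨F.h, F.ct, F.l3, F.h5, F.ln, ?_, ?_⟩, rfl, rfl, rfl, rfl, rfl,
    fun x hx h1 h2 m => ?_, fun x hx h1 h2 m => ?_⟩
  · show rS (cxv NW TC) (ex t0) ∈ _
    rw [hrS]
    exact ht0
  · show rS (cxv NW TC) (ex t1) ∈ _
    rw [hrS]
    exact ht1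
  · show ex t0 (x, m) = _
    rw [hex t0 x hx]
    exact e0 (⟨x, hx⟩, m) _ (hf x hx h1 h2 m)
  · show ex t1 (x, m) = _
    rw [hex t1 x hx]
    exact e1 (⟨x, hx⟩, m) _ (hf x hx h1 h2 m)

/-! ### atoms -/

/-- `M` agrees with `M0` at the atoms of named points -/
def Agr (NP NW TB : ℕ) (M M0 : Md 2 NP NW (nbf 2 TB)) : Prop := ∀ n, a1 n < NP → (av M n ↔ av M0 n)

/-- the atoms of the model for an atom of class 0 of the frame, `p` = the point -/
def trF (r p kd j z q : ℕ) : List ℕ :=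
  bif Nat.beq kd 0 || Nat.beq kd 9 then [En kd p (Nat.add j r) z q] else
  bif Nat.ble kd 6 || Nat.beq r 0 then [En kd p j z q] else
  bif Nat.beq kd 11 then
    [En 0 p (Nat.succ (Nat.mul 2 j)) 0 q, En 0 p (Nat.mod (Nat.add (Nat.mul 2 j) 2) 12) 0 q,
      En 0 p (Nat.mod (Nat.add (Nat.mul 2 j) 2) 12) 1 q, En 0 p (Nat.mod (Nat.add (Nat.mul 2 j) 2) 12) 2 q,
      En 0 p (Nat.mod (Nat.add (Nat.mul 2 j) 2) 12) 3 q] else
  bif Nat.beq kd 14 then [En 0 p (Nat.succ (Nat.mul 2 j)) 0 q] else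
    [En 0 p (Nat.mod (Nat.add (Nat.mul 2 j) 2) 12) 0 q]

theorem se_cl {y : ℂ} {c : Fin 6} (h : Irr U T) {u1 u : ℝ} (hu : u ∈ Ioo u1 (u1 + 1)) {j : ℕ} :
    Se T y c (u + j) ↔ Cl (Sq T c) y (t2 u1 u) 0 (2 * j + 1) ∨ Cl (Sq T c) y (t2 u1 u) 0 (2 * j + 2) ∨
      Cl (Sq T c) y (t2 u1 u) 1 (2 * j + 2) ∨ Cl (Sq T c) y (t2 u1 u) 2 (2 * j + 2) ∨
      Cl (Sq T c) y (t2 u1 u) 3 (2 * j + 2) := by
  have h1 := MK.cl_sec2 (S := Sq T c) (x := y) (a := fun i => u + i) (a' := t2 u1 u) (K := 2) (j := j) (p := 2 * j + 1)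
    (tick_t2 hu) (by rw [t2_odd]) (by rw [show 2 * j + 1 + 2 = 2 * (j + 1) + 1 by ring, t2_odd])
  refine Iff.trans ?_ h1
  rw [cl_zero_dr h]
  constructor
  · rintro ⟨θ, g1, g2, g3⟩
    exact ⟨θ + 3 / 2, ⟨by unfold ra; simp only; linarith, by unfold ra; simp only; push_cast; linarith⟩, g1⟩
  · rintro ⟨θ, ⟨g1, g2⟩, g3⟩
    unfold ra at g1 g2
    simp only at g1 g2
    push_cast at g2
    refine ⟨θ - 3 / 2, ?_, by linarith, by linarith⟩
    show θ - 3 / 2 + 3 / 2 ∈ H892.Dr T y c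
    rw [sub_add_cancel]
    exact g3

/-- the value of an atom of class 0 of the frame in the model, `q` a colour -/
structure RdF (NP NW TB : ℕ) (κ : ℕ → ℤ × ℤ) (F' : Fr) (M : Md 2 NP NW (nbf 2 TB)) (r p kd x j z q : ℕ) : Prop where
  fwd : tva κ F' kd x j z q → ∃ a ∈ trF r p kd j z q, av M a
  bwd : r = 0 ∨ kd < 14 → ∀ a ∈ trF r p kd j z q, av M a → tva κ F' kd x j z q
  pt : ∀ a ∈ trF r p kd j z q, a1 a = p

theorem rdF_of_iff {κ : ℕ → ℤ × ℤ} {F' : Fr} {M : Md 2 NP NW (nbf 2 TB)} {r p kd x j z q a : ℕ}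
    (h : trF r p kd j z q = [a]) (hp : a1 a = p) (hv : av M a ↔ tva κ F' kd x j z q) :
    RdF NP NW TB κ F' M r p kd x j z q := by
  refine ⟨fun h1 => ⟨a, by rw [h]; exact List.mem_singleton_self _, hv.2 h1⟩, fun _ b hb h1 => ?_, fun b hb => ?_⟩
  · rw [h, List.mem_singleton] at hb
    exact hv.1 (hb ▸ h1)
  · rw [h, List.mem_singleton] at hb
    rw [hb]
    exact hp

theorem w_val {B : Tb NP NW TB TC} {hy : Hy U T} {z : ℂ} {σ : Equiv.Perm (Fin 6)} {u1 u : ℝ}
    {hu : u ∈ Ioo u1 (u1 + 1)} {s0 s1 L R : Fin NW × Fin 6 → Fin 6 × Fin 6}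
    {S : St4 U T (Yw u1 u TC z NW) u1 u s0 s1 L R} (hr : r < 2) {p j : ℕ} (hp : p < NW) (hj : j % 2 = 0) {sd io : ℕ} :
    (mS hy B z σ hu S).W p (j + r) sd io =
      no σ (H61.cmp io (if sd = 1 then sRr s0 R r (⟨p, hp⟩, f6 (j / 2)) else sLr s1 L r (⟨p, hp⟩, f6 (j / 2 + 5)))) := by
  show nC σ 2 NW (fun _ => wds s0 s1 L R) p (j + r) sd io = _
  rw [nC_eq hp]
  congr 1
  unfold wds sRr sLr H61.cmp
  interval_cases r
  · rw [add_zero]
    simp only [if_pos hj, if_true]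
  · simp only [if_neg (show ¬ (j + 1) % 2 = 0 by omega), one_ne_zero, if_false]
    rw [show (j + 1) / 2 = j / 2 by omega]
    have e : f6 (j / 2 + 5) + 1 = f6 (j / 2) := by
      rw [H61.f6_add]
      exact f6_eq (by omega)
    rw [e]

/-- **the atoms of the frame at the point `shT TS k 0` in the class `r`** -/
theorem rdF {B : Tb NP NW TB TC} {hy : Hy U T} {z : ℂ} {σ : Equiv.Perm (Fin 6)} {u1 u : ℝ}
    {hu : u ∈ Ioo u1 (u1 + 1)} {s0 s1 L R : Fin NW × Fin 6 → Fin 6 × Fin 6}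
    {S : St4 U T (Yw u1 u TC z NW) u1 u s0 s1 L R} (h : WTab NP TC TS r k) (hr : r < 2) {F' : Fr}
    (hF' : Fw NP NW TC TS r k U T z σ u1 u s0 s1 L R F') {kd x j w q : ℕ}
    (hn : Wa (Gp NP TC) (Ce NW TC) kd x j w q) (hne : shT TS k x ≠ 4095) (h9 : kd = 9 → shT TS k x < NW) :
    RdF NP NW TB (kap TC) F' (mS hy B z σ hu S) r (shT TS k x) kd x j w q := by
  have hp := (h.sp x hn.va.pt hne).1
  have hp4 : shT TS k x < 4096 := lt_of_lt_of_le hp B.hNP
  have eP : F'.P (kap TC) x = Yt (t2 u1 u) 2 TC z (shT TS k x) := by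
    show H61.hp F'.z F'.b (kap TC x) = _
    rw [hF'.ez, hF'.eb, h.pt hr hn.va.pt hne]
  have eU := hF'.eU
  have eT := hF'.eT
  have es := hF'.es
  have eb := hF'.eb
  have hq := hn.va.col
  rcases hn.va.kind with ⟨rfl, h1, h2, h3, h4⟩ | ⟨h0, h1, h2⟩ | ⟨rfl, h1, h2, h3⟩ | ⟨h0, h1, h2⟩
  · -- zones
    refine rdF_of_iff (a := En 0 (shT TS k x) (j + r) w q) rfl
      (dec (by norm_num) hp4 (by omega) (by omega)).2.1 ?_
    rw [av0 hp4 (by omega) (by omega)]
    show Cl (Sq T (co σ q)) (Yt (t2 u1 u) 2 TC z (shT TS k x)) (t2 u1 u) w (j + r) ↔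
      Zc (Sq F'.T (co F'.σ q)) (F'.P (kap TC) x) (F'.b + ((j / 2 : ℕ) : ℝ)) w
    rw [cl_zc (by omega), eP, eT, es, eb]
    have e1 : t2 u1 u (j + r) = br u1 u r + ((j / 2 : ℕ) : ℝ) := by
      obtain ⟨m, rfl⟩ : ∃ m, j = 2 * m := ⟨j / 2, by omega⟩
      rw [show 2 * m / 2 = m by omega]
      unfold br
      interval_cases r
      · rw [add_zero, t2_even]
        rfl
      · rw [t2_odd]
        rfl
    rw [e1]
  · -- palettes
    subst h1 h2
    rcases h0 with rfl | rfl | rfl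
    · refine rdF_of_iff (a := En 4 (shT TS k x) 0 0 q) rfl
        (dec (by norm_num) hp4 (by omega) (by omega)).2.1 ?_
      rw [av4 hp4]
      show co σ q ∈ T (Yt (t2 u1 u) 2 TC z (shT TS k x)) ↔ co F'.σ q ∈ F'.T (F'.P (kap TC) x)
      rw [eP, eT, es]
    · refine rdF_of_iff (a := En 5 (shT TS k x) 0 0 q) rfl
        (dec (by norm_num) hp4 (by omega) (by omega)).2.1 ?_
      rw [av5 hp4]
      show co σ q ∈ Pal U (Yt (t2 u1 u) 2 TC z (shT TS k x)) ↔ co F'.σ q ∈ Pal F'.U (F'.P (kap TC) x)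
      rw [eP, eU, es]
    · have hq0 := hn.va.six rfl
      subst hq0
      refine rdF_of_iff (a := En 6 (shT TS k x) 0 0 0) rfl
        (dec (by norm_num) hp4 (by omega) (by omega)).2.1 ?_
      rw [av6 hp4]
      show Yt (t2 u1 u) 2 TC z (shT TS k x) ∈ XX U ↔ F'.P (kap TC) x ∈ XX F'.U
      rw [eP, eU]
  · -- letters
    have hpw := h9 rfl
    have hc := hn.cen rfl
    refine rdF_of_iff (a := En 9 (shT TS k x) (j + r) w q) rfl
      (dec (by norm_num) hp4 (by omega) (by omega)).2.1 ?_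
    rw [av9 hp4 (by omega) (by omega), w_val hr hpw h1]
    have e0 := hF'.l0 x hc hpw hne (f6 (j / 2))
    have e1 := hF'.l1 x hc hpw hne (f6 (j / 2 + 5))
    unfold tva
    norm_num
    rw [e0, e1, es]
    have key : ∀ v : Fin 6, no σ v = q ↔ v = co σ q := fun v => by
      constructor
      · rintro rfl
        exact (co_no σ _).symm
      · rintro rfl
        exact no_co σ hq
    rw [key]
    interval_cases w <;> norm_num
  · -- sectors and rays
    subst h2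
    have hk14 : kd = 14 ∨ kd = 15 ∨ kd = 11 := by omega
    by_cases hr0 : r = 0
    · subst hr0
      have ht : trF 0 (shT TS k x) kd j 0 q = [En kd (shT TS k x) j 0 q] := by
        rcases hk14 with rfl | rfl | rfl <;> rfl
      refine rdF_of_iff (a := En kd (shT TS k x) j 0 q) ht (dec (by omega) hp4 (by omega) (by omega)).2.1 ?_
      have ebu : F'.b = u1 := by rw [eb]; rfl
      rcases hk14 with rfl | rfl | rfl
      · rw [av14 hp4 (by omega)]
        show AccR (Sh T (Yt (t2 u1 u) 2 TC z (shT TS k x)) (co σ q)) (t2 u1 u 0 + ((j : ℕ) : ℝ)) ↔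
          AccR (Sh F'.T (F'.P (kap TC) x) (co F'.σ q)) (F'.b + j)
        rw [eP, eT, es, ebu, t2_zero]
      · rw [av15 hp4 (by omega)]
        show AccL (Sh T (Yt (t2 u1 u) 2 TC z (shT TS k x)) (co σ q)) (t2 u1 u 0 + ((j : ℕ) : ℝ) + 1) ↔
          AccL (Sh F'.T (F'.P (kap TC) x) (co F'.σ q)) (F'.b + j + 1)
        rw [eP, eT, es, ebu, t2_zero]
      · rw [av11 hp4 (by omega)]
        show (Cl (Sq T (co σ q)) _ _ 0 (2 * j) ∨ Cl (Sq T (co σ q)) _ _ 0 (2 * j + 1) ∨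
          ∃ k < 3, Cl (Sq T (co σ q)) _ _ (k + 1) (2 * j + 1)) ↔ Se F'.T (F'.P (kap TC) x) (co F'.σ q) (F'.b + j)
        refine (MK.tick0 hu (shT TS k x) j h1 hy.h z TC (co σ q)).trans ?_
        rw [eP, eT, es, ebu]
        exact Iff.rfl
    · have hr1 : r = 1 := by omega
      subst hr1
      have ebu : F'.b = u := by rw [eb]; rfl
      have hcl := se_cl (T := T) (y := Yt (t2 u1 u) 2 TC z (shT TS k x)) (c := co σ q) hy.h hu (j := j)
      have hV : ∀ w' < 4, ∀ j' < 24, (av (mS hy B z σ hu S) (En 0 (shT TS k x) j' w' q) ↔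
          Cl (Sq T (co σ q)) (Yt (t2 u1 u) 2 TC z (shT TS k x)) (t2 u1 u) w' j') := fun w' hw' j' hj' => by
        rw [av0 hp4 (by omega) (by omega)]
        exact Iff.rfl
      have hm : ∀ w', (Cl (Sq T (co σ q)) (Yt (t2 u1 u) 2 TC z (shT TS k x)) (t2 u1 u) w' ((2 * j + 2) % 12) ↔
          Cl (Sq T (co σ q)) (Yt (t2 u1 u) 2 TC z (shT TS k x)) (t2 u1 u) w' (2 * j + 2)) := fun w' =>
        CK.cl_mod (K := 2) (tick_t2 hu)
      have hV2 : ∀ w' < 4, (av (mS hy B z σ hu S) (En 0 (shT TS k x) ((2 * j + 2) % 12) w' q) ↔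
          Cl (Sq T (co σ q)) (Yt (t2 u1 u) 2 TC z (shT TS k x)) (t2 u1 u) w' (2 * j + 2)) := fun w' hw' =>
        (hV w' hw' _ (by omega)).trans (hm w')
      have hpt : ∀ j' w', j' < 256 → w' < 8 → a1 (En 0 (shT TS k x) j' w' q) = shT TS k x := fun j' w' g1 g2 =>
        (dec (by norm_num) hp4 g1 g2).2.1
      rcases hk14 with rfl | rfl | rfl
      · refine ⟨fun h5 => ⟨En 0 (shT TS k x) (2 * j + 1) 0 q, List.mem_singleton_self _, ?_⟩, fun h5 => by omega,
          fun a ha => ?_⟩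
        · rw [hV 0 (by norm_num) _ (by omega), cl_zero_dr hy.h]
          have h6 : AccR (Sh F'.T (F'.P (kap TC) x) (co F'.σ q)) (F'.b + j) := h5
          rw [eP, eT, es, ebu] at h6
          have e1 : t2 u1 u (2 * j + 1) = u + j := t2_odd u1 u j
          have e2 : t2 u1 u (2 * j + 1 + 1) = u1 + (j + 1 : ℕ) := by
            rw [show 2 * j + 1 + 1 = 2 * (j + 1) by ring]
            exact t2_even u1 u (j + 1)
          obtain ⟨v, g1, g2, g3⟩ := h6.ne (show u + (j : ℝ) < u1 + ((j + 1 : ℕ) : ℝ) by push_cast; linarith [hu.2])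
          refine ⟨v + 3 / 2, ⟨?_, ?_⟩, g1⟩
          · unfold ra
            rw [e1]
            linarith
          · unfold ra
            rw [e2]
            linarith
        · have ha : a ∈ [En 0 (shT TS k x) (2 * j + 1) 0 q] := ha
          rw [List.mem_singleton.1 ha]
          exact hpt _ _ (by omega) (by norm_num)
      · refine ⟨fun h5 => ⟨En 0 (shT TS k x) ((2 * j + 2) % 12) 0 q, List.mem_singleton_self _, ?_⟩, fun h5 => by omega,
          fun a ha => ?_⟩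
        · rw [hV2 0 (by norm_num), cl_zero_dr hy.h]
          have h6 : AccL (Sh F'.T (F'.P (kap TC) x) (co F'.σ q)) (F'.b + j + 1) := h5
          rw [eP, eT, es, ebu] at h6
          have e1 : t2 u1 u (2 * j + 2) = u1 + (j + 1 : ℕ) := by
            rw [show 2 * j + 2 = 2 * (j + 1) by ring]
            exact t2_even u1 u (j + 1)
          have e2 : t2 u1 u (2 * j + 2 + 1) = u + (j + 1 : ℕ) := by
            rw [show 2 * j + 2 + 1 = 2 * (j + 1) + 1 by ring]
            exact t2_odd u1 u (j + 1)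
          obtain ⟨v, g1, g2, g3⟩ := h6.ne (show u1 + ((j + 1 : ℕ) : ℝ) < u + j + 1 by push_cast; linarith [hu.1])
          refine ⟨v + 3 / 2, ⟨?_, ?_⟩, g1⟩
          · unfold ra
            rw [e1]
            linarith
          · unfold ra
            rw [e2]
            push_cast
            linarith
        · have ha : a ∈ [En 0 (shT TS k x) ((2 * j + 2) % 12) 0 q] := ha
          rw [List.mem_singleton.1 ha]
          exact hpt _ _ (by omega) (by norm_num)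
      · have hS : tva (kap TC) F' 11 x j 0 q ↔ Se T (Yt (t2 u1 u) 2 TC z (shT TS k x)) (co σ q) (u + j) := by
          show Se F'.T (F'.P (kap TC) x) (co F'.σ q) (F'.b + j) ↔ _
          rw [eP, eT, es, ebu]
        have hl : ∀ a, a ∈ trF 1 (shT TS k x) 11 j 0 q ↔ a = En 0 (shT TS k x) (2 * j + 1) 0 q ∨
            a = En 0 (shT TS k x) ((2 * j + 2) % 12) 0 q ∨ a = En 0 (shT TS k x) ((2 * j + 2) % 12) 1 q ∨
            a = En 0 (shT TS k x) ((2 * j + 2) % 12) 2 q ∨ a = En 0 (shT TS k x) ((2 * j + 2) % 12) 3 q := by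
          intro a
          show a ∈ [En 0 (shT TS k x) (2 * j + 1) 0 q, En 0 (shT TS k x) ((2 * j + 2) % 12) 0 q,
            En 0 (shT TS k x) ((2 * j + 2) % 12) 1 q, En 0 (shT TS k x) ((2 * j + 2) % 12) 2 q,
            En 0 (shT TS k x) ((2 * j + 2) % 12) 3 q] ↔ _
          simp only [List.mem_cons, List.not_mem_nil, or_false]
        refine ⟨fun h5 => ?_, fun _ a ha h5 => ?_, fun a ha => ?_⟩
        · rw [hS, hcl] at h5
          rcases h5 with h5 | h5 | h5 | h5 | h5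
          · exact ⟨_, (hl _).2 (Or.inl rfl), (hV 0 (by norm_num) _ (by omega)).2 h5⟩
          · exact ⟨_, (hl _).2 (Or.inr (Or.inl rfl)), (hV2 0 (by norm_num)).2 h5⟩
          · exact ⟨_, (hl _).2 (Or.inr (Or.inr (Or.inl rfl))), (hV2 1 (by norm_num)).2 h5⟩
          · exact ⟨_, (hl _).2 (Or.inr (Or.inr (Or.inr (Or.inl rfl)))), (hV2 2 (by norm_num)).2 h5⟩
          · exact ⟨_, (hl _).2 (Or.inr (Or.inr (Or.inr (Or.inr rfl)))), (hV2 3 (by norm_num)).2 h5⟩
        · rw [hS, hcl]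
          rcases (hl a).1 ha with rfl | rfl | rfl | rfl | rfl
          · exact Or.inl ((hV 0 (by norm_num) _ (by omega)).1 h5)
          · exact Or.inr (Or.inl ((hV2 0 (by norm_num)).1 h5))
          · exact Or.inr (Or.inr (Or.inl ((hV2 1 (by norm_num)).1 h5)))
          · exact Or.inr (Or.inr (Or.inr (Or.inl ((hV2 2 (by norm_num)).1 h5))))
          · exact Or.inr (Or.inr (Or.inr (Or.inr ((hV2 3 (by norm_num)).1 h5))))
        · rcases (hl a).1 ha with rfl | rfl | rfl | rfl | rfl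
          · exact hpt _ _ (by omega) (by norm_num)
          · exact hpt _ _ (by omega) (by norm_num)
          · exact hpt _ _ (by omega) (by norm_num)
          · exact hpt _ _ (by omega) (by norm_num)
          · exact hpt _ _ (by omega) (by norm_num)

end

/-! ### clauses -/

/-- the element number `d` of `x :: l`, or the last one -/
def pkx (l : List ℕ) : ℕ → ℕ → ℕ := @List.rec ℕ (fun _ => ℕ → ℕ → ℕ) (fun x _ => x)
  (fun y _ ih x d => bif Nat.beq d 0 then x else ih y (Nat.sub d 1)) l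

/-- the element number `d`, or the last one -/
def pkd (l : List ℕ) (d : ℕ) : ℕ := @List.rec ℕ (fun _ => ℕ) 0 (fun x l _ => pkx l x d) l

theorem pkx_mem (l : List ℕ) (x d : ℕ) : pkx l x d ∈ x :: l := by
  induction l generalizing x d with
  | nil => exact List.mem_cons_self
  | cons y l ih =>
    show (bif Nat.beq d 0 then x else pkx l y (Nat.sub d 1)) ∈ x :: y :: l
    cases Nat.beq d 0
    · rw [cond_false]
      exact List.mem_cons_of_mem _ (ih y _)
    · exact List.mem_cons_self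

theorem pkd_mem {l : List ℕ} (h : l ≠ []) (d : ℕ) : pkd l d ∈ l := by
  cases l with
  | nil => exact absurd rfl h
  | cons x l => exact pkx_mem l x d

/-- the atoms of the model for the atom `n` -/
def trN (TS r k n : ℕ) : List ℕ :=
  trF r (shT TS k (Nat.mod (Nat.div n 16) 4096)) (Nat.mod n 16) (Nat.mod (Nat.div n 65536) 256)
    (Nat.mod (Nat.div n 16777216) 8) (Nat.div n 134217728)

theorem trF_ne {r p kd j z q : ℕ} : trF r p kd j z q ≠ [] := by
  unfold trF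
  cases Nat.beq kd 0 || Nat.beq kd 9
  · rw [cond_false]
    cases Nat.ble kd 6 || Nat.beq r 0
    · rw [cond_false]
      cases Nat.beq kd 11
      · rw [cond_false]
        cases Nat.beq kd 14
        · exact List.cons_ne_nil _ _
        · exact List.cons_ne_nil _ _
      · exact List.cons_ne_nil _ _
    · exact List.cons_ne_nil _ _
  · exact List.cons_ne_nil _ _

/-- the literals for the literal `l` of a clause, digit `d` -/
def ltW (TS r k d l : ℕ) : List ℕ :=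
  bif Nat.beq (Nat.mod l 2) 0 then mpS ps (trN TS r k (Nat.div l 2)) else [ng (pkd (trN TS r k (Nat.div l 2)) d)]

/-- the literal is allowed -/
def okW (NW TS r k l : ℕ) : Bool :=
  okF NW (Nat.mod (Nat.div l 2) 16) (shT TS k (Nat.mod (Nat.div (Nat.div l 2) 16) 4096)) &&
    (bif Nat.beq (Nat.mod l 2) 0 || Nat.beq r 0 then true else lb (Nat.mod (Nat.div l 2) 16) 14)

/-- a digit is used -/
def usW (r l : ℕ) : Bool :=
  (Nat.beq (Nat.mod l 2) 1 && Nat.beq r 1) && Nat.beq (Nat.mod (Nat.div l 2) 16) 11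

/-- the clause for the clause `L`, digits `s` -/
def clW (TS r k : ℕ) (L : List ℕ) : ℕ → List ℕ := @List.rec ℕ (fun _ => ℕ → List ℕ) (fun _ => [])
  (fun l _ ih s => List.append (ltW TS r k (Nat.land s 7) l) (ih (bif usW r l then Nat.shiftRight s 3 else s))) L

theorem clW_mem {TS r k : ℕ} {L : List ℕ} {l : ℕ} (h : l ∈ L) (s : ℕ) :
    ∃ d, ∀ a ∈ ltW TS r k d l, a ∈ clW TS r k L s := by
  induction L generalizing s with
  | nil => exact absurd h List.not_mem_nil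
  | cons y L ih =>
    have e : clW TS r k (y :: L) s = ltW TS r k (Nat.land s 7) y ++
        clW TS r k L (bif usW r y then Nat.shiftRight s 3 else s) := rfl
    rw [e]
    rcases List.mem_cons.1 h with rfl | h
    · exact ⟨_, fun a ha => List.mem_append_left _ ha⟩
    · obtain ⟨d, hd⟩ := ih h (bif usW r y then Nat.shiftRight s 3 else s)
      exact ⟨d, fun a ha => List.mem_append_right _ (hd a ha)⟩

/-- the clause of an image in the class `r`, without the guard -/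
def shW (NW TS r k s : ℕ) (L : List ℕ) : List ℕ := bif alL (okW NW TS r k) L then clW TS r k L s else trv

/-- the clause of an image at another point and class, code `g + 2^4 i + 2^12 k + 2^18 m + 2^38 s` : the element `g`, the
permutation `i`, the row `k`, the pattern `m`, the digits `s` -/
def imW (n : ℕ) (G : ℕ → Bool) (t : PTr) (PT NPM TG TS TR NT NW c : ℕ) : List ℕ :=
  bif (G (Nat.land c 15) && lb (Nat.land (Nat.shiftRight c 4) 255) NPM) &&
      lb (Nat.land (Nat.shiftRight c 12) 63) NT then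
    gdC n (cpt PT (Nat.land (Nat.shiftRight c 4) 255)) (shT TS (Nat.land (Nat.shiftRight c 12) 63) 0)
      (shW NW TS (rw1 TR (Nat.land (Nat.shiftRight c 12) 63)) (Nat.land (Nat.shiftRight c 12) 63)
        (Nat.shiftRight c 38) (imC TG (cpt PT (Nat.land (Nat.shiftRight c 4) 255))
        (Nat.land c 15) (t.get (Nat.land (Nat.shiftRight c 18) 1048575))))
  else trv

section
variable {NP NW TB TC TG TS TR NT r k : ℕ} {B : Tb NP NW TB TC} {F : Fr} {M M0 : Md 2 NP NW (nbf 2 TB)} {C : Fr → Prop}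

theorem ho_gdlA (B : Tb NP NW TB TC) (hA : Agr NP NW TB M M0) {a q n cp : ℕ} {Y : ℂ} (ha : a < NP)
    (hY : ∀ q < 6, (av M0 (En 4 a 0 0 q) ↔ co F.σ q ∈ F.T Y)) (hq : cpf cp q < 6) {L : List ℕ}
    (h : (co F.σ (cpf cp q) ∈ F.T Y ↔ q < n) → Ho M L) :
    Ho M ((bif lb q n then ng (En 4 a 0 0 (cpf cp q)) else ps (En 4 a 0 0 (cpf cp q))) :: L) := by
  have ha4 : a < 4096 := lt_of_lt_of_le ha B.hNP
  have e1 : a1 (En 4 a 0 0 (cpf cp q)) = a := (dec (by norm_num) ha4 (by norm_num) (by norm_num)).2.1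
  have h1 : av M (En 4 a 0 0 (cpf cp q)) ↔ co F.σ (cpf cp q) ∈ F.T Y :=
    (hA _ (by rw [e1]; exact ha)).trans (hY _ hq)
  by_cases h2 : q < n
  · rw [lb_iff.2 h2, cond_true]
    exact H820.K.hn fun h3 => h ⟨fun _ => h2, fun _ => h1.1 h3⟩
  · have h3 : lb q n = false := by rw [← Bool.not_eq_true, lb_iff]; exact h2
    rw [h3, cond_false]
    exact H820.K.hp' fun h4 => h ⟨fun h5 => absurd (h1.2 h5) h4, fun h5 => absurd h5 h2⟩

theorem ho_gdCA (B : Tb NP NW TB TC) (hA : Agr NP NW TB M M0) {a n cp : ℕ} {Y : ℂ} (ha : a < NP)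
    (hY : ∀ q < 6, (av M0 (En 4 a 0 0 q) ↔ co F.σ q ∈ F.T Y)) (hq : ∀ q < 6, cpf cp q < 6) {L : List ℕ}
    (h : (∀ q < 6, (co F.σ (cpf cp q) ∈ F.T Y ↔ q < n)) → Ho M L) : Ho M (gdC n cp a L) := by
  unfold gdC
  refine ho_gdlA B hA ha hY (hq 0 (by norm_num)) fun h0 => ho_gdlA B hA ha hY (hq 1 (by norm_num)) fun h1 =>
    ho_gdlA B hA ha hY (hq 2 (by norm_num)) fun h2 => ho_gdlA B hA ha hY (hq 3 (by norm_num)) fun h3 =>
    ho_gdlA B hA ha hY (hq 4 (by norm_num)) fun h4 => ho_gdlA B hA ha hY (hq 5 (by norm_num)) fun h5 =>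
    h fun q hq6 => ?_
  interval_cases q
  · exact h0
  · exact h1
  · exact h2
  · exact h3
  · exact h4
  · exact h5

/-- a false literal of the pattern gives a true literal of the clause -/
theorem lit_ho {hy : Hy F.U F.T} {u : ℝ} {hu : u ∈ Ioo F.b (F.b + 1)}
    {s0 s1 L R : Fin NW × Fin 6 → Fin 6 × Fin 6} {S : St4 F.U F.T (Yw F.b u TC F.z NW) F.b u s0 s1 L R}
    (hA : Agr NP NW TB M (mS hy B F.z F.σ hu S)) (hs : WTab NP TC TS r k) (hr : r < 2) {F' : Fr}
    (hF' : Fw NP NW TC TS r k F.U F.T F.z F.σ F.b u s0 s1 L R F') {n1 v b : ℕ}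
    (hw : Wn (Gp NP TC) (Ce NW TC) n1) (hb : b < 2) (hv1 : v / 2 = n1) (hv2 : v % 2 = 1 - b)
    (hok : okW NW TS r k v = true) (h : ¬ (if b = 0 then H61.tv (kap TC) F' n1 else ¬ H61.tv (kap TC) F' n1)) (d : ℕ) :
    ∃ a ∈ ltW TS r k d v, lv M a := by
  unfold okW at hok
  rw [Bool.and_eq_true] at hok
  have h12 : okF NW (a0 (v / 2)) (shT TS k (a1 (v / 2))) = true := hok.1
  have h13 : (bif Nat.beq (v % 2) 0 || Nat.beq r 0 then true else lb (a0 (v / 2)) 14) = true := hok.2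
  rw [hv1] at h12 h13
  have hne : shT TS k (a1 n1) ≠ 4095 := by
    intro e
    unfold okF at h12
    rw [nbeq.2 e, cond_true] at h12
    exact Bool.noConfusion h12
  have h9 : a0 n1 = 9 → shT TS k (a1 n1) < NW := by
    intro e
    unfold okF at h12
    have : Nat.beq (shT TS k (a1 n1)) 4095 = false := by rw [← Bool.not_eq_true, nbeq]; exact hne
    rw [this, cond_false, nbeq.2 e, cond_true, lb_iff] at h12
    exact h12
  obtain ⟨hf1, hf2, hf3⟩ := rdF (hu := hu) (S := S) (B := B) (hy := hy) hs hr hF' hw hne h9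
  have hpA : ∀ a ∈ trN TS r k n1, (av M a ↔ av (mS hy B F.z F.σ hu S) a) := fun a ha =>
    hA a (by rw [hf3 a ha]; exact (hs.sp _ hw.va.pt hne).1)
  have ev : Nat.mod v 2 = 1 - b := hv2
  have ed : Nat.div v 2 = n1 := hv1
  unfold ltW
  rw [ev, ed]
  by_cases h0 : b = 0
  · rw [if_pos h0] at h
    have g0 : Nat.beq (1 - b) 0 = false := by
      rw [← Bool.not_eq_true, nbeq]
      omega
    rw [g0, cond_false]
    have hk : r = 0 ∨ a0 n1 < 14 := by
      by_contra hcon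
      push Not at hcon
      have g1 : Nat.beq (v % 2) 0 = false := by
        rw [← Bool.not_eq_true, nbeq, hv2]
        omega
      have g2 : Nat.beq r 0 = false := by rw [← Bool.not_eq_true, nbeq]; exact hcon.1
      rw [g1, g2, Bool.or_self, cond_false, lb_iff] at h13
      omega
    have hmem := pkd_mem (l := trN TS r k n1) trF_ne d
    exact ⟨_, List.mem_singleton_self _, lv_ng.2 fun h15 => h (hf2 hk _ hmem ((hpA _ hmem).1 h15))⟩
  · rw [if_neg h0, not_not] at h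
    have g1 : Nat.beq (1 - b) 0 = true := nbeq.2 (by omega)
    rw [g1, cond_true]
    obtain ⟨a, ha, h15⟩ := hf1 h
    exact ⟨ps a, mpS_mem (f := ps) (l := a) ha, lv_ps.2 ((hpA a ha).2 h15)⟩

/-- the literals of the clause of an image -/
theorem imC_mem (t : Tabs (kap TC) (Gp NP TC) (Ce NW TC) (ptb TG)) {g cp x l0 : ℕ} (hg : g < 12)
    (hw : Wn (Gp NP TC) (Ce NW TC) (l0 / 2)) (hl0 : l0 ∈ pk x) {π : Equiv.Perm (Fin 6)}
    (hπ : ∀ q < 6, pn π q = cpf cp q) :
    ∃ v ∈ imC TG cp g x, v / 2 = nc (pn π) (gn (ptb TG) g (l0 / 2)) ∧ v % 2 = 1 - l0 % 2 := by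
  have hw0 := wn_gn t hg hw
  refine ⟨gL TG cp g l0, ?_, ?_⟩
  · unfold imC
    rw [upk_map (gL TG cp g)]
    exact List.mem_map_of_mem hl0
  · have e : gL TG cp g l0 = 2 * gB TG cp g (l0 / 2) + (1 - l0 % 2) := rfl
    have e2 : gB TG cp g (l0 / 2) = nc (pn π) (gn (ptb TG) g (l0 / 2)) := by
      rw [gB_eq t hg hw]
      unfold nc
      congr 1
      unfold qc
      split_ifs
      · rfl
      · exact (hπ _ hw0.va.col).symm
    rw [e, e2]
    omega

/-- **clauses of images at any named point in both classes hold in every model** -/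
theorem imW_hoA (t : Tabs (kap TC) (Gp NP TC) (Ce NW TC) (ptb TG)) (hS : wchk NP TC TS TR NT = true)
    (hM : Mdl B F M0) (hA : Agr NP NW TB M M0) {n : ℕ} (hC : ClV n NW TC C F) {G : ℕ → Bool}
    (hG : ∀ g, G g = true → g < 12 ∧ Cl1 (kap TC) (ptb TG) C (Gp NP TC) (Ce NW TC) g) {PT NPM : ℕ}
    (hPT : okQ PT NPM = true) {tr : PTr}
    (ht : tr.All fun p => Dead (kap TC) C (pk p) ∧ Vl (Gp NP TC) (Ce NW TC) (pk p)) (c : ℕ) :
    Ho M (imW n G tr PT NPM TG TS TR NT NW c) := by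
  unfold imW
  cases h1 : (G (Nat.land c 15) && lb (Nat.land (Nat.shiftRight c 4) 255) NPM) &&
      lb (Nat.land (Nat.shiftRight c 12) 63) NT
  · rw [cond_false]; exact ho_trv M
  · rw [cond_true]
    rw [Bool.and_eq_true, Bool.and_eq_true, lb_iff, lb_iff] at h1
    generalize Nat.land c 15 = g at h1
    generalize Nat.land (Nat.shiftRight c 4) 255 = i at h1
    generalize Nat.land (Nat.shiftRight c 12) 63 = k at h1
    generalize Nat.shiftRight c 38 = sd
    obtain ⟨hg, hg1⟩ := hG g h1.1.1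
    obtain ⟨π, h2⟩ := okQ_spec hPT h1.1.2
    generalize cpt PT i = cp at h2
    obtain ⟨h4, h5⟩ := PTr.get_all ht (Nat.land (Nat.shiftRight c 18) 1048575)
    generalize tr.get (Nat.land (Nat.shiftRight c 18) 1048575) = x at h4 h5
    have hs := wtab_of hS h1.2
    have hr := rw1_lt TR k
    generalize rw1 TR k = r at hs hr
    obtain ⟨hy, u, hu, s0, s1, L, R, S, e0, e1, rfl⟩ := id hM
    obtain ⟨F', hF'⟩ := exists_fw B.hNW hs hr hy F.σ S
    have ha4 : shT TS k 0 < 4096 := lt_of_lt_of_le hs.ga B.hNP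
    refine ho_gdCA (F := F) B hA (Y := F'.z) hs.ga (fun q hq => ?_)
      (fun q hq => by rw [← h2 q hq]; exact pn_lt π q) fun hT => ?_
    · rw [av4 ha4]
      show co F.σ q ∈ F.T (Yt (t2 F.b u) 2 TC F.z (shT TS k 0)) ↔ _
      rw [hF'.ez]
    unfold shW
    cases h6 : alL (okW NW TS r k) (imC TG cp g x)
    · rw [cond_false]; exact ho_trv M
    rw [cond_true]
    have hCF : C (F'.col π) := by
      refine hC _ hF'.eU hF'.eT ⟨hF'.ok.col π, fun q hq => ?_⟩
      show co (F'.σ * π) q ∈ F'.T F'.z ↔ q < n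
      rw [co_pn, hF'.es, hF'.eT, h2 q hq]
      exact hT q hq
    have h8 := hg1 _ h4 h5 _ hCF
    rw [not_forall] at h8
    obtain ⟨l, h8⟩ := h8
    rw [Classical.not_imp] at h8
    obtain ⟨hl, h8⟩ := h8
    obtain ⟨l0, hl0, rfl⟩ := List.mem_map.1 hl
    have hw0 := wn_gn t hg (h5 l0 hl0)
    obtain ⟨v, hm, hv1, hv2⟩ := imC_mem t hg (h5 l0 hl0) hl0 h2
    obtain ⟨d, hd⟩ := clW_mem (TS := TS) (r := r) (k := k) hm sd
    have k1 : H61.tv (kap TC) F' (nc (pn π) (gn (ptb TG) g (l0 / 2))) ↔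
        H61.tv (kap TC) (F'.col π) (gn (ptb TG) g (l0 / 2)) := by
      unfold H61.nc
      rw [tv_en t.lt (Wa.col hw0 π)]
      exact (tva_col' π).symm
    unfold lf at h8
    rw [lm_mod, lm_div, ← k1] at h8
    obtain ⟨a, ha, h9⟩ := lit_ho hA hs hr hF' (hw0.nc t π) (Nat.mod_lt l0 (by norm_num)) hv1 hv2
      (alL_spec h6 v hm) h8 d
    exact ⟨a, hd a ha, h9⟩

/-- the clauses hold in every model -/
theorem imW_ho (t : Tabs (kap TC) (Gp NP TC) (Ce NW TC) (ptb TG)) (hS : wchk NP TC TS TR NT = true)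
    (hM : Mdl B F M) {n : ℕ} (hC : ClV n NW TC C F) {G : ℕ → Bool}
    (hG : ∀ g, G g = true → g < 12 ∧ Cl1 (kap TC) (ptb TG) C (Gp NP TC) (Ce NW TC) g) {PT NPM : ℕ}
    (hPT : okQ PT NPM = true) {tr : PTr}
    (ht : tr.All fun p => Dead (kap TC) C (pk p) ∧ Vl (Gp NP TC) (Ce NW TC) (pk p)) (c : ℕ) :
    Ho M (imW n G tr PT NPM TG TS TR NT NW c) := imW_hoA t hS hM (fun _ _ => Iff.rfl) hC hG hPT ht c

/-- the clauses hold in every model with free atoms -/
theorem imW_hoX (t : Tabs (kap TC) (Gp NP TC) (Ce NW TC) (ptb TG)) (hS : wchk NP TC TS TR NT = true)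
    {XF : Fr → MK.XV NW} (hM : MdlX B XF F M) {n : ℕ} (hC : ClV n NW TC C F) {G : ℕ → Bool}
    (hG : ∀ g, G g = true → g < 12 ∧ Cl1 (kap TC) (ptb TG) C (Gp NP TC) (Ce NW TC) g) {PT NPM : ℕ}
    (hPT : okQ PT NPM = true) {tr : PTr}
    (ht : tr.All fun p => Dead (kap TC) C (pk p) ∧ Vl (Gp NP TC) (Ce NW TC) (pk p)) (c : ℕ) :
    Ho M (imW n G tr PT NPM TG TS TR NT NW c) := by
  obtain ⟨M0, X, h1, rfl⟩ := hM.base
  exact imW_hoA t hS h1 (fun n hn => xT_av (Or.inl hn)) hC hG hPT ht c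

end

end Vale.Agent.P032.H357.SymW
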